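import Mathlib
import Vale.Agent.P262.H44.Tilt
import Vale.Agent.P262.H59.Rim

/-!
# P262, block PER (lossless weighted perimeter), part 1: functionals of a weighted body on the
lines of a fixed direction

`mL w K e x` : maximum of `w * exp (-t^2/2)` over the points of `K` on the line through `x`;
`ML w e x`   : the same without `K`;
`gL w K e x` : Gaussian integral of `w` over the chord.
-/

set_option linter.all false

open MeasureTheory Set Filter ProbabilityTheory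
open scoped ENNReal NNReal Topology RealInnerProductSpace

namespace Vale.Agent.P262.H431

open Vale.Agent.P262.H493 hiding fib
open Vale.Agent.P262.H395 Vale.Agent.P262.H44

/-! ### a one dimensional inequality -/

lemma lintegral_comp_affine {c : ℝ → ℝ≥0∞} (hc : Measurable c) {Θ : ℝ} (hΘ : 0 < Θ) (b : ℝ) :
    ∫⁻ t, c (b + Θ * t) = ENNReal.ofReal Θ⁻¹ * ∫⁻ u, c u := by
  have h1 : ∫⁻ t, c (b + Θ * t) = ∫⁻ t, (fun u => c (b + u)) (Θ * t) := rfl
  have hm : Measurable fun u => c (b + u) := hc.comp (measurable_const.add measurable_id)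
  rw [h1, ← lintegral_map (f := fun u => c (b + u)) (μ := volume) hm (measurable_const_mul Θ),
    Real.map_volume_mul_left hΘ.ne', lintegral_smul_measure, abs_of_pos (inv_pos.mpr hΘ),
    lintegral_add_left_eq_self (μ := volume) c b, smul_eq_mul]

theorem key1 {Θ : ℝ} (hΘ : 0 < Θ) (hΘ1 : Θ < 1) {a b c : ℝ → ℝ≥0∞} (hc : Measurable c)
    (h : ∀ s t, a s ^ (1 - Θ) * b t ^ Θ ≤ c ((1 - Θ) * s + Θ * t)) (hb : (⨆ t, b t) ≠ ⊤) :
    (⨆ s, a s) ^ (1 - Θ) * ∫⁻ t, b t ≤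
      (⨆ t, b t) ^ (1 - Θ) * (ENNReal.ofReal Θ⁻¹ * ∫⁻ u, c u) := by
  have h1Θ : 0 < 1 - Θ := by linarith
  have e : (⨆ s, a s) ^ (1 - Θ) = ⨆ s, a s ^ (1 - Θ) :=
    (ENNReal.orderIsoRpow (1 - Θ) h1Θ).map_iSup a
  rw [e, ENNReal.iSup_mul]
  refine iSup_le fun s => ?_
  have hB : (⨆ t, b t) ^ (1 - Θ) ≠ ⊤ := ENNReal.rpow_ne_top_of_nonneg h1Θ.le hb
  rw [← lintegral_comp_affine hc hΘ ((1 - Θ) * s)]
  calc a s ^ (1 - Θ) * ∫⁻ t, b t ≤ ∫⁻ t, a s ^ (1 - Θ) * b t := lintegral_const_mul_le _ _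
    _ ≤ ∫⁻ t, (⨆ t, b t) ^ (1 - Θ) * c ((1 - Θ) * s + Θ * t) := by
        refine lintegral_mono fun t => ?_
        show a s ^ (1 - Θ) * b t ≤ _
        have h2 : b t = b t ^ (1 - Θ) * b t ^ Θ :=
          (rpow_mul_rpow_self (x := b t) h1Θ hΘ (by ring)).symm
        calc a s ^ (1 - Θ) * b t = b t ^ (1 - Θ) * (a s ^ (1 - Θ) * b t ^ Θ) := by
              conv_lhs => rw [h2]
              ring
          _ ≤ (⨆ t, b t) ^ (1 - Θ) * c ((1 - Θ) * s + Θ * t) :=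
              mul_le_mul' (ENNReal.rpow_le_rpow (le_iSup b t) h1Θ.le) (h s t)
    _ = (⨆ t, b t) ^ (1 - Θ) * ∫⁻ t, c ((1 - Θ) * s + Θ * t) :=
        lintegral_const_mul' _ _ hB

theorem key2 {Θ : ℝ} (hΘ : 0 < Θ) (hΘ1 : Θ < 1) {a b c : ℝ → ℝ≥0∞} (hc : Measurable c)
    (h : ∀ s t, a s ^ (1 - Θ) * b t ^ Θ ≤ c ((1 - Θ) * s + Θ * t)) (hb : (⨆ t, b t) ≠ ⊤)
    {τ k : ℝ≥0∞} (hτ : τ * (⨆ t, b t) ≤ k * ∫⁻ t, b t) :
    τ * ((⨆ s, a s) ^ (1 - Θ) * (⨆ t, b t) ^ Θ) ≤ ENNReal.ofReal Θ⁻¹ * (k * ∫⁻ u, c u) := by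
  have h1Θ : 0 < 1 - Θ := by linarith
  by_cases hb0 : (⨆ t, b t) = 0
  · rw [hb0, ENNReal.zero_rpow_of_pos hΘ, mul_zero, mul_zero]
    exact bot_le
  have hB : (⨆ t, b t) ^ (1 - Θ) ≠ ⊤ := ENNReal.rpow_ne_top_of_nonneg h1Θ.le hb
  have hB0 : (⨆ t, b t) ^ (1 - Θ) ≠ 0 := by
    intro h0
    rw [ENNReal.rpow_eq_zero_iff] at h0
    rcases h0 with h0 | h0
    · exact hb0 h0.1
    · exact hb h0.1
  rw [← ENNReal.mul_le_mul_iff_right hB0 hB]
  have e := rpow_mul_rpow_self (x := ⨆ t, b t) h1Θ hΘ (by ring)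
  have k1 := key1 hΘ hΘ1 hc h hb
  calc (⨆ t, b t) ^ (1 - Θ) * (τ * ((⨆ s, a s) ^ (1 - Θ) * (⨆ t, b t) ^ Θ))
      = (⨆ s, a s) ^ (1 - Θ) * (τ * ((⨆ t, b t) ^ (1 - Θ) * (⨆ t, b t) ^ Θ)) := by ring
    _ = (⨆ s, a s) ^ (1 - Θ) * (τ * (⨆ t, b t)) := by rw [e]
    _ ≤ (⨆ s, a s) ^ (1 - Θ) * (k * ∫⁻ t, b t) := mul_le_mul' le_rfl hτ
    _ = k * ((⨆ s, a s) ^ (1 - Θ) * ∫⁻ t, b t) := by ring
    _ ≤ k * ((⨆ t, b t) ^ (1 - Θ) * (ENNReal.ofReal Θ⁻¹ * ∫⁻ u, c u)) := mul_le_mul' le_rfl k1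
    _ = (⨆ t, b t) ^ (1 - Θ) * (ENNReal.ofReal Θ⁻¹ * (k * ∫⁻ u, c u)) := by ring

variable {E : Type*} [NormedAddCommGroup E] [InnerProductSpace ℝ E] [FiniteDimensional ℝ E]
  [MeasurableSpace E] [BorelSpace E]

/-! ### lines -/

/-- the point with `e`-coordinate `s` on the line through `x` with direction `e` -/
noncomputable def pt (e x : E) (s : ℝ) : E := x + (s - ⟪e, x⟫) • e

lemma inner_pt {e : E} (he : ‖e‖ = 1) (x : E) (s : ℝ) : ⟪e, pt e x s⟫ = s := by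
  unfold pt
  rw [inner_add_right, inner_smul_right, real_inner_self_eq_norm_sq, he]
  ring

lemma norm_pt_sq {e : E} (he : ‖e‖ = 1) (x : E) (s : ℝ) :
    ‖pt e x s‖ ^ 2 = ‖x‖ ^ 2 - ⟪e, x⟫ ^ 2 + s ^ 2 := by
  unfold pt
  rw [norm_add_sq_real, inner_smul_right, norm_smul, he, mul_one, Real.norm_eq_abs, sq_abs,
    real_inner_comm]
  ring

lemma pt_lin (e x y : E) (s t a b : ℝ) (hst : s + t = 1) :
    s • pt e x a + t • pt e y b = pt e (s • x + t • y) (s * a + t * b) := by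
  unfold pt
  rw [inner_add_right, inner_smul_right, inner_smul_right]
  module

lemma continuous_pt (e : E) : Continuous fun p : E × ℝ => pt e p.1 p.2 := by
  unfold pt
  fun_prop

lemma continuous_pt_left (e : E) (s : ℝ) : Continuous fun x : E => pt e x s := by
  unfold pt
  fun_prop

lemma continuous_pt_right (e x : E) : Continuous fun s : ℝ => pt e x s := by
  unfold pt
  fun_prop

lemma pt_self (e x : E) : pt e x ⟪e, x⟫ = x := by
  unfold pt
  simp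

lemma pt_add (e x : E) (he : ‖e‖ = 1) (r s : ℝ) : pt e (x + r • e) s = pt e x s := by
  unfold pt
  rw [inner_add_right, inner_smul_right, real_inner_self_eq_norm_sq, he]
  module

lemma pt_of_orth {e : E} (he : ‖e‖ = 1) (x w : E) (hw : w ∈ (ℝ ∙ e)ᗮᗮ) (s : ℝ) :
    pt e (x + w) s = pt e x s := by
  rw [Submodule.orthogonal_orthogonal] at hw
  obtain ⟨t, rfl⟩ := Submodule.mem_span_singleton.mp hw
  exact pt_add e x he t s

lemma pt_pt {e : E} (he : ‖e‖ = 1) (x : E) (r s : ℝ) : pt e (pt e x r) s = pt e x s := by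
  conv_lhs => rw [pt, inner_pt he]
  unfold pt
  module

lemma mix_line {e : E} (he : ‖e‖ = 1) (x z : E) :
    Vale.Agent.P262.H395.mix (ℝ ∙ e)ᗮ x z = pt e x ⟪e, z⟫ := by
  have h1 : ∀ y : E, (ℝ ∙ e)ᗮ.starProjection y = y - ⟪e, y⟫ • e := by
    intro y
    rw [Submodule.starProjection_orthogonal_val, Submodule.starProjection_singleton]
    simp [he]
  unfold Vale.Agent.P262.H395.mix pt
  rw [h1, h1]
  module

lemma pt_mix {e : E} (he : ‖e‖ = 1) {W : Submodule ℝ E} (hW : W ≤ (ℝ ∙ e)ᗮ) (u z : E) (s : ℝ) :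
    pt e (Vale.Agent.P262.H395.mix W u z) s = Vale.Agent.P262.H395.mix W u (pt e z s) := by
  have h1 : W.starProjection e = 0 := by
    apply proj_eq_zero
    have : e ∈ (ℝ ∙ e) := Submodule.mem_span_singleton_self e
    have h2 : (ℝ ∙ e) ≤ Wᗮ := by
      rw [← Submodule.orthogonal_orthogonal (ℝ ∙ e)]
      exact Submodule.orthogonal_le hW
    exact h2 this
  have h2 : ∀ y : E, ⟪e, W.starProjection y⟫ = 0 := by
    intro y
    rw [← Submodule.inner_starProjection_left_eq_right, h1, inner_zero_left]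
  unfold pt Vale.Agent.P262.H395.mix
  rw [inner_add_right, inner_sub_right, h2, h2, map_add, map_smul, h1]
  module

/-- fibre average along the line -/
lemma fib_line {e : E} (he : ‖e‖ = 1) {f : E → ℝ≥0∞} (hf : Measurable f) (x : E) :
    fib (ℝ ∙ e)ᗮ f x = ∫⁻ t, f (pt e x t) ∂(gaussianReal 0 1) := by
  have hm : Measurable fun z : E => ⟪e, z⟫ := by fun_prop
  have hg : Measurable fun s : ℝ => f (pt e x s) := hf.comp (continuous_pt_right e x).measurable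
  rw [← Vale.Agent.P262.H59.map_inner_std he, lintegral_map hg hm]
  unfold fib
  simp only [mix_line he]

lemma fib_line_vol {e : E} (he : ‖e‖ = 1) {f : E → ℝ≥0∞} (hf : Measurable f) (x : E) :
    fib (ℝ ∙ e)ᗮ f x = kk * ∫⁻ t, ee t * f (pt e x t) := by
  have hg : Measurable fun s : ℝ => f (pt e x s) := hf.comp (continuous_pt_right e x).measurable
  rw [fib_line he hf, gaussianReal_of_var_ne_zero 0 one_ne_zero,
    lintegral_withDensity_eq_lintegral_mul _ (measurable_gaussianPDF 0 1) hg]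
  have e1 : ∀ t : ℝ, (gaussianPDF 0 1 * fun t => f (pt e x t)) t = kk * (ee t * f (pt e x t)) := by
    intro t
    rw [Pi.mul_apply, gpdf_eq, mul_assoc]
    rfl
  simp_rw [e1]
  rw [lintegral_const_mul' _ _ kk_ne_top]

/-! ### line functionals -/

/-- maximum over the chord -/
noncomputable def mL (w : E → ℝ≥0∞) (K : Set E) (e x : E) : ℝ≥0∞ :=
  ⨆ t : ℝ, ee t * K.indicator w (pt e x t)

/-- maximum over the whole line -/
noncomputable def ML (w : E → ℝ≥0∞) (e x : E) : ℝ≥0∞ := ⨆ t : ℝ, ee t * w (pt e x t)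

/-- Gaussian integral over the chord -/
noncomputable def gL (w : E → ℝ≥0∞) (K : Set E) (e x : E) : ℝ≥0∞ := fib (ℝ ∙ e)ᗮ (K.indicator w) x

variable {w : E → ℝ≥0∞} {K : Set E} {e : E}

lemma mL_le_ML (w : E → ℝ≥0∞) (K : Set E) (e x : E) : mL w K e x ≤ ML w e x :=
  iSup_mono fun t => mul_le_mul' le_rfl (indicator_le_self' (fun _ _ => bot_le) _)

lemma inv_mL (he : ‖e‖ = 1) : Inv (ℝ ∙ e)ᗮ (mL w K e) := by
  intro x y hy
  unfold mL
  simp only [pt_of_orth he x y hy]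

lemma inv_ML (he : ‖e‖ = 1) : Inv (ℝ ∙ e)ᗮ (ML w e) := by
  intro x y hy
  unfold ML
  simp only [pt_of_orth he x y hy]

lemma inv_gL : Inv (ℝ ∙ e)ᗮ (gL w K e) := inv_fib _ _

/-- the residual one-dimensional density of the tilt -/
noncomputable def q1 (c t : ℝ) : ℝ≥0∞ := ENNReal.ofReal (Real.exp (-((1 / 2 - c) * t ^ 2)))

/-- the prefactor of the tilt -/
noncomputable def B1 (c : ℝ) (e x : E) : ℝ≥0∞ := ENNReal.ofReal (Real.exp (-(c * ⟪e, x⟫ ^ 2)))

/-- the log-concave density on the line -/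
noncomputable def Ph (c : ℝ) (w : E → ℝ≥0∞) (K : Set E) (e x : E) (t : ℝ) : ℝ≥0∞ :=
  q1 c t * (ec c (pt e x t) * K.indicator w (pt e x t))

lemma B1_ne_top (c : ℝ) (e x : E) : B1 c e x ≠ ⊤ := ENNReal.ofReal_ne_top

lemma tilt_id (he : ‖e‖ = 1) (c : ℝ) (x : E) (t : ℝ) (f : ℝ≥0∞) :
    ec c x * (ee t * f) = B1 c e x * (q1 c t * (ec c (pt e x t) * f)) := by
  have h : ec c x * ee t = B1 c e x * (q1 c t * ec c (pt e x t)) := by
    unfold ec ee B1 q1
    rw [← ENNReal.ofReal_mul (Real.exp_pos _).le, ← Real.exp_add,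
      ← ENNReal.ofReal_mul (Real.exp_pos _).le, ← Real.exp_add,
      ← ENNReal.ofReal_mul (Real.exp_pos _).le, ← Real.exp_add, norm_pt_sq he]
    congr 2
    ring
  calc ec c x * (ee t * f) = (ec c x * ee t) * f := by ring
    _ = (B1 c e x * (q1 c t * ec c (pt e x t))) * f := by rw [h]
    _ = _ := by ring

lemma ec_mL (he : ‖e‖ = 1) (c : ℝ) (x : E) :
    ec c x * mL w K e x = B1 c e x * ⨆ t, Ph c w K e x t := by
  unfold mL Ph
  rw [ENNReal.mul_iSup, ENNReal.mul_iSup]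
  exact iSup_congr fun t => tilt_id he c x t _

lemma measurable_Ph (hw : Measurable w) (hK : MeasurableSet K) (c : ℝ) (x : E) :
    Measurable (Ph c w K e x) := by
  have h1 : Measurable (q1 c) := by
    unfold q1
    fun_prop
  exact h1.mul (((continuous_ec c).measurable.comp (continuous_pt_right e x).measurable).mul
    ((hw.indicator hK).comp (continuous_pt_right e x).measurable))

lemma ec_gL (he : ‖e‖ = 1) (hw : Measurable w) (hK : MeasurableSet K) (c : ℝ) (x : E) :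
    ec c x * gL w K e x = B1 c e x * (kk * ∫⁻ t, Ph c w K e x t) := by
  unfold gL
  rw [fib_line_vol he (hw.indicator hK)]
  calc ec c x * (kk * ∫⁻ t, ee t * K.indicator w (pt e x t))
      = kk * (ec c x * ∫⁻ t, ee t * K.indicator w (pt e x t)) := by ring
    _ = kk * ∫⁻ t, ec c x * (ee t * K.indicator w (pt e x t)) := by
        rw [lintegral_const_mul' _ _ (ec_ne_top c x)]
    _ = kk * ∫⁻ t, B1 c e x * Ph c w K e x t := by
        congr 1
        exact lintegral_congr fun t => tilt_id he c x t _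
    _ = kk * (B1 c e x * ∫⁻ t, Ph c w K e x t) := by
        rw [lintegral_const_mul' _ _ (B1_ne_top c e x)]
    _ = _ := by ring

lemma q1_lc {c : ℝ} (hc : c ≤ 1 / 2) (a b s t : ℝ) (hs : 0 < s) (ht : 0 < t) (hst : s + t = 1) :
    q1 c a ^ s * q1 c b ^ t ≤ q1 c (s * a + t * b) :=
  exp_quad_lc _ (by linarith) a b s t hs ht hst

lemma B1_lc {c : ℝ} (hc : 0 ≤ c) (e x y : E) (s t : ℝ) (hs : 0 < s) (ht : 0 < t)
    (hst : s + t = 1) : B1 c e x ^ s * B1 c e y ^ t ≤ B1 c e (s • x + t • y) := by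
  unfold B1
  rw [inner_add_right, inner_smul_right, inner_smul_right]
  exact exp_quad_lc _ hc _ _ s t hs ht hst

lemma Ph_lc {c : ℝ} (hc : c ≤ 1 / 2) (hK : Convex ℝ K)
    (hw : LogConc fun x => ec c x * w x) (x y : E) (a b s t : ℝ)
    (hs : 0 < s) (ht : 0 < t) (hst : s + t = 1) :
    Ph c w K e x a ^ s * Ph c w K e y b ^ t ≤ Ph c w K e (s • x + t • y) (s * a + t * b) := by
  unfold Ph
  rw [ENNReal.mul_rpow_of_nonneg _ _ hs.le, ENNReal.mul_rpow_of_nonneg _ _ ht.le]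
  have h1 := q1_lc hc a b s t hs ht hst
  have h2 : (ec c (pt e x a) * K.indicator w (pt e x a)) ^ s *
      (ec c (pt e y b) * K.indicator w (pt e y b)) ^ t ≤
      ec c (pt e (s • x + t • y) (s * a + t * b)) *
        K.indicator w (pt e (s • x + t • y) (s * a + t * b)) := by
    rw [← pt_lin e x y s t a b hst]
    by_cases hx : pt e x a ∈ K
    · by_cases hy : pt e y b ∈ K
      · rw [indicator_of_mem hx, indicator_of_mem hy,
          indicator_of_mem (hK hx hy hs.le ht.le hst)]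
        exact hw _ _ s t hs ht hst
      · rw [indicator_of_notMem hy, mul_zero, ENNReal.zero_rpow_of_pos ht, mul_zero]
        exact bot_le
    · rw [indicator_of_notMem hx, mul_zero, ENNReal.zero_rpow_of_pos hs, zero_mul]
      exact bot_le
  calc _ = (q1 c a ^ s * q1 c b ^ t) * ((ec c (pt e x a) * K.indicator w (pt e x a)) ^ s *
      (ec c (pt e y b) * K.indicator w (pt e y b)) ^ t) := by ring
    _ ≤ _ := mul_le_mul' h1 h2

lemma sup_lc {c : ℝ} (hc : c ≤ 1 / 2) (hK : Convex ℝ K)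
    (hw : LogConc fun x => ec c x * w x) (x y : E) (s t : ℝ)
    (hs : 0 < s) (ht : 0 < t) (hst : s + t = 1) :
    (⨆ a, Ph c w K e x a) ^ s * (⨆ b, Ph c w K e y b) ^ t ≤ ⨆ u, Ph c w K e (s • x + t • y) u := by
  have e1 : (⨆ a, Ph c w K e x a) ^ s = ⨆ a, Ph c w K e x a ^ s :=
    (ENNReal.orderIsoRpow s hs).map_iSup _
  have e2 : (⨆ b, Ph c w K e y b) ^ t = ⨆ b, Ph c w K e y b ^ t :=
    (ENNReal.orderIsoRpow t ht).map_iSup _
  rw [e1, e2, ENNReal.iSup_mul]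
  refine iSup_le fun a => ?_
  rw [ENNReal.mul_iSup]
  refine iSup_le fun b => ?_
  exact (Ph_lc hc hK hw x y a b s t hs ht hst).trans (le_iSup _ _)

/-- log-concavity of the tilted maximum -/
theorem lc_mL {c : ℝ} (he : ‖e‖ = 1) (hc0 : 0 ≤ c) (hc : c ≤ 1 / 2) (hK : Convex ℝ K)
    (hw : LogConc fun x => ec c x * w x) : LogConc fun x => ec c x * mL w K e x := by
  intro x y s t hs ht hst
  show (ec c x * mL w K e x) ^ s * (ec c y * mL w K e y) ^ t ≤
    ec c (s • x + t • y) * mL w K e (s • x + t • y)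
  rw [ec_mL he, ec_mL he, ec_mL he, ENNReal.mul_rpow_of_nonneg _ _ hs.le,
    ENNReal.mul_rpow_of_nonneg _ _ ht.le]
  calc _ = (B1 c e x ^ s * B1 c e y ^ t) *
      ((⨆ a, Ph c w K e x a) ^ s * (⨆ b, Ph c w K e y b) ^ t) := by ring
    _ ≤ _ := mul_le_mul' (B1_lc hc0 e x y s t hs ht hst) (sup_lc hc hK hw x y s t hs ht hst)

/-- the mixed inequality: lines through `y` on which the integral is comparable with the maximum
transfer it -/
theorem mix_gL {c : ℝ} (he : ‖e‖ = 1) (hc0 : 0 ≤ c) (hc : c ≤ 1 / 2) (hK : Convex ℝ K)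
    (hKm : MeasurableSet K) (hwm : Measurable w)
    (hw : LogConc fun x => ec c x * w x) {Θ : ℝ} (hΘ : 0 < Θ) (hΘ1 : Θ < 1) {τ : ℝ≥0∞}
    (x y : E) (hfin : mL w K e y ≠ ⊤) (hy : τ * mL w K e y ≤ gL w K e y) :
    τ * ((ec c x * mL w K e x) ^ (1 - Θ) * (ec c y * mL w K e y) ^ Θ) ≤
      ENNReal.ofReal Θ⁻¹ * (ec c ((1 - Θ) • x + Θ • y) * gL w K e ((1 - Θ) • x + Θ • y)) := by
  have h1Θ : 0 < 1 - Θ := by linarith
  have hB0 : ∀ z : E, B1 c e z ≠ 0 := by
    intro z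
    unfold B1
    simp [Real.exp_pos]
  have hsup : (⨆ t, Ph c w K e y t) ≠ ⊤ := by
    intro htop
    have h := ec_mL (w := w) (K := K) he c y
    rw [htop, ENNReal.mul_top (hB0 y)] at h
    exact ENNReal.mul_ne_top (ec_ne_top c y) hfin h
  have hτ : τ * (⨆ t, Ph c w K e y t) ≤ kk * ∫⁻ t, Ph c w K e y t := by
    have h1 : ec c y * (τ * mL w K e y) ≤ ec c y * gL w K e y := mul_le_mul' le_rfl hy
    have e1 : ec c y * (τ * mL w K e y) = B1 c e y * (τ * ⨆ t, Ph c w K e y t) := by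
      calc ec c y * (τ * mL w K e y) = τ * (ec c y * mL w K e y) := by ring
        _ = τ * (B1 c e y * ⨆ t, Ph c w K e y t) := by rw [ec_mL he]
        _ = _ := by ring
    rw [e1, ec_gL he hwm hKm] at h1
    exact (ENNReal.mul_le_mul_iff_right (hB0 y) (B1_ne_top c e y)).mp h1
  have k2 := key2 hΘ hΘ1 (a := Ph c w K e x) (b := Ph c w K e y)
    (c := Ph c w K e ((1 - Θ) • x + Θ • y)) (measurable_Ph hwm hKm c _)
    (fun s t => Ph_lc hc hK hw x y s t _ _ h1Θ hΘ (by ring)) hsup hτ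
  rw [ec_mL he, ec_mL he, ec_gL he hwm hKm, ENNReal.mul_rpow_of_nonneg _ _ h1Θ.le,
    ENNReal.mul_rpow_of_nonneg _ _ hΘ.le]
  calc τ * (B1 c e x ^ (1 - Θ) * (⨆ t, Ph c w K e x t) ^ (1 - Θ) *
        (B1 c e y ^ Θ * (⨆ t, Ph c w K e y t) ^ Θ))
      = (B1 c e x ^ (1 - Θ) * B1 c e y ^ Θ) *
        (τ * ((⨆ t, Ph c w K e x t) ^ (1 - Θ) * (⨆ t, Ph c w K e y t) ^ Θ)) := by ring
    _ ≤ B1 c e ((1 - Θ) • x + Θ • y) *
        (ENNReal.ofReal Θ⁻¹ * (kk * ∫⁻ u, Ph c w K e ((1 - Θ) • x + Θ • y) u)) :=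
        mul_le_mul' (B1_lc hc0 e x y _ _ h1Θ hΘ (by ring)) k2
    _ = _ := by ring

end Vale.Agent.P262.H431
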