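import Mathlib
import Vale.Agent.P262.H431.Per1

/-!
# P262, block PER, part 2: the regular triple of a weighted body on the lines of a direction

`RegC c Θ (mL) (min mL (κ gL)) (mL on {τ ML ≤ gL})`.
-/

set_option linter.all false

open MeasureTheory Set Filter ProbabilityTheory
open scoped ENNReal NNReal Topology RealInnerProductSpace

namespace Vale.Agent.P262.H431

open Vale.Agent.P262.H493 hiding fib
open Vale.Agent.P262.H395 Vale.Agent.P262.H44

variable {E : Type*} [NormedAddCommGroup E] [InnerProductSpace ℝ E] [FiniteDimensional ℝ E]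
  [MeasurableSpace E] [BorelSpace E]

variable {w : E → ℝ≥0∞} {K : Set E} {e : E}

lemma ee_ne_top (t : ℝ) : ee t ≠ ⊤ := ENNReal.ofReal_ne_top

lemma ee_zero : ee 0 = 1 := by simp [ee]

lemma continuous_ee : Continuous ee := by
  unfold ee
  exact ENNReal.continuous_ofReal.comp (by fun_prop)

/-- product of two continuous finite functions -/
lemma cont_mul {X : Type*} [TopologicalSpace X] {f g : X → ℝ≥0∞} (hf : Continuous f)
    (hg : Continuous g) (hft : ∀ x, f x ≠ ⊤) (hgt : ∀ x, g x ≠ ⊤) :
    Continuous fun x => f x * g x :=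
  continuous_iff_continuousAt.mpr fun x =>
    ENNReal.Tendsto.mul hf.continuousAt (Or.inr (hgt x)) hg.continuousAt (Or.inr (hft x))

lemma lsc_ML (hwc : Continuous w) (hwt : ∀ x, w x ≠ ⊤) : LowerSemicontinuous (ML w e) := by
  apply lowerSemicontinuous_iSup
  intro t
  exact (cont_mul continuous_const (hwc.comp (continuous_pt_left e t)) (fun _ => ee_ne_top t)
    (fun x => hwt _)).lowerSemicontinuous

/-- the weight times the height density, on the body -/
lemma le_mL (he : ‖e‖ = 1) {x k : E} (hk : k ∈ K) (hx : pt e x ⟪e, k⟫ = k) :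
    ee ⟪e, k⟫ * w k ≤ mL w K e x := by
  unfold mL
  refine le_trans (le_of_eq ?_) (le_iSup _ ⟪e, k⟫)
  rw [hx, indicator_of_mem hk]

lemma usc_mL (he : ‖e‖ = 1) (hwc : Continuous w) (hwt : ∀ x, w x ≠ ⊤) (hK : IsCompact K) :
    UpperSemicontinuous (mL w K e) := by
  intro x r hr
  obtain ⟨r', h1, h2⟩ := exists_between hr
  have hF : Continuous fun k : E => ee ⟪e, k⟫ * w k :=
    cont_mul (continuous_ee.comp (by fun_prop)) hwc (fun _ => ee_ne_top _) hwt
  set C : Set E := K ∩ {k | r' ≤ ee ⟪e, k⟫ * w k} with hC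
  have hCc : IsCompact C := hK.inter_right (isClosed_le continuous_const hF)
  have hp0 : Continuous fun y : E => pt e y 0 := continuous_pt_left e 0
  have hD : IsClosed ((fun y : E => pt e y 0) ⁻¹' ((fun y : E => pt e y 0) '' C)) :=
    (hCc.image hp0).isClosed.preimage hp0
  have hx : x ∈ ((fun y : E => pt e y 0) ⁻¹' ((fun y : E => pt e y 0) '' C))ᶜ := by
    rintro ⟨k, hk, hkx⟩
    have h3 : pt e x ⟪e, k⟫ = k := by
      have h4 : pt e (pt e k 0) ⟪e, k⟫ = pt e (pt e x 0) ⟪e, k⟫ := by
        simp only at hkx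
        rw [hkx]
      rw [pt_pt he, pt_pt he, pt_self] at h4
      exact h4.symm
    have h5 := le_mL (w := w) he hk.1 h3
    exact absurd (lt_of_le_of_lt (hk.2.trans h5) h1) (lt_irrefl _)
  filter_upwards [hD.isOpen_compl.mem_nhds hx] with y hy
  refine lt_of_le_of_lt ?_ h2
  unfold mL
  refine iSup_le fun t => ?_
  by_cases ht : pt e y t ∈ K
  · rw [indicator_of_mem ht]
    by_contra hcon
    push Not at hcon
    apply hy
    refine ⟨pt e y t, ⟨ht, ?_⟩, ?_⟩
    · show r' ≤ ee ⟪e, pt e y t⟫ * w (pt e y t)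
      rw [inner_pt he]
      exact hcon.le
    · exact pt_pt he y t 0
  · rw [indicator_of_notMem ht, mul_zero]
    exact bot_le

lemma bdd_w (hwc : Continuous w) (hwt : ∀ x, w x ≠ ⊤) (hK : IsCompact K) :
    ∃ M : ℝ≥0∞, M ≠ ⊤ ∧ ∀ x, K.indicator w x ≤ M := by
  by_cases hne : K.Nonempty
  · obtain ⟨k, hk, hmax⟩ := hK.exists_isMaxOn hne hwc.continuousOn
    refine ⟨w k, hwt k, fun x => ?_⟩
    by_cases hx : x ∈ K
    · rw [indicator_of_mem hx]
      exact hmax hx
    · rw [indicator_of_notMem hx]
      exact bot_le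
  · rw [not_nonempty_iff_eq_empty] at hne
    refine ⟨0, ENNReal.zero_ne_top, fun x => ?_⟩
    rw [hne, indicator_empty]

lemma ee_le_one' (t : ℝ) : ee t ≤ 1 := ee_le_one t

lemma mL_bdd (hwc : Continuous w) (hwt : ∀ x, w x ≠ ⊤) (hK : IsCompact K) :
    ∃ M : ℝ≥0∞, M ≠ ⊤ ∧ ∀ x, mL w K e x ≤ M := by
  obtain ⟨M, hM, hb⟩ := bdd_w hwc hwt hK
  refine ⟨M, hM, fun x => iSup_le fun t => ?_⟩
  calc ee t * K.indicator w (pt e x t) ≤ 1 * M := mul_le_mul' (ee_le_one t) (hb _)
    _ = M := one_mul M

lemma usc_indicator (hwc : Continuous w) (hK : IsClosed K) :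
    UpperSemicontinuous (K.indicator w) := by
  intro x r hr
  by_cases hx : x ∈ K
  · rw [indicator_of_mem hx] at hr
    filter_upwards [hwc.continuousAt.eventually (gt_mem_nhds hr)] with y hy
    exact lt_of_le_of_lt (indicator_le_self' (fun _ _ => bot_le) y) hy
  · rw [indicator_of_notMem hx] at hr
    filter_upwards [hK.isOpen_compl.mem_nhds hx] with y hy
    rw [indicator_of_notMem hy]
    exact hr

lemma usc_gL (he : ‖e‖ = 1) (hwc : Continuous w) (hwt : ∀ x, w x ≠ ⊤) (hK : IsCompact K) :
    UpperSemicontinuous (gL w K e) := by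
  obtain ⟨M, hM, hb⟩ := bdd_w hwc hwt hK
  have hm : Measurable (K.indicator w) := hwc.measurable.indicator hK.measurableSet
  intro x r hr
  by_contra hcon
  rw [Filter.not_eventually] at hcon
  obtain ⟨y, hy, hry⟩ := exists_seq_forall_of_frequently hcon
  have hmeas : ∀ n, Measurable fun t : ℝ => K.indicator w (pt e (y n) t) := fun n =>
    hm.comp (continuous_pt_right e (y n)).measurable
  have h1 := limsup_lintegral_le (μ := gaussianReal 0 1)
    (f := fun (n : ℕ) (t : ℝ) => K.indicator w (pt e (y n) t)) (fun _ => M) hmeas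
    (fun n => Filter.Eventually.of_forall fun t => hb _) (by simpa using hM)
  have h2 : r ≤ limsup (fun n => ∫⁻ t, K.indicator w (pt e (y n) t) ∂gaussianReal 0 1) atTop := by
    refine le_limsup_of_frequently_le (Filter.Frequently.of_forall fun n => ?_)
    have := hry n
    rw [not_lt] at this
    refine this.trans (le_of_eq ?_)
    unfold gL
    rw [fib_line he hm]
  have h3 : ∫⁻ t, limsup (fun n => K.indicator w (pt e (y n) t)) atTop ∂gaussianReal 0 1 ≤
      gL w K e x := by
    unfold gL
    rw [fib_line he hm]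
    refine lintegral_mono fun t => ?_
    refine le_of_forall_gt_imp_ge_of_dense fun a ha => ?_
    have h4 : ∀ᶠ n in atTop, K.indicator w (pt e (y n) t) < a :=
      ((continuous_pt_left e t).continuousAt.tendsto.comp hy).eventually
        (usc_indicator hwc hK.isClosed (pt e x t) a ha)
    exact limsup_le_of_le (by isBoundedDefault) (h4.mono fun n hn => hn.le)
  exact absurd (lt_of_le_of_lt (h2.trans (h1.trans h3)) hr) (lt_irrefl _)

/-- lines on which the integral is comparable with the free maximum -/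
def Cw (w : E → ℝ≥0∞) (K : Set E) (e : E) : Set E := {x | 4⁻¹ * ML w e x ≤ gL w K e x}

lemma isClosed_Cw (he : ‖e‖ = 1) (hwc : Continuous w) (hwt : ∀ x, w x ≠ ⊤) (hK : IsCompact K) :
    IsClosed (Cw w K e) := by
  rw [← isOpen_compl_iff, isOpen_iff_mem_nhds]
  intro x hx
  have hx' : gL w K e x < 4⁻¹ * ML w e x := by
    simpa [Cw] using hx
  obtain ⟨r, h1, h2⟩ := exists_between hx'
  have h4 : ML w e x > 4 * r := by
    have h5 : 4 * r < 4 * (4⁻¹ * ML w e x) :=
      (ENNReal.mul_lt_mul_iff_right (by norm_num) (by norm_num)).mpr h2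
    rwa [← mul_assoc, ENNReal.mul_inv_cancel (by norm_num) (by norm_num), one_mul] at h5
  filter_upwards [usc_gL he hwc hwt hK x r h1, lsc_ML hwc hwt x (4 * r) h4] with y hy1 hy2
  simp only [Cw, mem_compl_iff, mem_setOf_eq, not_le]
  refine hy1.trans_le ?_
  calc r = 4⁻¹ * (4 * r) := by
        rw [← mul_assoc, ENNReal.inv_mul_cancel (by norm_num) (by norm_num), one_mul]
    _ ≤ _ := mul_le_mul' le_rfl hy2.le

/-- the middle functional -/
noncomputable def hTf (Θ : ℝ) (w : E → ℝ≥0∞) (K : Set E) (e x : E) : ℝ≥0∞ :=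
  min (mL w K e x) (4 * ENNReal.ofReal Θ⁻¹ * gL w K e x)

/-- **the regular triple** -/
theorem regC_lines (he : ‖e‖ = 1) (hwc : Continuous w) (hwt : ∀ x, w x ≠ ⊤) (hK : IsCompact K)
    (hKc : Convex ℝ K) {c : ℝ} (hc0 : 0 ≤ c) (hc : c ≤ 1 / 2)
    (hw : LogConc fun x => ec c x * w x) {Θ : ℝ} (hΘ : 0 < Θ) (hΘ1 : Θ < 1) :
    RegC c Θ (mL w K e) (hTf Θ w K e) ((Cw w K e).indicator (mL w K e)) := by
  have hKm := hK.measurableSet
  have hwm := hwc.measurable
  have hu := usc_mL (w := w) he hwc hwt hK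
  have m0 : Measurable (mL w K e) := hu.measurable
  have mg : Measurable (gL w K e) := measurable_fib (hwm.indicator hKm)
  have mT : Measurable (hTf Θ w K e) := m0.min (mg.const_mul _)
  have hCl := isClosed_Cw (w := w) he hwc hwt hK
  have mec : Measurable (ec (E := E) c) := (continuous_ec c).measurable
  obtain ⟨M, hM, hb⟩ := mL_bdd (e := e) hwc hwt hK
  have hfin : ∀ x, mL w K e x ≠ ⊤ := fun x => ne_top_of_le_ne_top hM (hb x)
  have hec1 : ∀ x : E, ec c x ≤ 1 := by
    intro x
    unfold ec
    rw [ENNReal.ofReal_le_one, Real.exp_le_one_iff]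
    have : 0 ≤ c * ‖x‖ ^ 2 := by positivity
    linarith
  refine ⟨?_⟩
  exact
  { m0 := mec.mul m0
    mT := mec.mul mT
    m1 := mec.mul (m0.indicator hCl.measurableSet)
    le1 := by
      intro x
      refine mul_le_mul' le_rfl ?_
      by_cases hx : x ∈ Cw w K e
      · rw [indicator_of_mem hx]
        refine le_min le_rfl ?_
        have h1 : 4⁻¹ * mL w K e x ≤ gL w K e x :=
          (mul_le_mul' le_rfl (mL_le_ML w K e x)).trans hx
        have h2 : (1 : ℝ≥0∞) ≤ ENNReal.ofReal Θ⁻¹ := by
          rw [← ENNReal.ofReal_one]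
          apply ENNReal.ofReal_le_ofReal
          rw [one_le_inv₀ hΘ]
          exact hΘ1.le
        calc mL w K e x = 4 * (4⁻¹ * mL w K e x) := by
              rw [← mul_assoc, ENNReal.mul_inv_cancel (by norm_num) (by norm_num), one_mul]
          _ ≤ 4 * gL w K e x := mul_le_mul' le_rfl h1
          _ = 4 * 1 * gL w K e x := by ring
          _ ≤ _ := by gcongr
      · rw [indicator_of_notMem hx]
        exact bot_le
    leT := fun x => mul_le_mul' le_rfl (min_le_left _ _)
    lc := lc_mL he hc0 hc hKc hw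
    mix := by
      intro x y
      have h1Θ : 0 < 1 - Θ := by linarith
      show (ec c x * mL w K e x) ^ (1 - Θ) *
        (ec c y * (Cw w K e).indicator (mL w K e) y) ^ Θ ≤
        ec c ((1 - Θ) • x + Θ • y) * hTf Θ w K e ((1 - Θ) • x + Θ • y)
      by_cases hy : y ∈ Cw w K e
      · rw [indicator_of_mem hy]
        have i1 := lc_mL (w := w) he hc0 hc hKc hw x y _ _ h1Θ hΘ (by ring)
        have h4 : 4⁻¹ * mL w K e y ≤ gL w K e y :=
          (mul_le_mul' le_rfl (mL_le_ML w K e y)).trans hy
        have i2 := mix_gL he hc0 hc hKc hKm hwm hw hΘ hΘ1 x y (hfin y) h4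
        have i3 : (ec c x * mL w K e x) ^ (1 - Θ) * (ec c y * mL w K e y) ^ Θ ≤
            ec c ((1 - Θ) • x + Θ • y) *
              (4 * ENNReal.ofReal Θ⁻¹ * gL w K e ((1 - Θ) • x + Θ • y)) := by
          have i4 := mul_le_mul' (le_refl (4 : ℝ≥0∞)) i2
          rw [← mul_assoc, ENNReal.mul_inv_cancel (by norm_num) (by norm_num), one_mul] at i4
          refine i4.trans (le_of_eq (by ring))
        unfold hTf
        rcases min_choice (mL w K e ((1 - Θ) • x + Θ • y))
          (4 * ENNReal.ofReal Θ⁻¹ * gL w K e ((1 - Θ) • x + Θ • y)) with h | h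
        · rw [h]; exact i1
        · rw [h]; exact i3
      · rw [indicator_of_notMem hy, mul_zero, ENNReal.zero_rpow_of_pos hΘ, mul_zero]
        exact bot_le
    usc := by
      intro x r hr
      change ec c x * (Cw w K e).indicator (mL w K e) x < r at hr
      by_cases hx : x ∈ Cw w K e
      · have e1 : ∀ y, ec c y * (Cw w K e).indicator (mL w K e) y ≤ ec c y * mL w K e y :=
          fun y => mul_le_mul' le_rfl (indicator_le_self' (fun _ _ => bot_le) y)
        have hr' : ec c x * mL w K e x < r := by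
          rw [indicator_of_mem hx] at hr
          exact hr
        filter_upwards [usc_mul (continuous_ec c) (fun x => ec_ne_top c x) hu hfin x r hr']
          with y hy
        exact lt_of_le_of_lt (e1 y) hy
      · have hr' : 0 < r := by
          rw [indicator_of_notMem hx, mul_zero] at hr
          exact hr
        filter_upwards [hCl.isOpen_compl.mem_nhds hx] with y hy
        rw [indicator_of_notMem hy, mul_zero]
        exact hr'
    bdd := ⟨M, hM, fun x => by
      calc ec c x * mL w K e x ≤ 1 * M := mul_le_mul' (hec1 x) (hb x)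
        _ = M := one_mul M⟩ }

end Vale.Agent.P262.H431
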