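import Mathlib
import Vale.Agent.P262.H431.Per2
import Vale.Agent.P262.H395.KillStar

/-!
# P262, block PER, part 3: weighted perimeter is at most a constant times the weighted alive mass,
on the region below healthy flat labels
-/

set_option linter.all false

open MeasureTheory Set Filter ProbabilityTheory
open scoped ENNReal NNReal Topology RealInnerProductSpace

namespace Vale.Agent.P262.H431

open Vale.Agent.P262.H493 hiding fib
open Vale.Agent.P262.H395 Vale.Agent.P262.H44

variable {E : Type*} [NormedAddCommGroup E] [InnerProductSpace ℝ E] [FiniteDimensional ℝ E]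
  [MeasurableSpace E] [BorelSpace E]

variable {w : E → ℝ≥0∞} {K : Set E} {e : E}

/-- a chord of Gaussian mass more than one half contains the point nearest to the origin -/
lemma mid_mem (he : ‖e‖ = 1) (hK : Convex ℝ K) (hKm : MeasurableSet K) {y : E}
    (h : 1 / 2 < fib (ℝ ∙ e)ᗮ (K.indicator 1) y) : pt e y 0 ∈ K := by
  rw [fib_line he (measurable_one.indicator hKm)] at h
  have hS : MeasurableSet {t : ℝ | pt e y t ∈ K} := (continuous_pt_right e y).measurable hKm
  have e1 : ∫⁻ t, K.indicator (1 : E → ℝ≥0∞) (pt e y t) ∂gaussianReal 0 1 =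
      gaussianReal 0 1 {t : ℝ | pt e y t ∈ K} := by
    rw [← lintegral_indicator_one hS]
    refine lintegral_congr fun t => ?_
    by_cases ht : pt e y t ∈ K
    · rw [indicator_of_mem ht, indicator_of_mem (by exact ht)]; rfl
    · rw [indicator_of_notMem ht, indicator_of_notMem (by exact ht)]
  rw [e1] at h
  by_contra h0
  have hbet : ∀ a b : ℝ, a ≤ 0 → 0 ≤ b → pt e y a ∈ K → pt e y b ∈ K → False := by
    intro a b ha hb hak hbk
    rcases eq_or_lt_of_le ha with ha' | ha'
    · rw [ha'] at hak; exact h0 hak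
    have hab : 0 < b - a := by linarith
    have h3 := hK hak hbk (div_nonneg hb hab.le) (div_nonneg (neg_nonneg.mpr ha) hab.le) (by
      field_simp
      ring)
    have h4 := pt_lin e y y (b / (b - a)) (-a / (b - a)) a b (by field_simp; ring)
    rw [h4, ← add_smul, show b / (b - a) + -a / (b - a) = 1 by field_simp; ring, one_smul,
      show b / (b - a) * a + -a / (b - a) * b = 0 by field_simp; ring] at h3
    exact h0 h3
  by_cases hpos : ∃ b : ℝ, 0 ≤ b ∧ pt e y b ∈ K
  · obtain ⟨b, hb, hbk⟩ := hpos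
    have hsub : {t : ℝ | pt e y t ∈ K} ⊆ Ioi 0 := by
      intro a ha
      by_contra hcon
      exact hbet a b (not_lt.mp hcon) hb ha hbk
    exact absurd (h.trans_le (measure_mono hsub)) (not_lt.mpr gauss_half.1)
  · push Not at hpos
    have hsub : {t : ℝ | pt e y t ∈ K} ⊆ Iio 0 := by
      intro a ha
      by_contra hcon
      exact hpos a (not_lt.mp hcon) ha
    exact absurd (h.trans_le (measure_mono hsub)) (not_lt.mpr gauss_half.2)

/-- the pointwise inequality on one line -/
lemma fat_point (he : ‖e‖ = 1) (hwm : Measurable w) (hK : Convex ℝ K)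
    (hKm : MeasurableSet K) {y : E} {ω : ℝ≥0∞} (hω : ∀ t, ω ≤ w (pt e y t)) :
    2 * (ω * fib (ℝ ∙ e)ᗮ (K.indicator 1) y) ≤
      (Cw w K e).indicator (mL w K e) y + ML w e y := by
  have hML : ω ≤ ML w e y := by
    refine (hω 0).trans ?_
    have := le_iSup (fun t => ee t * w (pt e y t)) 0
    rwa [ee_zero, one_mul] at this
  have hg1 : fib (ℝ ∙ e)ᗮ (K.indicator (1 : E → ℝ≥0∞)) y ≤ 1 :=
    fib_le_one (fun x => indicator_le_self' (fun _ _ => bot_le) x) y
  set g0 := fib (ℝ ∙ e)ᗮ (K.indicator (1 : E → ℝ≥0∞)) y with hg0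
  by_cases hg : g0 ≤ 1 / 2
  · calc 2 * (ω * g0) ≤ 2 * (ω * (1 / 2)) := by gcongr
      _ = ω := by
        rw [one_div, mul_comm ω, ← mul_assoc, ENNReal.mul_inv_cancel (by norm_num) (by norm_num),
          one_mul]
      _ ≤ ML w e y := hML
      _ ≤ _ := le_add_self
  push Not at hg
  by_cases h2 : 2 * ω ≤ ML w e y
  · calc 2 * (ω * g0) ≤ 2 * (ω * 1) := by gcongr
      _ = 2 * ω := by rw [mul_one]
      _ ≤ ML w e y := h2
      _ ≤ _ := le_add_self
  push Not at h2
  have hmid := mid_mem he hK hKm hg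
  have hgL : ω * g0 ≤ gL w K e y := by
    unfold gL
    rw [hg0, ← fib_mul (inv_const _ ω) (measurable_one.indicator hKm)]
    rw [fib_line he ((measurable_one.indicator hKm).const_mul _),
      fib_line he (hwm.indicator hKm)]
    refine lintegral_mono fun t => ?_
    by_cases ht : pt e y t ∈ K
    · simp only [indicator_of_mem ht, Pi.one_apply, mul_one]
      exact hω t
    · simp only [indicator_of_notMem ht, mul_zero]
      exact le_rfl
  have hC : y ∈ Cw w K e := by
    show 4⁻¹ * ML w e y ≤ gL w K e y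
    refine le_trans ?_ hgL
    calc 4⁻¹ * ML w e y ≤ 4⁻¹ * (2 * ω) := by gcongr
      _ = ω * (1 / 2) := by
        rw [← mul_assoc, mul_comm ω]
        congr 1
        rw [show (4 : ℝ≥0∞) = 2 * 2 by norm_num, ENNReal.mul_inv (by norm_num) (by norm_num),
          mul_assoc, ENNReal.inv_mul_cancel (by norm_num) (by norm_num), mul_one, one_div]
      _ ≤ ω * g0 := by gcongr
  have hm : ω ≤ mL w K e y := by
    have h3 := le_iSup (fun t => ee t * K.indicator w (pt e y t)) 0
    simp only [ee_zero, one_mul, indicator_of_mem hmid] at h3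
    exact (hω 0).trans h3
  rw [indicator_of_mem hC]
  calc 2 * (ω * g0) ≤ 2 * (ω * 1) := by gcongr
    _ = ω + ω := by rw [mul_one, two_mul]
    _ ≤ _ := add_le_add hm hML

lemma measurable_h1 (he : ‖e‖ = 1) (hwc : Continuous w) (hwt : ∀ x, w x ≠ ⊤) (hK : IsCompact K) :
    Measurable ((Cw w K e).indicator (mL w K e)) :=
  (usc_mL he hwc hwt hK).measurable.indicator (isClosed_Cw he hwc hwt hK).measurableSet

/-- the fibre inequality -/
theorem fat_fib (he : ‖e‖ = 1) (hwc : Continuous w) (hwt : ∀ x, w x ≠ ⊤) (hK : IsCompact K)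
    (hKc : Convex ℝ K) {W : Submodule ℝ E} (hW : W ≤ (ℝ ∙ e)ᗮ) {C : Set E}
    (hC : MeasurableSet C) (hCi : InvS (ℝ ∙ e)ᗮ C) (u : E) {ω : ℝ≥0∞}
    (hω : ∀ z, ω ≤ w (Vale.Agent.P262.H395.mix W u z)) :
    2 * (ω * fib W ((K ∩ C).indicator 1) u) ≤
      fib W (C.indicator ((Cw w K e).indicator (mL w K e))) u + fib W (ML w e) u := by
  have hKm := hK.measurableSet
  have hwm := hwc.measurable
  have m1 := (measurable_h1 (e := e) he hwc hwt hK).indicator hC
  have mM : Measurable (ML w e) := (lsc_ML hwc hwt).measurable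
  have mK : Measurable ((K ∩ C).indicator (1 : E → ℝ≥0∞)) := measurable_one.indicator (hKm.inter hC)
  rw [← fib_add m1]
  have e1 : 2 * (ω * fib W ((K ∩ C).indicator 1) u) =
      fib W (fun y => (2 * ω) * fib (ℝ ∙ e)ᗮ ((K ∩ C).indicator 1) y) u := by
    rw [fib_mul (inv_const W (2 * ω)) (measurable_fib mK), fib_tower hW mK, mul_assoc]
  rw [e1]
  unfold fib
  refine lintegral_mono fun z => ?_
  show (2 * ω) * fib (ℝ ∙ e)ᗮ ((K ∩ C).indicator 1) (Vale.Agent.P262.H395.mix W u z) ≤
    C.indicator ((Cw w K e).indicator (mL w K e)) (Vale.Agent.P262.H395.mix W u z) +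
      ML w e (Vale.Agent.P262.H395.mix W u z)
  by_cases hz : Vale.Agent.P262.H395.mix W u z ∈ C
  · rw [indicator_of_mem hz]
    have e2 : fib (ℝ ∙ e)ᗮ ((K ∩ C).indicator (1 : E → ℝ≥0∞)) (Vale.Agent.P262.H395.mix W u z) =
        fib (ℝ ∙ e)ᗮ (K.indicator 1) (Vale.Agent.P262.H395.mix W u z) := by
      rw [fib_line he mK, fib_line he (measurable_one.indicator hKm)]
      refine lintegral_congr fun t => ?_
      have h1 : pt e (Vale.Agent.P262.H395.mix W u z) t ∈ C := by
        have h2 := mix_line he (Vale.Agent.P262.H395.mix W u z) (t • e)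
        rw [inner_smul_right, real_inner_self_eq_norm_sq, he, one_pow, mul_one] at h2
        rw [← h2]
        exact (hCi.mix _ _).mpr hz
      by_cases h3 : pt e (Vale.Agent.P262.H395.mix W u z) t ∈ K
      · rw [indicator_of_mem h3, indicator_of_mem (show _ ∈ K ∩ C from ⟨h3, h1⟩)]
      · rw [indicator_of_notMem h3, indicator_of_notMem (fun h => h3 h.1)]
    rw [e2, mul_assoc]
    refine fat_point he hwm hKc hKm fun t => ?_
    rw [pt_mix he hW]
    exact hω _
  · have e2 : fib (ℝ ∙ e)ᗮ ((K ∩ C).indicator (1 : E → ℝ≥0∞)) (Vale.Agent.P262.H395.mix W u z) = 0 := by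
      rw [fib_line he mK]
      have : ∀ t : ℝ, (K ∩ C).indicator (1 : E → ℝ≥0∞) (pt e (Vale.Agent.P262.H395.mix W u z) t) = 0 := by
        intro t
        refine indicator_of_notMem (fun h => hz ?_) _
        have h2 := mix_line he (Vale.Agent.P262.H395.mix W u z) (t • e)
        rw [inner_smul_right, real_inner_self_eq_norm_sq, he, one_pow, mul_one] at h2
        have h3 := h.2
        rw [← h2] at h3
        exact (hCi.mix _ _).mp h3
      simp only [this, lintegral_zero]
    rw [e2, mul_zero]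
    exact bot_le

/-- the weight is flat below the label `u` of `W` (in the sense needed for lines in direction
`e`): `w ≥ ω` on the fibre and the average of the line maxima of `w * exp (-t^2/2)` is at most
`16/15 * ω` -/
def FlatAt (w : E → ℝ≥0∞) (e : E) (W : Submodule ℝ E) (u : E) : Prop :=
  ∃ ω : ℝ≥0∞, ω ≠ ⊤ ∧ (∀ z, ω ≤ w (Vale.Agent.P262.H395.mix W u z)) ∧
    fib W (ML w e) u ≤ ENNReal.ofReal (16 / 15) * ω

lemma fat_arith {a A1 A2 A3 : ℝ≥0∞} {ω : ℝ≥0∞} {p q : ℝ} (hω : ω ≠ ⊤) (hp : 0 ≤ p)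
    (hq : 0 ≤ q)
    (hpq : q * (16 / 15) + 16 / 15 ≤ 2 * p) (ha : ENNReal.ofReal p ≤ a)
    (h0 : A1 ≤ A3) (h : 2 * (ω * a) ≤ A2 + A3) (h3 : A3 ≤ ENNReal.ofReal (16 / 15) * ω) :
    ENNReal.ofReal q * A1 ≤ A2 := by
  have h3' : A3 ≠ ⊤ := ne_top_of_le_ne_top (ENNReal.mul_ne_top ENNReal.ofReal_ne_top hω) h3
  have key : ENNReal.ofReal q * A1 + A3 ≤ A2 + A3 := by
    calc ENNReal.ofReal q * A1 + A3
        ≤ ENNReal.ofReal q * (ENNReal.ofReal (16 / 15) * ω) + ENNReal.ofReal (16 / 15) * ω := by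
          gcongr
          exact h0.trans h3
      _ = ENNReal.ofReal (q * (16 / 15) + 16 / 15) * ω := by
          rw [ENNReal.ofReal_add (by positivity) (by norm_num), ENNReal.ofReal_mul hq]
          ring
      _ ≤ ENNReal.ofReal (2 * p) * ω := by gcongr
      _ = 2 * (ω * ENNReal.ofReal p) := by
          rw [ENNReal.ofReal_mul (by norm_num)]
          rw [ENNReal.ofReal_ofNat]
          ring
      _ ≤ 2 * (ω * a) := by gcongr
      _ ≤ A2 + A3 := h
  exact (ENNReal.add_le_add_iff_right h3').mp key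

section

variable (he : ‖e‖ = 1) (hwc : Continuous w) (hwt : ∀ x, w x ≠ ⊤) (hK : IsCompact K)
  (hKc : Convex ℝ K)

include he hwc hwt hK hKc

/-- healthy flat labels are fat -/
theorem fat_deep {W : Submodule ℝ E} (hW : W ≤ (ℝ ∙ e)ᗮ) {C : Set E}
    (hC : MeasurableSet C) (hCi : InvS (ℝ ∙ e)ᗮ C) {u : E} (hf : FlatAt w e W u)
    (hd : ENNReal.ofReal (4 / 5) ≤ fib W ((K ∩ C).indicator 1) u) :
    ENNReal.ofReal (1 / 2) * fib W (C.indicator (mL w K e)) u ≤
      fib W (C.indicator ((Cw w K e).indicator (mL w K e))) u := by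
  obtain ⟨ω, hω, h1, h2⟩ := hf
  refine fat_arith hω (by norm_num) (by norm_num) (by norm_num) hd ?_
    (fat_fib he hwc hwt hK hKc hW hC hCi u h1) h2
  exact fib_mono (fun y => (indicator_le_self' (fun _ _ => bot_le) y).trans (mL_le_ML w K e y)) u

theorem fat_root {W : Submodule ℝ E} (hW : W ≤ (ℝ ∙ e)ᗮ) {C : Set E}
    (hC : MeasurableSet C) (hCi : InvS (ℝ ∙ e)ᗮ C) {u : E} (hf : FlatAt w e W u)
    (hd : ENNReal.ofReal (2 / 3) ≤ fib W ((K ∩ C).indicator 1) u) :
    ENNReal.ofReal (1 / 4) * fib W (C.indicator (mL w K e)) u ≤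
      fib W (C.indicator ((Cw w K e).indicator (mL w K e))) u := by
  obtain ⟨ω, hω, h1, h2⟩ := hf
  refine fat_arith hω (by norm_num) (by norm_num) (by norm_num) hd ?_
    (fat_fib he hwc hwt hK hKc hW hC hCi u h1) h2
  exact fib_mono (fun y => (indicator_le_self' (fun _ _ => bot_le) y).trans (mL_le_ML w K e y)) u

end

/-- conclusion from the combined inequality on an invariant region -/
theorem per_of_ineq (he : ‖e‖ = 1) (hwc : Continuous w) (hwt : ∀ x, w x ≠ ⊤) (hK : IsCompact K)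
    (hKc : Convex ℝ K) {W0 : Submodule ℝ E} (hW : W0 ≤ (ℝ ∙ e)ᗮ) {N : Set E}
    (hN : MeasurableSet N) (hNi : InvS (ℝ ∙ e)ᗮ N) (x0 : E)
    (h : IneqF (ENNReal.ofReal (704 * (1 / 704))) (mL w K e) (hTf (1 / 704) w K e)
      ((Cw w K e).indicator (mL w K e)) W0 x0 N) :
    fib W0 (N.indicator (mL w K e)) x0 ≤ 5632 * fib W0 (N.indicator (K.indicator w)) x0 := by
  have hKm := hK.measurableSet
  have hwm := hwc.measurable
  have mKw : Measurable (K.indicator w) := hwm.indicator hKm
  have mg : Measurable (gL w K e) := measurable_fib mKw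
  have e1 : ENNReal.ofReal (704 * (1 / 704)) = 1 := by
    rw [show (704 * (1 / 704) : ℝ) = 1 by norm_num, ENNReal.ofReal_one]
  unfold IneqF at h
  rw [e1, one_mul, one_mul] at h
  have h1 : fib W0 (N.indicator (mL w K e)) x0 ≤ 2 * fib W0 (N.indicator (hTf (1 / 704) w K e)) x0 := by
    rw [two_mul]
    exact le_self_add.trans h
  have h2 : fib W0 (N.indicator (hTf (1 / 704) w K e)) x0 ≤
      2816 * fib W0 (N.indicator (gL w K e)) x0 := by
    rw [← fib_mul (inv_const W0 2816) (mg.indicator hN)]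
    refine fib_mono (fun y => ?_) x0
    by_cases hy : y ∈ N
    · rw [indicator_of_mem hy, indicator_of_mem hy]
      refine (min_le_right _ _).trans (le_of_eq ?_)
      congr 1
      rw [show ((1 : ℝ) / 704)⁻¹ = 704 by norm_num, ENNReal.ofReal_ofNat]
      norm_num
    · rw [indicator_of_notMem hy]
      exact bot_le
  have h3 : fib W0 (N.indicator (gL w K e)) x0 = fib W0 (N.indicator (K.indicator w)) x0 := by
    have e2 : N.indicator (gL w K e) = fib (ℝ ∙ e)ᗮ (N.indicator (K.indicator w)) := by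
      funext y
      by_cases hy : y ∈ N
      · rw [indicator_of_mem hy, fib_ind_univ _ (fun z => (hNi.mix y z).mpr hy)]
        rfl
      · rw [indicator_of_notMem hy, fib_ind_empty _ (fun z h => hy ((hNi.mix y z).mp h))]
    rw [e2, fib_tower hW (mKw.indicator hN)]
  calc fib W0 (N.indicator (mL w K e)) x0 ≤ 2 * fib W0 (N.indicator (hTf (1 / 704) w K e)) x0 := h1
    _ ≤ 2 * (2816 * fib W0 (N.indicator (gL w K e)) x0) := by gcongr
    _ = 5632 * fib W0 (N.indicator (gL w K e)) x0 := by rw [← mul_assoc]; norm_num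
    _ = _ := by rw [h3]

/-! ### trees without kills -/

/-- all reachable stopped labels are healthy and flat -/
def StopOK (K : Set E) (w : E → ℝ≥0∞) (e : E) : STree E → Set E → Prop
  | STree.leaf, _ => True
  | STree.node W D cls sub, B => (∀ x ∈ D, x ∈ B →
      ENNReal.ofReal (4 / 5) ≤ fib W (K.indicator 1) x ∧ FlatAt w e W x) ∧
      ∀ n, StopOK K w e (sub n) ((B \ D) ∩ cls ⁻¹' {n})

lemma deep_of_stopOK (he : ‖e‖ = 1) (hwc : Continuous w) (hwt : ∀ x, w x ≠ ⊤) (hK : IsCompact K)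
    (hKc : Convex ℝ K) : ∀ (T : STree E) (B : Set E), T.Below (ℝ ∙ e)ᗮ → StopOK K w e T B →
      (T.cut B).Deep (mL w K e) ((Cw w K e).indicator (mL w K e)) := by
  intro T
  induction T with
  | leaf => intro _ _ _; trivial
  | node W D cls sub ih =>
    intro B hB h
    refine ⟨fun x hx => ?_, fun n => ih n _ (hB.2 n) (h.2 n)⟩
    obtain ⟨h1, h2⟩ := h.1 x hx.1 hx.2
    have := fat_deep he hwc hwt hK hKc hB.1 MeasurableSet.univ (fun _ _ _ => Iff.rfl) h2
      (by rw [inter_univ]; exact h1)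
    rwa [indicator_univ, indicator_univ] at this

/-- **Weighted perimeter theorem (trees of labels).** `K` convex compact, `w` continuous with
`w * exp (-c |x|^2)` log-concave, `0 ≤ c < 1/2`. Every reachable stopped label is healthy
(`≥ 4/5`) and flat, the root is healthy (`≥ 2/3`) and flat. Then the weighted mass of all lines in
direction `e` meeting `K` in the visible region is at most `5632` times the weighted alive mass. -/
theorem per_tree (he : ‖e‖ = 1) (hwc : Continuous w) (hwt : ∀ x, w x ≠ ⊤) (hK : IsCompact K)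
    (hKc : Convex ℝ K) {c : ℝ} (hc0 : 0 ≤ c) (hc : c < 1 / 2)
    (hw : LogConc fun x => ec c x * w x) {W0 : Submodule ℝ E} (hW : W0 ≤ (ℝ ∙ e)ᗮ)
    {T : STree E} (hV : T.Valid W0) (hB : T.Below (ℝ ∙ e)ᗮ) (hS : StopOK K w e T univ) (x0 : E)
    (hf : FlatAt w e W0 x0) (hroot : ENNReal.ofReal (2 / 3) ≤ fib W0 (K.indicator 1) x0) :
    fib W0 (T.reg.indicator (mL w K e)) x0 ≤
      5632 * fib W0 (T.reg.indicator (K.indicator w)) x0 := by
  have hreg := regC_lines he hwc hwt hK hKc hc0 hc.le hw (Θ := 1 / 704) (by norm_num) (by norm_num)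
  have hV' := STree.valid_cut T univ MeasurableSet.univ (fun _ _ _ => Iff.rfl) hV
  have hr := fat_root he hwc hwt hK hKc hW MeasurableSet.univ (fun _ _ _ => Iff.rfl) hf
    (by rw [inter_univ]; exact hroot)
  rw [indicator_univ, indicator_univ] at hr
  have key := hreg.star_tree hc0 hc (by norm_num) le_rfl hV'
    (deep_of_stopOK he hwc hwt hK hKc T univ hB hS) x0 hr
  rw [STree.reg_cut] at key
  exact per_of_ineq he hwc hwt hK hKc hW (STree.measurableSet_reg T hV)
    (STree.inv_reg T hV hB) x0 key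

/-! ### class dependent flags with kills -/

/-- `flagIneq` for tilted triples -/
theorem flagIneqC {c : ℝ} (hc0 : 0 ≤ c) (hc : c < 1 / 2) {Θ : ℝ} (hΘ : 0 < Θ)
    (hΘ1 : Θ ≤ 1 / 704) {h0 hT h1 : E → ℝ≥0∞} (h : RegC c Θ h0 hT h1) :
    KTree.FlagIneq (ENNReal.ofReal (704 * Θ)) h0 hT h1 := by
  intro C hC hCc W0 L hW hL x0 hroot
  have hr := h.indicator hΘ (by linarith) hC hCc
  have key := hr.star_tree hc0 hc hΘ hΘ1
    (KTree.valid_chainTree (g0 := C.indicator h0) (g1 := C.indicator h1) hr.m0 hr.m1 L W0 hW hL)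
    (KTree.deep_chainTree L) x0 (by rw [KTree.ofReal_quarter]; exact hroot)
  have e : (KTree.chainTree (C.indicator h0) (C.indicator h1) L).reg
      = {x | ∀ V ∈ L, ¬ KTree.Long h0 h1 C V x} := by
    rw [KTree.reg_chainTree]
    ext x
    simp only [KTree.Long, KTree.ofReal_half]
  rw [e] at key
  unfold KTree.Ineq
  rw [add_mul, one_mul]
  exact key

/-- health and flatness along the path of a point -/
def HF (K : Set E) (w : E → ℝ≥0∞) (e : E) : KTree E → E → Prop
  | KTree.leaf, _ => True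
  | KTree.node W D Z cls sub, x => x ∉ Z →
      ((x ∈ D ∨ cls x ≠ 0) →
        ENNReal.ofReal (4 / 5) ≤ fib W ((K ∩ (sub 0).frz).indicator 1) x ∧ FlatAt w e W x) ∧
      (x ∉ D → cls x ≠ 0 →
        ENNReal.ofReal (2 / 3) ≤ fib W ((K ∩ (sub (cls x)).frz).indicator 1) x) ∧
      (x ∉ D → HF K w e (sub (cls x)) x)

lemma HF.hlt (he : ‖e‖ = 1) (hwc : Continuous w) (hwt : ∀ x, w x ≠ ⊤) (hK : IsCompact K)
    (hKc : Convex ℝ K) : ∀ {T : KTree E} {W0 : Submodule ℝ E}
    (_ : T.Valid W0) (_ : T.Below (ℝ ∙ e)ᗮ) {x : E} (_ : HF K w e T x),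
    KTree.hlt (mL w K e) ((Cw w K e).indicator (mL w K e)) T x
  | KTree.leaf, _, _, _, _, _ => trivial
  | KTree.node W D Z cls sub, W0, h, hbl, x, hx => by
    obtain ⟨h1, hD, hcD, hcZ, hZ, hZc, hcls, hci, hsub⟩ := h
    intro hxZ
    obtain ⟨a, b, c⟩ := hx hxZ
    refine ⟨fun h => ?_, fun h h' => ?_, fun h => ?_⟩
    · unfold KTree.Long
      rw [← KTree.ofReal_half]
      exact fat_deep he hwc hwt hK hKc hbl.1 (KTree.isClosed_frz (hsub 0)).measurableSet
        (KTree.line_frz (hsub 0) (hbl.2 0)) (a h).2 (a h).1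
    · unfold KTree.Root
      rw [← KTree.ofReal_quarter]
      exact fat_root he hwc hwt hK hKc hbl.1 (KTree.isClosed_frz (hsub _)).measurableSet
        (KTree.line_frz (hsub _) (hbl.2 _)) (a (Or.inr h')).2 (b h h')
    · exact HF.hlt he hwc hwt hK hKc (hsub _) (hbl.2 _) (c h)

/-- **Weighted perimeter theorem, class dependent flags with killed labels.** -/
theorem per_kill (he : ‖e‖ = 1) (hwc : Continuous w) (hwt : ∀ x, w x ≠ ⊤) (hK : IsCompact K)
    (hKc : Convex ℝ K) {c : ℝ} (hc0 : 0 ≤ c) (hc : c < 1 / 2)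
    (hw : LogConc fun x => ec c x * w x) {W0 : Submodule ℝ E} (hW : W0 ≤ (ℝ ∙ e)ᗮ)
    {T : KTree E} (hT : T.Valid W0) (hTb : T.Below (ℝ ∙ e)ᗮ) (x0 : E)
    (hh : ∀ y, W0.starProjection y = W0.starProjection x0 → HF K w e T y)
    (hf : FlatAt w e W0 x0)
    (hroot : ENNReal.ofReal (2 / 3) ≤ fib W0 ((K ∩ T.frz).indicator 1) x0) :
    fib W0 (T.reg.indicator (mL w K e)) x0 ≤
      5632 * fib W0 (T.reg.indicator (K.indicator w)) x0 := by
  have hreg := regC_lines he hwc hwt hK hKc hc0 hc.le hw (Θ := 1 / 704) (by norm_num) (by norm_num)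
  have hR : KTree.Root (mL w K e) ((Cw w K e).indicator (mL w K e)) T.frz W0 x0 := by
    unfold KTree.Root
    rw [← KTree.ofReal_quarter]
    exact fat_root he hwc hwt hK hKc hW (KTree.isClosed_frz hT).measurableSet
      (KTree.line_frz hT hTb) hf hroot
  have key := KTree.kill_ineq hreg.m0 hreg.mT hreg.m1
    (flagIneqC hc0 hc (by norm_num) le_rfl hreg) hT
    (fun y hy => HF.hlt he hwc hwt hK hKc hT hTb (hh y hy)) hR
  have key' : IneqF (ENNReal.ofReal (704 * (1 / 704))) (mL w K e) (hTf (1 / 704) w K e)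
      ((Cw w K e).indicator (mL w K e)) W0 x0 T.reg := by
    unfold KTree.Ineq at key
    rw [add_mul, one_mul] at key
    exact key
  exact per_of_ineq he hwc hwt hK hKc hW (KTree.measurableSet_reg hT) (KTree.line_reg hT hTb) x0 key'

end Vale.Agent.P262.H431
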