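import Mathlib
import Vale.Agent.P262.H431.Per3
import Vale.Agent.P262.H706.Thr2

/-!
# P262, block THR0 (throughput of one rotation at a label below a sick label, sharp form),
part 1: numbers and lines
-/

set_option linter.all false

open MeasureTheory Set Filter ProbabilityTheory
open scoped ENNReal NNReal Topology RealInnerProductSpace

namespace Vale.Agent.P262.H431

open Vale.Agent.P262.H493 hiding fib
open Vale.Agent.P262.H395 Vale.Agent.P262.H44 Vale.Agent.P262.H59
open Vale.Agent.P262.H706 (Cr measurableSet_Cr line_ord line_meas edge_sub vol_edge Zn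
  measurableSet_Zn half_le)

/-! ### the quotient `u / (D + u)^(1/2)` -/

/-- new dead mass over the square root of the total dead mass -/
noncomputable def rt (D u : ℝ≥0∞) : ℝ≥0∞ := u / (D + u) ^ (1 / 2 : ℝ)

lemma rt_zero (D : ℝ≥0∞) : rt D 0 = 0 := by simp [rt]

lemma rt_top (u : ℝ≥0∞) : rt ⊤ u = 0 := by
  unfold rt
  rw [top_add, ENNReal.top_rpow_of_pos (by norm_num), ENNReal.div_top]

lemma rt_eq {D u : ℝ≥0∞} (hD : D ≠ ⊤) (hu : u ≠ ⊤) :
    rt D u = ENNReal.ofReal (u.toReal / Real.sqrt (D.toReal + u.toReal)) := by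
  by_cases h0 : u = 0
  · subst h0
    simp [rt]
  have hupos : 0 < u.toReal := ENNReal.toReal_pos h0 hu
  have hs : 0 < D.toReal + u.toReal := by
    have : 0 ≤ D.toReal := ENNReal.toReal_nonneg
    linarith
  unfold rt
  rw [ENNReal.ofReal_div_of_pos (Real.sqrt_pos.mpr hs), ENNReal.ofReal_toReal hu]
  congr 1
  rw [Real.sqrt_eq_rpow, ← ENNReal.ofReal_rpow_of_pos hs, ENNReal.ofReal_add
    ENNReal.toReal_nonneg ENNReal.toReal_nonneg, ENNReal.ofReal_toReal hu,
    ENNReal.ofReal_toReal hD]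

lemma rt_real_mono {d a b : ℝ} (hd : 0 ≤ d) (ha : 0 ≤ a) (hab : a ≤ b) :
    a / Real.sqrt (d + a) ≤ b / Real.sqrt (d + b) := by
  rcases eq_or_lt_of_le ha with h | h
  · have hb0 : 0 ≤ b := ha.trans hab
    rw [← h, zero_div]
    positivity
  have hb : 0 < b := by linarith
  rw [div_le_div_iff₀ (Real.sqrt_pos.mpr (by linarith)) (Real.sqrt_pos.mpr (by linarith))]
  rw [← Real.sqrt_sq ha, ← Real.sqrt_sq hb.le, ← Real.sqrt_mul (by positivity),
    ← Real.sqrt_mul (by positivity), Real.sqrt_sq ha, Real.sqrt_sq hb.le]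
  apply Real.sqrt_le_sqrt
  have h1 : a ^ 2 * d ≤ b ^ 2 * d := by
    apply mul_le_mul_of_nonneg_right _ hd
    exact pow_le_pow_left₀ ha hab 2
  nlinarith [mul_nonneg ha hb.le, mul_nonneg (mul_nonneg ha hb.le) (sub_nonneg.mpr hab)]

lemma rt_mono {D u v : ℝ≥0∞} (h : u ≤ v) (hv : v ≠ ⊤) : rt D u ≤ rt D v := by
  by_cases hD : D = ⊤
  · rw [hD, rt_top]; exact bot_le
  have hu : u ≠ ⊤ := ne_top_of_le_ne_top hv h
  rw [rt_eq hD hu, rt_eq hD hv]
  apply ENNReal.ofReal_le_ofReal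
  exact rt_real_mono ENNReal.toReal_nonneg ENNReal.toReal_nonneg (ENNReal.toReal_mono hv h)

lemma rt_anti {D D' u : ℝ≥0∞} (h : D ≤ D') : rt D' u ≤ rt D u := by
  unfold rt
  apply ENNReal.div_le_div_left
  exact ENNReal.rpow_le_rpow (by gcongr) (by norm_num)

lemma rt_add (D u v : ℝ≥0∞) : rt D (u + v) ≤ rt D u + rt D v := by
  have h1 : rt D (u + v) = u / (D + (u + v)) ^ (1 / 2 : ℝ) + v / (D + (u + v)) ^ (1 / 2 : ℝ) := by
    unfold rt
    rw [ENNReal.add_div]
  rw [h1]
  unfold rt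
  refine add_le_add ?_ ?_
  · apply ENNReal.div_le_div_left
    exact ENNReal.rpow_le_rpow (add_le_add le_rfl le_self_add) (by norm_num)
  · apply ENNReal.div_le_div_left
    exact ENNReal.rpow_le_rpow (add_le_add le_rfl le_add_self) (by norm_num)

lemma rt_tsum {ι : Type*} (D : ℝ≥0∞) (u : ι → ℝ≥0∞) : rt D (∑' i, u i) ≤ ∑' i, rt D (u i) := by
  have h1 : rt D (∑' i, u i) = ∑' i, u i / (D + ∑' i, u i) ^ (1 / 2 : ℝ) := by
    unfold rt
    simp only [div_eq_mul_inv]
    rw [ENNReal.tsum_mul_right]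
  rw [h1]
  refine ENNReal.tsum_le_tsum fun i => ?_
  unfold rt
  apply ENNReal.div_le_div_left
  exact ENNReal.rpow_le_rpow (add_le_add le_rfl (ENNReal.le_tsum i)) (by norm_num)

/-- the increment of the square root -/
lemma rt_incr {D M M' u : ℝ≥0∞} (hM : M ≤ D) (h : M + u ≤ M') (hM' : M' ≠ ⊤) :
    rt D u ≤ ENNReal.ofReal (2 * (Real.sqrt M'.toReal - Real.sqrt M.toReal)) := by
  refine (rt_anti hM).trans ?_
  have hMt : M ≠ ⊤ := ne_top_of_le_ne_top hM' (le_self_add.trans h)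
  have hut : u ≠ ⊤ := ne_top_of_le_ne_top hM' (le_add_self.trans h)
  rw [rt_eq hMt hut]
  apply ENNReal.ofReal_le_ofReal
  set m := M.toReal with hm
  set a := u.toReal with ha
  set m' := M'.toReal with hm'
  have hm0 : 0 ≤ m := ENNReal.toReal_nonneg
  have ha0 : 0 ≤ a := ENNReal.toReal_nonneg
  have hle : m + a ≤ m' := by
    rw [hm, ha, ← ENNReal.toReal_add hMt hut]
    exact ENNReal.toReal_mono hM' h
  have h2 : Real.sqrt (m + a) ≤ Real.sqrt m' := Real.sqrt_le_sqrt hle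
  have h3 : a / Real.sqrt (m + a) ≤ 2 * (Real.sqrt (m + a) - Real.sqrt m) := by
    rcases eq_or_lt_of_le ha0 with h | h
    · rw [← h]; simp
    have hs : 0 < Real.sqrt (m + a) := Real.sqrt_pos.mpr (by linarith)
    rw [div_le_iff₀ hs]
    have e1 : Real.sqrt (m + a) * Real.sqrt (m + a) = m + a := Real.mul_self_sqrt (by linarith)
    have e2 : Real.sqrt m * Real.sqrt m = m := Real.mul_self_sqrt hm0
    have e3 : Real.sqrt m ≤ Real.sqrt (m + a) := Real.sqrt_le_sqrt (by linarith)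
    nlinarith [sq_nonneg (Real.sqrt (m + a) - Real.sqrt m)]
  linarith

lemma rt_le_of {D u c : ℝ≥0∞} (h : u ≤ c * D ^ (1 / 2 : ℝ)) : rt D u ≤ c := by
  unfold rt
  apply ENNReal.div_le_of_le_mul
  refine h.trans (mul_le_mul' le_rfl (ENNReal.rpow_le_rpow le_self_add (by norm_num)))

lemma rt_le_two {D u : ℝ≥0∞} (h : 2⁻¹ ≤ D) : rt D u ≤ 2 * u := by
  unfold rt
  apply ENNReal.div_le_of_le_mul
  have h1 : (2⁻¹ : ℝ≥0∞) ≤ (D + u) ^ (1 / 2 : ℝ) := by
    have h2 : (2⁻¹ : ℝ≥0∞) ≤ 2⁻¹ ^ (1 / 2 : ℝ) := by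
      calc (2⁻¹ : ℝ≥0∞) = 2⁻¹ ^ (1 : ℝ) := (ENNReal.rpow_one _).symm
        _ ≤ 2⁻¹ ^ (1 / 2 : ℝ) := ENNReal.rpow_le_rpow_of_exponent_ge (by norm_num) (by norm_num)
    exact h2.trans (ENNReal.rpow_le_rpow (h.trans le_self_add) (by norm_num))
  calc u = 2 * u * 2⁻¹ := by
        rw [mul_comm 2 u, mul_assoc, ENNReal.mul_inv_cancel (by norm_num) (by norm_num), mul_one]
    _ ≤ _ := mul_le_mul' le_rfl h1

/-! ### one dimension -/

/-- the integral of the increments of a bounded monotone function -/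
lemma tel0 {F : ℝ → ℝ} (hF : Monotone F) {c : ℝ} (h0 : ∀ r, 0 ≤ F r) (h1 : ∀ r, F r ≤ c)
    {R s : ℝ} (hR : 0 ≤ R) (hs : 0 ≤ s) :
    ∫⁻ r in Icc (-R) R, ENNReal.ofReal (F (r + s) - F r) ≤ ENNReal.ofReal (s * c) := by
  have hFs : Monotone fun r => F (r + s) := fun x y hxy => hF (by linarith)
  have hi1 : ∀ x y, IntervalIntegrable F volume x y := fun x y => hF.intervalIntegrable
  have hi2 : ∀ x y, IntervalIntegrable (fun r => F (r + s)) volume x y :=
    fun x y => hFs.intervalIntegrable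
  have hint : IntegrableOn (fun r => F (r + s) - F r) (Icc (-R) R) := by
    have := ((hi2 (-R) R).sub (hi1 (-R) R))
    rw [intervalIntegrable_iff_integrableOn_Icc_of_le (by linarith)] at this
    exact this
  have hnn : ∀ r, 0 ≤ F (r + s) - F r := fun r => by
    have := hF (show r ≤ r + s by linarith)
    linarith
  rw [← ofReal_integral_eq_lintegral_ofReal hint (Filter.Eventually.of_forall hnn)]
  apply ENNReal.ofReal_le_ofReal
  rw [integral_Icc_eq_integral_Ioc, ← intervalIntegral.integral_of_le (by linarith),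
    intervalIntegral.integral_sub (hi2 _ _) (hi1 _ _)]
  rw [intervalIntegral.integral_comp_add_right (fun r => F r) s]
  have e2 : (∫ r in (-R + s)..(R + s), F r) - ∫ r in (-R)..R, F r
      = (∫ r in R..(R + s), F r) - ∫ r in (-R)..(-R + s), F r := by
    have a1 := intervalIntegral.integral_add_adjacent_intervals (hi1 (-R) (-R + s))
      (hi1 (-R + s) (R + s))
    have a2 := intervalIntegral.integral_add_adjacent_intervals (hi1 (-R) R) (hi1 R (R + s))
    linarith
  rw [e2]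
  have b1 : ∫ r in R..(R + s), F r ≤ s * c := by
    have := intervalIntegral.integral_mono_on (a := R) (b := R + s) (by linarith) (hi1 _ _)
      (intervalIntegrable_const (c := c)) (fun r _ => h1 r)
    rw [intervalIntegral.integral_const] at this
    simpa using this
  have b2 : 0 ≤ ∫ r in (-R)..(-R + s), F r :=
    intervalIntegral.integral_nonneg (by linarith) (fun r _ => h0 r)
  linarith

lemma kk_le_one : kk ≤ 1 := by
  unfold kk
  rw [ENNReal.ofReal_le_one]
  apply inv_le_one_of_one_le₀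
  rw [Real.one_le_sqrt]
  have := Real.pi_gt_three
  linarith

/-- the end zone of an interval against the square root of the dead mass -/
lemma gauss_sqrt {I : Set ℝ} (hI : I.OrdConnected) (hIm : MeasurableSet I) {R s : ℝ}
    (hR : 0 ≤ R) (hs : 0 ≤ s) (hsR : s * (1 + R) ≤ 1) (hIR : ∀ r ∈ I, |r| ≤ R) :
    gaussianReal 0 1 {r | r ∈ I ∧ r + s ∉ I}
      ≤ ENNReal.ofReal (5 * s) * gaussianReal 0 1 Iᶜ ^ (1 / 2 : ℝ) := by
  rcases Set.eq_empty_or_nonempty {r | r ∈ I ∧ r + s ∉ I} with h | h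
  · rw [h]; simp
  obtain ⟨i, hi, hi2⟩ := edge_sub hI hs h
  set J : Set ℝ := {r | r ∈ I ∧ r + s ∉ I} with hJ
  have hJm : MeasurableSet J := hIm.inter ((hIm.compl).preimage (measurable_id.add_const s))
  have hJi : ∀ x ∈ J, |x| ≤ R := fun x hx => hIR x hx.1
  set β : ℝ := max (i + s) 0 with hβ
  have hβ0 : 0 ≤ β := le_max_right _ _
  have hβR : β ≤ R + s := by
    obtain ⟨x, hx⟩ := h
    have h1 := (hi hx).1
    have h2 := (abs_le.mp (hJi x hx)).2
    rw [hβ]
    exact max_le (by linarith) (by linarith)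
  have hs1 : s ≤ 1 := by nlinarith
  set T : Set ℝ := Ioc β (β + 1) with hT
  have hTI : T ⊆ Iᶜ := fun t ht => hi2 t (lt_of_le_of_lt (le_max_left _ _) ht.1)
  set c : ℝ≥0∞ := ENNReal.ofReal (Real.exp (-β ^ 2 / 2 + 1)) with hc
  have hJc : gaussianReal 0 1 J ≤ kk * c * volume J := by
    apply gauss_le _ hJm
    intro x hx
    unfold ee
    rw [hc]
    apply ENNReal.ofReal_le_ofReal
    apply Real.exp_le_exp.mpr
    have hx1 := (hi hx).1
    rcases le_or_gt β s with h3 | h3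
    · have : β ^ 2 ≤ 1 := by nlinarith
      nlinarith [sq_nonneg x]
    · have h4 : β = i + s := by
        rcases max_choice (i + s) 0 with h5 | h5
        · rw [hβ, h5]
        · exfalso
          have : β = 0 := by rw [hβ, h5]
          linarith
      have h5 : 0 ≤ β - s := by linarith
      have h6 : (β - s) ^ 2 ≤ x ^ 2 := by
        apply pow_le_pow_left₀ h5
        linarith
      have h7 : β * s ≤ 1 := by
        calc β * s ≤ (R + s) * s := mul_le_mul_of_nonneg_right hβR hs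
          _ ≤ (R + 1) * s := mul_le_mul_of_nonneg_right (by linarith) hs
          _ ≤ 1 := by linarith
      nlinarith [sq_nonneg s]
  have hTc : kk * ENNReal.ofReal (Real.exp (-(β + 1) ^ 2 / 2)) * volume T ≤
      gaussianReal 0 1 T := by
    apply gauss_ge _ measurableSet_Ioc
    intro y hy
    unfold ee
    apply ENNReal.ofReal_le_ofReal
    apply Real.exp_le_exp.mpr
    have : y ^ 2 ≤ (β + 1) ^ 2 := pow_le_pow_left₀ (by linarith [hy.1]) hy.2 2
    linarith
  have hvT : volume T = 1 := by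
    rw [hT, Real.volume_Ioc]; simp
  rw [hvT, mul_one] at hTc
  have hvJ : volume J ≤ ENNReal.ofReal s := vol_edge hI hs
  have hkc : kk * c ≤ 5 * gaussianReal 0 1 Iᶜ ^ (1 / 2 : ℝ) := by
    have h1 : kk ≤ kk ^ (1 / 2 : ℝ) := by
      calc kk = kk ^ (1 : ℝ) := (ENNReal.rpow_one _).symm
        _ ≤ kk ^ (1 / 2 : ℝ) := ENNReal.rpow_le_rpow_of_exponent_ge kk_le_one (by norm_num)
    have h2 : c ≤ 5 * ENNReal.ofReal (Real.exp (-(β + 1) ^ 2 / 2)) ^ (1 / 2 : ℝ) := by
      rw [ENNReal.ofReal_rpow_of_pos (Real.exp_pos _), ← Real.exp_mul, hc]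
      have h5 : (5 : ℝ≥0∞) = ENNReal.ofReal 5 := by simp
      rw [h5, ← ENNReal.ofReal_mul (by norm_num)]
      apply ENNReal.ofReal_le_ofReal
      have h6 : Real.exp (-β ^ 2 / 2 + 1) ≤
          Real.exp (3 / 2) * Real.exp (-(β + 1) ^ 2 / 2 * (1 / 2)) := by
        rw [← Real.exp_add]
        apply Real.exp_le_exp.mpr
        nlinarith [sq_nonneg (β - 1)]
      refine h6.trans (mul_le_mul_of_nonneg_right ?_ (Real.exp_pos _).le)
      have h7 : Real.exp (3 / 2) = Real.exp 1 * Real.exp (1 / 2) := by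
        rw [← Real.exp_add]; norm_num
      have h8 : Real.exp 1 < 2.7182818286 := Real.exp_one_lt_d9
      have h9 : Real.exp (1 / 2) ≤ 1.65 := by
        have h10 : Real.exp (1 / 2) ^ 2 = Real.exp 1 := by
          rw [← Real.exp_nat_mul]; norm_num
        have h11 := Real.exp_pos (1 / 2)
        nlinarith
      rw [h7]
      nlinarith [Real.exp_pos 1, Real.exp_pos (1 / 2)]
    calc kk * c ≤ kk ^ (1 / 2 : ℝ) *
          (5 * ENNReal.ofReal (Real.exp (-(β + 1) ^ 2 / 2)) ^ (1 / 2 : ℝ)) := mul_le_mul' h1 h2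
      _ = 5 * (kk * ENNReal.ofReal (Real.exp (-(β + 1) ^ 2 / 2))) ^ (1 / 2 : ℝ) := by
          rw [ENNReal.mul_rpow_of_nonneg _ _ (by norm_num)]
          ring
      _ ≤ 5 * gaussianReal 0 1 Iᶜ ^ (1 / 2 : ℝ) := by
          refine mul_le_mul' le_rfl (ENNReal.rpow_le_rpow ?_ (by norm_num))
          exact hTc.trans (measure_mono hTI)
  calc gaussianReal 0 1 J ≤ kk * c * ENNReal.ofReal s := hJc.trans (mul_le_mul' le_rfl hvJ)
    _ ≤ (5 * gaussianReal 0 1 Iᶜ ^ (1 / 2 : ℝ)) * ENNReal.ofReal s := mul_le_mul' hkc le_rfl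
    _ = _ := by
        rw [ENNReal.ofReal_mul (by norm_num)]
        simp only [ENNReal.ofReal_ofNat]
        ring

/-- Jensen for the square root -/
lemma lint_sqrt {X : Type*} [MeasurableSpace X] {μ : Measure X} [IsProbabilityMeasure μ]
    {f : X → ℝ≥0∞} (hf : AEMeasurable f μ) :
    ∫⁻ x, f x ^ (1 / 2 : ℝ) ∂μ ≤ (∫⁻ x, f x ∂μ) ^ (1 / 2 : ℝ) := by
  have h := ENNReal.lintegral_mul_le_Lp_mul_Lq μ (p := 2) (q := 2) (by
    constructor <;> norm_num) (f := fun x => f x ^ (1 / 2 : ℝ)) (g := fun _ => 1)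
    (hf.pow_const _) aemeasurable_const
  simp only [Pi.mul_apply, mul_one, ENNReal.one_rpow, lintegral_const, measure_univ] at h
  refine h.trans (le_of_eq ?_)
  congr 1
  refine lintegral_congr fun x => ?_
  rw [← ENNReal.rpow_mul]
  norm_num

end Vale.Agent.P262.H431
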