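import Mathlib
import Vale.Agent.P262.H431.Thr1

/-!
# P262, block THR0, part 2: one direction

`Cf K e s` is the set of points of `K` which leave `K` when moved by `s x` in the direction `e`.
-/

set_option linter.all false

open MeasureTheory Set Filter ProbabilityTheory
open scoped ENNReal NNReal Topology RealInnerProductSpace

namespace Vale.Agent.P262.H431

open Vale.Agent.P262.H493 hiding fib
open Vale.Agent.P262.H395 Vale.Agent.P262.H44 Vale.Agent.P262.H59
open Vale.Agent.P262.H706 (line_ord line_meas edge_sub vol_edge Zn measurableSet_Zn half_le)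

variable {E : Type*} [NormedAddCommGroup E] [InnerProductSpace ℝ E] [FiniteDimensional ℝ E]
  [MeasurableSpace E] [BorelSpace E]

/-- the points of `K` that leave `K` when moved by `s x` along `e` -/
def Cf (K : Set E) (e : E) (s : E → ℝ) : Set E := {x | x ∈ K ∧ x + s x • e ∉ K}

lemma measurableSet_Cf {K : Set E} (hK : MeasurableSet K) (e : E) {s : E → ℝ}
    (hs : Measurable s) : MeasurableSet (Cf K e s) := by
  apply hK.inter
  have : Measurable fun x : E => x + s x • e := by fun_prop
  exact (hK.compl).preimage this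

/-- a function on `E` that does not change along `e` -/
def Al (e : E) (s : E → ℝ) : Prop := ∀ (x : E) (t : ℝ), s (x + t • e) = s x

lemma Al.pt {e : E} {s : E → ℝ} (h : Al e s) (x : E) (t : ℝ) : s (pt e x t) = s x := h x _

/-- a function on `E` that depends on the label `P_W x` only -/
def La (W : Submodule ℝ E) (s : E → ℝ) : Prop := ∀ x, ∀ v ∈ Wᗮ, s (x + v) = s x

lemma La.mix {W : Submodule ℝ E} {s : E → ℝ} (h : La W s) (x z : E) :
    s (Vale.Agent.P262.H395.mix W x z) = s x := by
  have e1 : Vale.Agent.P262.H395.mix W x z = x + ((z - W.starProjection z) -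
      (x - W.starProjection x)) := by
    unfold Vale.Agent.P262.H395.mix
    abel
  rw [e1]
  apply h
  apply Submodule.sub_mem
  · exact Submodule.sub_starProjection_mem_orthogonal z
  · exact Submodule.sub_starProjection_mem_orthogonal x

lemma pt_step (e x : E) (t s : ℝ) : pt e x t + s • e = pt e x (t + s) := by
  unfold pt
  module

lemma pt_comb (e x : E) (r : ℝ) : pt e x r = pt e x 0 + r • e := by
  unfold pt
  module

/-! ### the edge of a body, weighted -/

lemma line_edge {K : Set E} (hK : Convex ℝ K) (hKm : MeasurableSet K) {e : E} (he : ‖e‖ = 1)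
    {s : E → ℝ} (hs : Measurable s) (hs0 : ∀ x, 0 ≤ s x) (hse : Al e s) {w : E → ℝ≥0∞}
    (hw : Measurable w) (x : E) :
    fib (ℝ ∙ e)ᗮ (fun y => w y * (Cf K e s).indicator 1 y) x ≤
      kk * (ENNReal.ofReal (s x) * mL w K e x) := by
  have hCm := measurableSet_Cf hKm e hs
  have hfm0 : Measurable fun y => w y * (Cf K e s).indicator 1 y :=
    hw.mul (measurable_one.indicator hCm)
  rw [fib_line_vol he hfm0]
  refine mul_le_mul' le_rfl ?_
  set I : Set ℝ := {r | pt e x r ∈ K} with hI
  have hIo : I.OrdConnected := by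
    have h1 := line_ord hK (pt e x 0) e
    have h2 : I = {r : ℝ | pt e x 0 + r • e ∈ K} := by
      ext r
      simp only [hI, mem_setOf_eq]
      rw [← pt_comb]
    rw [h2]
    exact h1
  have hIm : MeasurableSet I := (continuous_pt_right e x).measurable hKm
  have hJm : MeasurableSet {r | r ∈ I ∧ r + s x ∉ I} :=
    hIm.inter ((hIm.compl).preimage (measurable_id.add_const (s x)))
  calc ∫⁻ t, ee t * (w (pt e x t) * (Cf K e s).indicator 1 (pt e x t))
      ≤ ∫⁻ t, ({r | r ∈ I ∧ r + s x ∉ I}).indicator (fun _ => mL w K e x) t := by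
        apply lintegral_mono
        intro t
        by_cases h : pt e x t ∈ Cf K e s
        · have h1 : t ∈ {r | r ∈ I ∧ r + s x ∉ I} := by
            refine ⟨h.1, ?_⟩
            intro h2
            apply h.2
            rw [hse.pt, pt_step]
            exact h2
          rw [indicator_of_mem h1]
          simp only [indicator_of_mem h, Pi.one_apply, mul_one]
          unfold mL
          refine le_trans ?_ (le_iSup _ t)
          rw [indicator_of_mem h.1]
        · simp only [indicator_of_notMem h, mul_zero]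
          exact bot_le
    _ = mL w K e x * volume {r | r ∈ I ∧ r + s x ∉ I} := lintegral_indicator_const hJm _
    _ ≤ mL w K e x * ENNReal.ofReal (s x) := mul_le_mul' le_rfl (vol_edge hIo (hs0 x))
    _ = _ := mul_comm _ _

/-- the same after integration over the region -/
theorem fib_edge {K : Set E} (hK : Convex ℝ K) (hKm : MeasurableSet K) {e : E} (he : ‖e‖ = 1)
    {s : E → ℝ} (hs : Measurable s) (hs0 : ∀ x, 0 ≤ s x) (hse : Al e s) {w Om : E → ℝ≥0∞}
    (hw : Measurable w) (hOm : Measurable Om) (hOi : Inv (ℝ ∙ e)ᗮ Om) {W00 : Submodule ℝ E}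
    (hW : W00 ≤ (ℝ ∙ e)ᗮ) (x0 : E) :
    fib W00 (fun x => Om x * (w x * (Cf K e s).indicator 1 x)) x0 ≤
      kk * fib W00 (fun x => Om x * (ENNReal.ofReal (s x) * mL w K e x)) x0 := by
  have hCm := measurableSet_Cf hKm e hs
  have hm : Measurable fun y => w y * (Cf K e s).indicator 1 y :=
    hw.mul (measurable_one.indicator hCm)
  have hOm1 : Measurable fun x => Om x * (w x * (Cf K e s).indicator 1 x) := hOm.mul hm
  rw [← fib_tower hW hOm1]
  have h1 : ∀ y, fib (ℝ ∙ e)ᗮ (fun x => Om x * (w x * (Cf K e s).indicator 1 x)) y ≤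
      kk * (Om y * (ENNReal.ofReal (s y) * mL w K e y)) := by
    intro y
    rw [fib_mul hOi hm]
    calc Om y * fib (ℝ ∙ e)ᗮ (fun x => w x * (Cf K e s).indicator 1 x) y
        ≤ Om y * (kk * (ENNReal.ofReal (s y) * mL w K e y)) :=
          mul_le_mul' le_rfl (line_edge hK hKm he hs hs0 hse hw y)
      _ = _ := by ring
  refine (fib_mono h1 x0).trans ?_
  unfold fib
  rw [lintegral_const_mul' _ _ kk_ne_top]

/-! ### label directions, in the healthy zone -/

theorem label_sqrt {K Y : Set E} (hK : Convex ℝ K) (hKm : MeasurableSet K)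
    (hYm : MeasurableSet Y) {e : E} (he : ‖e‖ = 1) (hYe : ∀ (x : E) (t : ℝ), x + t • e ∈ Y ↔ x ∈ Y)
    {s : E → ℝ} (hs : Measurable s) (hs0 : ∀ x, 0 ≤ s x) (hse : Al e s)
    {W : Submodule ℝ E} (heW : e ∈ W) (hsW : La W s) {cY : ℝ} (hc0 : 0 ≤ cY)
    (hcY : ∀ x, fib W (Y.indicator 1) x ≤ ENNReal.ofReal cY) (x : E) :
    ∃ F : ℝ → ℝ, Monotone F ∧ (∀ r, 0 ≤ F r) ∧ (∀ r, F r ≤ Real.sqrt cY) ∧
      ∀ r, rt (fib W (Kᶜ.indicator 1) (pt e x r)) (fib W ((Y ∩ Cf K e s).indicator 1) (pt e x r))
        ≤ ENNReal.ofReal (2 * (F (r + s x) - F r)) := by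
  set γ := stdGaussian E with hγ
  set p := pt e x 0 with hp
  have hsp : s p = s x := hse.pt x 0
  have hmix : ∀ (r : ℝ) z, mix W (pt e x r) z = mix W p z + r • e := by
    intro r z
    rw [pt_comb]
    unfold mix
    rw [map_add, map_smul, Submodule.starProjection_eq_self_iff.mpr heW]
    abel
  set N : ℝ → Set E := fun r => {z | mix W p z ∈ Y ∧ mix W p z + r • e ∉ K ∧
    ∃ r' < r, mix W p z + r' • e ∈ K} with hN
  have hNm : ∀ r r', r ≤ r' → N r ⊆ N r' := by
    rintro r r' hrr z ⟨h0, h1, q, hq, h2⟩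
    refine ⟨h0, fun h3 => h1 ?_, q, by linarith, h2⟩
    exact (line_ord hK (mix W p z) e).out h2 h3 ⟨hq.le, hrr⟩
  have hD : ∀ r : ℝ, fib W (Kᶜ.indicator 1) (pt e x r) = γ {z | mix W p z + r • e ∉ K} := by
    intro r
    rw [fib_indicator W hKm.compl]
    congr 1
    ext z
    have := hmix r z
    unfold mix at this
    simp only [mem_setOf_eq, mem_compl_iff]
    rw [this]
    rfl
  have hsz : ∀ z (r : ℝ), s (mix W p z + r • e) = s x := by
    intro z r
    rw [hse, hsW.mix, hsp]
  have hC : ∀ r : ℝ, fib W ((Y ∩ Cf K e s).indicator 1) (pt e x r)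
      = γ {z | mix W p z ∈ Y ∧ mix W p z + r • e ∈ K ∧ mix W p z + (r + s x) • e ∉ K} := by
    intro r
    rw [fib_indicator W (hYm.inter (measurableSet_Cf hKm e hs))]
    congr 1
    ext z
    have h1 := hmix r z
    have h2 := hsz z r
    unfold mix at h1 h2
    simp only [mem_setOf_eq, mem_inter_iff, Cf]
    rw [h1, h2, hYe]
    have e3 : W.starProjection p + (z - W.starProjection z) + r • e + s x • e =
        W.starProjection p + (z - W.starProjection z) + (r + s x) • e := by
      rw [add_smul]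
      abel
    rw [e3]
    rfl
  have hCm : ∀ r : ℝ, MeasurableSet {z | mix W p z ∈ Y ∧ mix W p z + r • e ∈ K ∧
      mix W p z + (r + s x) • e ∉ K} := by
    intro r
    have h0 : Measurable fun z => mix W p z := measurable_mix_right W p
    have h1 : Measurable fun z => mix W p z + r • e := (measurable_mix_right W p).add_const _
    have h2 : Measurable fun z => mix W p z + (r + s x) • e :=
      (measurable_mix_right W p).add_const _
    exact (h0 hYm).inter ((h1 hKm).inter (h2 hKm.compl))
  have hstep : ∀ r : ℝ, γ (N r) + γ {z | mix W p z ∈ Y ∧ mix W p z + r • e ∈ K ∧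
      mix W p z + (r + s x) • e ∉ K} ≤ γ (N (r + s x)) := by
    intro r
    rw [← measure_union _ (hCm r)]
    · apply measure_mono
      apply union_subset (hNm r _ (by linarith [hs0 x]))
      rintro z ⟨h0, h1, h2⟩
      rcases eq_or_lt_of_le (hs0 x) with h3 | h3
      · exfalso
        apply h2
        rw [← h3, add_zero]
        exact h1
      · exact ⟨h0, h2, r, by linarith, h1⟩
    · rw [Set.disjoint_left]
      rintro z ⟨-, h1, -⟩ ⟨-, h2, -⟩
      exact h1 h2
  have hfin : ∀ S : Set E, γ S ≠ ⊤ := fun S => measure_ne_top γ S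
  have hNY : ∀ r, γ (N r) ≤ ENNReal.ofReal cY := by
    intro r
    refine le_trans ?_ (hcY p)
    rw [fib_indicator W hYm]
    exact measure_mono fun z hz => hz.1
  refine ⟨fun r => Real.sqrt (γ (N r)).toReal, ?_, fun r => Real.sqrt_nonneg _, ?_, ?_⟩
  · intro r r' h
    exact Real.sqrt_le_sqrt (ENNReal.toReal_mono (hfin _) (measure_mono (hNm r r' h)))
  · intro r
    apply Real.sqrt_le_sqrt
    have := ENNReal.toReal_mono ENNReal.ofReal_ne_top (hNY r)
    rwa [ENNReal.toReal_ofReal hc0] at this
  · intro r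
    rw [hC r, hD r]
    exact rt_incr (measure_mono fun z hz => hz.2.1) (hstep r) (hfin _)

/-- integration along the line -/
theorem label_zone {K Y : Set E} (hK : Convex ℝ K) (hKm : MeasurableSet K)
    (hYm : MeasurableSet Y) {R : ℝ} (hR : 0 ≤ R) (hKR : K ⊆ Metric.closedBall 0 R)
    {e : E} (he : ‖e‖ = 1) (hYe : ∀ (x : E) (t : ℝ), x + t • e ∈ Y ↔ x ∈ Y)
    {s : E → ℝ} (hs : Measurable s) (hs0 : ∀ x, 0 ≤ s x) (hse : Al e s)
    {W : Submodule ℝ E} (heW : e ∈ W) (hsW : La W s) {cY : ℝ} (hc0 : 0 ≤ cY)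
    (hcY : ∀ x, fib W (Y.indicator 1) x ≤ ENNReal.ofReal cY)
    {w : E → ℝ≥0∞} (hw : Measurable w) (hwi : Inv W w) (x : E) :
    fib (ℝ ∙ e)ᗮ (fun y => w y * (rt (fib W (Kᶜ.indicator 1) y)
      (fib W ((Y ∩ Cf K e s).indicator 1) y) * (Zn W K).indicator 1 y)) x
      ≤ kk * (ENNReal.ofReal (4 * Real.sqrt cY) *
        (ENNReal.ofReal (s x) * fib W (mL w K e) x)) := by
  have hZm := measurableSet_Zn W hKm
  have hCm := measurableSet_Cf hKm e hs
  have hrm : Measurable fun y => rt (fib W (Kᶜ.indicator 1) y)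
      (fib W ((Y ∩ Cf K e s).indicator 1) y) := by
    unfold rt
    have h1 : Measurable (fib W (Kᶜ.indicator (1 : E → ℝ≥0∞))) :=
      measurable_fib (measurable_one.indicator hKm.compl)
    have h2 : Measurable (fib W ((Y ∩ Cf K e s).indicator (1 : E → ℝ≥0∞))) :=
      measurable_fib (measurable_one.indicator (hYm.inter hCm))
    exact h2.div ((h1.add h2).pow_const _)
  have hfm : Measurable fun y => w y * (rt (fib W (Kᶜ.indicator 1) y)
      (fib W ((Y ∩ Cf K e s).indicator 1) y) * (Zn W K).indicator 1 y) :=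
    hw.mul (hrm.mul (measurable_one.indicator hZm))
  rw [fib_line_vol he hfm]
  refine mul_le_mul' le_rfl ?_
  obtain ⟨F, hF, hF0, hF1, hFr⟩ := label_sqrt hK hKm hYm he hYe hs hs0 hse heW hsW hc0 hcY x
  have hpt : ∀ r : ℝ, ee r * (w (pt e x r) * (rt (fib W (Kᶜ.indicator 1) (pt e x r))
      (fib W ((Y ∩ Cf K e s).indicator 1) (pt e x r)) * (Zn W K).indicator 1 (pt e x r)))
      ≤ (Icc (-R) R).indicator (fun r => (2 * fib W (mL w K e) x) *
        (ENNReal.ofReal 2 * ENNReal.ofReal (F (r + s x) - F r))) r := by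
    intro r
    by_cases hr : pt e x r ∈ Zn W K
    · rw [indicator_of_mem hr]
      have hhalf := half_le hKm hr
      set p := pt e x 0 with hp
      have hmix : ∀ z, mix W (pt e x r) z = mix W p z + r • e := by
        intro z
        rw [pt_comb]
        unfold mix
        rw [map_add, map_smul, Submodule.starProjection_eq_self_iff.mpr heW]
        abel
      have hmi : ∀ z, ⟪e, mix W (pt e x r) z⟫ = r := by
        intro z
        have h1 : ⟪e, W.starProjection (pt e x r)⟫ = r := by
          rw [← Submodule.inner_starProjection_left_eq_right,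
            Submodule.starProjection_eq_self_iff.mpr heW, inner_pt he]
        have h2 : ⟪e, z - W.starProjection z⟫ = 0 := by
          rw [inner_sub_right, ← Submodule.inner_starProjection_left_eq_right,
            Submodule.starProjection_eq_self_iff.mpr heW, sub_self]
        unfold mix
        rw [inner_add_right, h1, h2, add_zero]
      have hGm : ∀ z, mL w K e (mix W x z) = mL w K e (mix W (pt e x r) z) := by
        intro z
        have h5 : mix W x z = mix W (pt e x r) z + (⟪e, x⟫ - r) • e := by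
          unfold mix pt
          rw [map_add, map_smul, Submodule.starProjection_eq_self_iff.mpr heW]
          module
        rw [h5]
        exact inv_mL he _ _ (Submodule.smul_mem _ _ (by
          rw [Submodule.orthogonal_orthogonal]
          exact Submodule.mem_span_singleton_self e))
      have hKz : ∀ z, K.indicator (1 : E → ℝ≥0∞) (mix W (pt e x r) z)
          * (ee r * w (pt e x r)) ≤ mL w K e (mix W x z) := by
        intro z
        rw [hGm z]
        by_cases hz : mix W (pt e x r) z ∈ K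
        · rw [indicator_of_mem hz, Pi.one_apply, one_mul]
          have := le_mL (w := w) he hz (pt_self e _)
          rw [hmi z, hwi.mix] at this
          exact this
        · rw [indicator_of_notMem hz, zero_mul]
          exact bot_le
      have hsup : ee r * w (pt e x r) ≤ 2 * fib W (mL w K e) x := by
        have h1 : fib W (K.indicator 1) (pt e x r) * (ee r * w (pt e x r)) ≤
            fib W (mL w K e) x := by
          unfold fib
          have hm : Measurable fun z => K.indicator (1 : E → ℝ≥0∞) (mix W (pt e x r) z) :=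
            (measurable_one.indicator hKm).comp (measurable_mix_right W _)
          rw [← lintegral_mul_const _ hm]
          exact lintegral_mono hKz
        calc ee r * w (pt e x r) = 2 * (2⁻¹ * (ee r * w (pt e x r))) := by
              rw [← mul_assoc, ENNReal.mul_inv_cancel (by simp) (by simp), one_mul]
          _ ≤ 2 * (fib W (K.indicator 1) (pt e x r) * (ee r * w (pt e x r))) :=
              mul_le_mul' le_rfl (mul_le_mul' hhalf le_rfl)
          _ ≤ 2 * fib W (mL w K e) x := mul_le_mul' le_rfl h1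
      have hrI : r ∈ Icc (-R) R := by
        have hpos : fib W (K.indicator (1 : E → ℝ≥0∞)) (pt e x r) ≠ 0 := by
          intro h0
          rw [h0] at hhalf
          simp at hhalf
        have hex : ∃ z, mix W (pt e x r) z ∈ K := by
          by_contra hne
          push Not at hne
          apply hpos
          unfold fib
          simp_rw [indicator_of_notMem (hne _)]
          simp
        obtain ⟨z, hz⟩ := hex
        have h3 := hKR hz
        rw [mem_closedBall_zero_iff] at h3
        have h4 : |⟪e, mix W (pt e x r) z⟫| ≤ ‖e‖ * ‖mix W (pt e x r) z‖ :=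
          abs_real_inner_le_norm _ _
        rw [hmi z, he, one_mul] at h4
        exact abs_le.mp (h4.trans h3)
      rw [indicator_of_mem hrI, Pi.one_apply, mul_one, ← mul_assoc]
      refine mul_le_mul' hsup ?_
      refine (hFr r).trans (le_of_eq ?_)
      rw [ENNReal.ofReal_mul (by norm_num)]
    · rw [indicator_of_notMem hr, mul_zero, mul_zero, mul_zero]
      exact bot_le
  refine (lintegral_mono hpt).trans ?_
  rw [lintegral_indicator measurableSet_Icc]
  have hLm : Measurable fun r : ℝ => F (r + s x) - F r := by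
    have h1 := hF.measurable
    exact (h1.comp (measurable_id.add_const (s x))).sub h1
  have hm1 : Measurable fun r : ℝ => ENNReal.ofReal 2 * ENNReal.ofReal (F (r + s x) - F r) :=
    hLm.ennreal_ofReal.const_mul _
  rw [lintegral_const_mul _ hm1, lintegral_const_mul _ hLm.ennreal_ofReal]
  calc 2 * fib W (mL w K e) x * (ENNReal.ofReal 2 * ∫⁻ r in Icc (-R) R,
        ENNReal.ofReal (F (r + s x) - F r))
      ≤ 2 * fib W (mL w K e) x * (ENNReal.ofReal 2 * ENNReal.ofReal (s x * Real.sqrt cY)) :=
        mul_le_mul' le_rfl (mul_le_mul' le_rfl (tel0 hF hF0 hF1 hR (hs0 x)))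
    _ = _ := by
        rw [ENNReal.ofReal_mul (hs0 x), ENNReal.ofReal_mul (by norm_num : (0:ℝ) ≤ 4)]
        have h4 : ENNReal.ofReal 4 = 2 * 2 := by
          rw [← ENNReal.ofReal_ofNat 2, ← ENNReal.ofReal_mul (by norm_num)]
          norm_num
        have h2 : ENNReal.ofReal 2 = 2 := by simp
        rw [h4, h2]
        ring

/-- integrated over the region -/
theorem fib_label {K Y : Set E} (hK : Convex ℝ K) (hKm : MeasurableSet K)
    (hYm : MeasurableSet Y) {R : ℝ} (hR : 0 ≤ R) (hKR : K ⊆ Metric.closedBall 0 R)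
    {e : E} (he : ‖e‖ = 1) (hYe : ∀ (x : E) (t : ℝ), x + t • e ∈ Y ↔ x ∈ Y)
    {s : E → ℝ} (hs : Measurable s) (hs0 : ∀ x, 0 ≤ s x) (hse : Al e s)
    {W W0 W00 : Submodule ℝ E} (heW : e ∈ W) (hsW : La W s) {cY : ℝ} (hc0 : 0 ≤ cY)
    (hcY : ∀ x, fib W (Y.indicator 1) x ≤ ENNReal.ofReal cY)
    {w Om : E → ℝ≥0∞} (hw : Measurable w) (hwi : Inv W w) (hmL : Measurable (mL w K e))
    (hOm : Measurable Om) (hOi : Inv W0 Om) (h0 : W0 ≤ (ℝ ∙ e)ᗮ) (hW : W0 ≤ W)
    (h00 : W00 ≤ W0) (x0 : E) :
    fib W00 (fun x => Om x * (w x * (rt (fib W (Kᶜ.indicator 1) x)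
      (fib W ((Y ∩ Cf K e s).indicator 1) x) * (Zn W K).indicator 1 x))) x0
      ≤ kk * (ENNReal.ofReal (4 * Real.sqrt cY) *
        fib W00 (fun x => Om x * (ENNReal.ofReal (s x) * mL w K e x)) x0) := by
  have hZm := measurableSet_Zn W hKm
  have hCm := measurableSet_Cf hKm e hs
  have hrm : Measurable fun y => rt (fib W (Kᶜ.indicator 1) y)
      (fib W ((Y ∩ Cf K e s).indicator 1) y) := by
    unfold rt
    have h1 : Measurable (fib W (Kᶜ.indicator (1 : E → ℝ≥0∞))) :=
      measurable_fib (measurable_one.indicator hKm.compl)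
    have h2 : Measurable (fib W ((Y ∩ Cf K e s).indicator (1 : E → ℝ≥0∞))) :=
      measurable_fib (measurable_one.indicator (hYm.inter hCm))
    exact h2.div ((h1.add h2).pow_const _)
  have hfm : Measurable fun y => w y * (rt (fib W (Kᶜ.indicator 1) y)
      (fib W ((Y ∩ Cf K e s).indicator 1) y) * (Zn W K).indicator 1 y) :=
    hw.mul (hrm.mul (measurable_one.indicator hZm))
  have hOe : Inv (ℝ ∙ e)ᗮ Om := hOi.mono h0
  have hOW : Inv W Om := hOi.mono hW
  have hsm : Measurable fun x => ENNReal.ofReal (s x) := hs.ennreal_ofReal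
  have hOm1 : Measurable fun x => Om x * (w x * (rt (fib W (Kᶜ.indicator 1) x)
      (fib W ((Y ∩ Cf K e s).indicator 1) x) * (Zn W K).indicator 1 x)) := hOm.mul hfm
  rw [← fib_tower (h00.trans h0) hOm1]
  have h1 : ∀ y, fib (ℝ ∙ e)ᗮ (fun x => Om x * (w x * (rt (fib W (Kᶜ.indicator 1) x)
      (fib W ((Y ∩ Cf K e s).indicator 1) x) * (Zn W K).indicator 1 x))) y ≤
      (kk * ENNReal.ofReal (4 * Real.sqrt cY)) *
        fib W (fun y => Om y * (ENNReal.ofReal (s y) * mL w K e y)) y := by
    intro y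
    rw [fib_mul hOe hfm]
    have e1 : fib W (fun y => Om y * (ENNReal.ofReal (s y) * mL w K e y)) y =
        Om y * (ENNReal.ofReal (s y) * fib W (mL w K e) y) := by
      have hsi : Inv W fun y => ENNReal.ofReal (s y) := by
        intro x v hv
        show ENNReal.ofReal (s (x + v)) = ENNReal.ofReal (s x)
        rw [hsW x v hv]
      have hmm : Measurable fun y => ENNReal.ofReal (s y) * mL w K e y := hsm.mul hmL
      rw [fib_mul hOW hmm, fib_mul hsi hmL]
    rw [e1]
    calc _ ≤ Om y * (kk * (ENNReal.ofReal (4 * Real.sqrt cY) *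
          (ENNReal.ofReal (s y) * fib W (mL w K e) y))) :=
          mul_le_mul' le_rfl (label_zone hK hKm hYm hR hKR he hYe hs hs0 hse heW hsW hc0 hcY
            hw hwi y)
      _ = _ := by ring
  refine (fib_mono h1 x0).trans (le_of_eq ?_)
  have hm2 : Measurable fun y => Om y * (ENNReal.ofReal (s y) * mL w K e y) :=
    hOm.mul (hsm.mul hmL)
  have h2 : fib W00 (fun y => (kk * ENNReal.ofReal (4 * Real.sqrt cY)) *
      fib W (fun y => Om y * (ENNReal.ofReal (s y) * mL w K e y)) y) x0 =
      (kk * ENNReal.ofReal (4 * Real.sqrt cY)) *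
        fib W00 (fib W (fun y => Om y * (ENNReal.ofReal (s y) * mL w K e y))) x0 := by
    unfold fib
    rw [lintegral_const_mul' _ _ (ENNReal.mul_ne_top kk_ne_top ENNReal.ofReal_ne_top)]
  rw [h2, fib_tower (h00.trans hW) hm2, mul_assoc]

/-! ### fibre directions -/

theorem fibre_sqrt {K : Set E} (hK : Convex ℝ K) (hKm : MeasurableSet K) {R : ℝ} (hR : 0 ≤ R)
    (hKR : K ⊆ Metric.closedBall 0 R) {e : E} (he : ‖e‖ = 1) {s : E → ℝ} (hs : Measurable s)
    (hs0 : ∀ x, 0 ≤ s x) {W : Submodule ℝ E} (heW : e ∈ Wᗮ) (hsW : La W s) (x : E)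
    (hsR : s x * (1 + R) ≤ 1) :
    fib W ((Cf K e s).indicator 1) x
      ≤ ENNReal.ofReal (5 * s x) * fib W (Kᶜ.indicator 1) x ^ (1 / 2 : ℝ) := by
  have hCm := measurableSet_Cf hKm e hs
  have hle : W ≤ (ℝ ∙ e)ᗮ := by
    intro v hv
    rw [Submodule.mem_orthogonal_singleton_iff_inner_right]
    rw [Submodule.mem_orthogonal'] at heW
    exact heW v hv
  have hse : Al e s := fun y t => hsW y _ (Submodule.smul_mem _ _ heW)
  rw [← fib_tower hle (measurable_one.indicator hCm), ← fib_tower hle
    (measurable_one.indicator hKm.compl)]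
  have key : ∀ y, s y = s x → fib (ℝ ∙ e)ᗮ ((Cf K e s).indicator 1) y ≤
      ENNReal.ofReal (5 * s x) * fib (ℝ ∙ e)ᗮ (Kᶜ.indicator 1) y ^ (1 / 2 : ℝ) := by
    intro y hy
    rw [fib_line he (measurable_one.indicator hCm), fib_line he
      (measurable_one.indicator hKm.compl)]
    set I : Set ℝ := {r | pt e y r ∈ K} with hI
    have hIo : I.OrdConnected := by
      have h1 := line_ord hK (pt e y 0) e
      have h2 : I = {r : ℝ | pt e y 0 + r • e ∈ K} := by
        ext r
        simp only [hI, mem_setOf_eq]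
        rw [← pt_comb]
      rw [h2]
      exact h1
    have hIm : MeasurableSet I := (continuous_pt_right e y).measurable hKm
    have hJm : MeasurableSet {r | r ∈ I ∧ r + s y ∉ I} :=
      hIm.inter ((hIm.compl).preimage (measurable_id.add_const (s y)))
    have hIR : ∀ r ∈ I, |r| ≤ R := by
      intro r hr
      have h3 := hKR hr
      rw [mem_closedBall_zero_iff] at h3
      have h4 : |⟪e, pt e y r⟫| ≤ ‖e‖ * ‖pt e y r‖ := abs_real_inner_le_norm _ _
      rw [inner_pt he, he, one_mul] at h4
      linarith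
    have e1 : ∫⁻ t, (Cf K e s).indicator 1 (pt e y t) ∂gaussianReal 0 1 =
        gaussianReal 0 1 {r | r ∈ I ∧ r + s y ∉ I} := by
      rw [← lintegral_indicator_one hJm]
      refine lintegral_congr fun t => ?_
      have h5 : (pt e y t ∈ Cf K e s) ↔ t ∈ {r | r ∈ I ∧ r + s y ∉ I} := by
        simp only [Cf, mem_setOf_eq, hI]
        rw [hse.pt, pt_step]
      by_cases h : t ∈ {r | r ∈ I ∧ r + s y ∉ I}
      · rw [indicator_of_mem h, indicator_of_mem (h5.mpr h)]; rfl
      · rw [indicator_of_notMem h, indicator_of_notMem (fun h' => h (h5.mp h'))]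
    have e2 : ∫⁻ t, Kᶜ.indicator 1 (pt e y t) ∂gaussianReal 0 1 = gaussianReal 0 1 Iᶜ := by
      rw [← lintegral_indicator_one hIm.compl]
      refine lintegral_congr fun t => ?_
      by_cases h : pt e y t ∈ K
      · have h7 : pt e y t ∉ Kᶜ := fun h' => h' h
        have h8 : t ∉ Iᶜ := fun h' => h' h
        rw [indicator_of_notMem h7, indicator_of_notMem h8]
      · have h7 : pt e y t ∈ Kᶜ := h
        have h8 : t ∈ Iᶜ := h
        rw [indicator_of_mem h7, indicator_of_mem h8]; rfl
    rw [e1, e2, ← hy]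
    exact gauss_sqrt hIo hIm hR (hs0 y) (by rw [hy]; exact hsR) hIR
  calc fib W (fib (ℝ ∙ e)ᗮ ((Cf K e s).indicator 1)) x
      = ∫⁻ z, fib (ℝ ∙ e)ᗮ ((Cf K e s).indicator 1) (mix W x z) ∂stdGaussian E := rfl
    _ ≤ ∫⁻ z, ENNReal.ofReal (5 * s x) *
        fib (ℝ ∙ e)ᗮ (Kᶜ.indicator 1) (mix W x z) ^ (1 / 2 : ℝ) ∂stdGaussian E :=
        lintegral_mono fun z => key _ (hsW.mix x z)
    _ = ENNReal.ofReal (5 * s x) *
        ∫⁻ z, fib (ℝ ∙ e)ᗮ (Kᶜ.indicator 1) (mix W x z) ^ (1 / 2 : ℝ) ∂stdGaussian E :=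
        lintegral_const_mul' _ _ ENNReal.ofReal_ne_top
    _ ≤ ENNReal.ofReal (5 * s x) *
        (∫⁻ z, fib (ℝ ∙ e)ᗮ (Kᶜ.indicator 1) (mix W x z) ∂stdGaussian E) ^ (1 / 2 : ℝ) := by
        refine mul_le_mul' le_rfl (lint_sqrt ?_)
        exact ((measurable_fib (measurable_one.indicator hKm.compl)).comp
          (measurable_mix_right W x)).aemeasurable

end Vale.Agent.P262.H431
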