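import Mathlib
import Vale.Agent.P262.H431.Thr2

/-!
# P262, block THR0, part 3: the crossing lemma and the layers
-/

set_option linter.all false

open MeasureTheory Set Filter ProbabilityTheory
open scoped ENNReal NNReal Topology RealInnerProductSpace

namespace Vale.Agent.P262.H431

open Vale.Agent.P262.H493 hiding fib
open Vale.Agent.P262.H395 Vale.Agent.P262.H44 Vale.Agent.P262.H59
open Vale.Agent.P262.H706 (line_ord line_meas edge_sub vol_edge Zn measurableSet_Zn half_le)

variable {E : Type*} [NormedAddCommGroup E] [InnerProductSpace ℝ E] [FiniteDimensional ℝ E]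
  [MeasurableSpace E] [BorelSpace E]

/-! ### symmetries of the line functional -/

lemma mL_neg (w : E → ℝ≥0∞) (K : Set E) (e x : E) : mL w K (-e) x = mL w K e x := by
  have h : ∀ t : ℝ, ee t * K.indicator w (pt (-e) x t) = ee (-t) * K.indicator w (pt e x (-t)) := by
    intro t
    have h1 : pt (-e) x t = pt e x (-t) := by
      unfold pt
      rw [inner_neg_left]
      module
    have h2 : ee t = ee (-t) := by unfold ee; rw [neg_sq]
    rw [h1, h2]
  unfold mL
  simp only [h]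
  exact (Equiv.neg ℝ).iSup_comp (g := fun t : ℝ => ee t * K.indicator w (pt e x t))

/-- one direction: unit vector or zero -/
def UZ (e : E) : Prop := ‖e‖ = 1 ∨ e = 0

lemma UZ.neg {e : E} (h : UZ e) : UZ (-e) := by
  rcases h with h | h
  · exact Or.inl (by rw [norm_neg, h])
  · exact Or.inr (by rw [h, neg_zero])

lemma UZ_normalize (v : E) : UZ (‖v‖⁻¹ • v) := by
  by_cases h : v = 0
  · right; rw [h, smul_zero]
  · left
    rw [norm_smul, norm_inv, norm_norm, inv_mul_cancel₀ (norm_ne_zero_iff.mpr h)]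

lemma Cf_zero (K : Set E) (s : E → ℝ) : Cf K 0 s = ∅ := by
  ext x
  simp [Cf]

lemma ind_empty (x : E) : (∅ : Set E).indicator (1 : E → ℝ≥0∞) x = 0 := by simp

/-! ### integrated bounds for one direction -/

section bounds

variable {K : Set E} {R : ℝ} {W W0 W00 : Submodule ℝ E} {w Om : E → ℝ≥0∞}

lemma le_orth {W : Submodule ℝ E} {e : E} (he : e ∈ Wᗮ) : W ≤ (ℝ ∙ e)ᗮ := by
  intro v hv
  rw [Submodule.mem_orthogonal_singleton_iff_inner_right]
  rw [Submodule.mem_orthogonal'] at he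
  exact he v hv

theorem dir_edge (hK : Convex ℝ K) (hKm : MeasurableSet K) {e : E} (he : UZ e)
    (heW : e ∈ W0ᗮ) {s : E → ℝ} (hs : Measurable s) (hs0 : ∀ x, 0 ≤ s x) (hse : Al e s)
    (hw : Measurable w) (hOm : Measurable Om) (hOi : Inv W0 Om) (h00 : W00 ≤ W0) (x0 : E) :
    fib W00 (fun x => Om x * (w x * (Cf K e s).indicator 1 x)) x0 ≤
      fib W00 (fun x => Om x * (ENNReal.ofReal (s x) * mL w K e x)) x0 := by
  rcases he with he | he
  · refine (fib_edge hK hKm he hs hs0 hse hw hOm (hOi.mono (le_orth heW))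
      (h00.trans (le_orth heW)) x0).trans ?_
    calc kk * _ ≤ 1 * _ := mul_le_mul' kk_le_one le_rfl
      _ = _ := one_mul _
  · subst he
    simp only [Cf_zero, ind_empty, mul_zero]
    exact (fib_const W00 0 x0).le.trans bot_le

/-- the zone part for a direction and a layer -/
noncomputable def Zt (K : Set E) (W : Submodule ℝ E) (A : Set E) (x : E) : ℝ≥0∞ :=
  rt (fib W (Kᶜ.indicator 1) x) (fib W (A.indicator 1) x) * (Zn W K).indicator 1 x

lemma measurable_Zt (hKm : MeasurableSet K) {A : Set E} (hA : MeasurableSet A) :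
    Measurable (Zt K W A) := by
  unfold Zt rt
  have h1 : Measurable (fib W (Kᶜ.indicator (1 : E → ℝ≥0∞))) :=
    measurable_fib (measurable_one.indicator hKm.compl)
  have h2 : Measurable (fib W (A.indicator (1 : E → ℝ≥0∞))) :=
    measurable_fib (measurable_one.indicator hA)
  exact (h2.div ((h1.add h2).pow_const _)).mul (measurable_one.indicator (measurableSet_Zn W hKm))

theorem dir_label (hK : Convex ℝ K) (hKc : IsCompact K) (hR : 0 ≤ R)
    (hKR : K ⊆ Metric.closedBall 0 R) {Y : Set E} (hYm : MeasurableSet Y) {e : E} (he : UZ e)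
    (hYe : ∀ (x : E) (t : ℝ), x + t • e ∈ Y ↔ x ∈ Y)
    (heW0 : e ∈ W0ᗮ) (heW : e ∈ W) {s : E → ℝ} (hs : Measurable s) (hs0 : ∀ x, 0 ≤ s x)
    (hse : Al e s) (hsW : La W s) {cY : ℝ} (hc0 : 0 ≤ cY)
    (hcY : ∀ x, fib W (Y.indicator 1) x ≤ ENNReal.ofReal cY)
    (hw : Continuous w) (hwt : ∀ x, w x ≠ ⊤) (hwi : Inv W w)
    (hOm : Measurable Om) (hOi : Inv W0 Om) (hW : W0 ≤ W) (h00 : W00 ≤ W0) (x0 : E) :
    fib W00 (fun x => Om x * (w x * Zt K W (Y ∩ Cf K e s) x)) x0 ≤
      ENNReal.ofReal (4 * Real.sqrt cY) *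
        fib W00 (fun x => Om x * (ENNReal.ofReal (s x) * mL w K e x)) x0 := by
  have hKm := hKc.measurableSet
  rcases he with he | he
  · have hmL : Measurable (mL w K e) := (usc_mL he hw hwt hKc).measurable
    refine (fib_label hK hKm hYm hR hKR he hYe hs hs0 hse heW hsW hc0 hcY hw.measurable hwi hmL
      hOm hOi (le_orth heW0) hW h00 x0).trans ?_
    calc kk * _ ≤ 1 * _ := mul_le_mul' kk_le_one le_rfl
      _ = _ := one_mul _
  · subst he
    have h1 : ∀ x, Om x * (w x * Zt K W (Y ∩ Cf K 0 s) x) = 0 := by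
      intro x
      unfold Zt
      have : fib W ((Y ∩ Cf K 0 s).indicator 1) x = 0 := by
        rw [Cf_zero, inter_empty]
        unfold fib
        simp
      rw [this, rt_zero, zero_mul, mul_zero, mul_zero]
    simp only [h1]
    exact (fib_const W00 0 x0).le.trans bot_le

theorem dir_fibre (hK : Convex ℝ K) (hKm : MeasurableSet K) (hR : 0 ≤ R)
    (hKR : K ⊆ Metric.closedBall 0 R) {e : E} (he : UZ e) (heW : e ∈ Wᗮ)
    {s : E → ℝ} (hs : Measurable s) (hs0 : ∀ x, 0 ≤ s x) (hsW : La W s)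
    (hsR : ∀ x, x ∈ K → s x * (1 + R) ≤ 1)
    (hw : Measurable w) (hwi : Inv W w)
    (hOm : Measurable Om) (hOi : Inv W0 Om) (hW : W0 ≤ W) (h00 : W00 ≤ W0) (x0 : E) :
    fib W00 (fun x => Om x * (w x * Zt K W (Cf K e s) x)) x0 ≤
      10 * fib W00 (fun x => Om x * (ENNReal.ofReal (s x) * (w x * K.indicator 1 x))) x0 := by
  have hKi : Measurable (K.indicator (1 : E → ℝ≥0∞)) := measurable_one.indicator hKm
  have hsm : Measurable fun x => ENNReal.ofReal (s x) := hs.ennreal_ofReal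
  have hsi : Inv W fun y => ENNReal.ofReal (s y) := by
    intro x v hv
    show ENNReal.ofReal (s (x + v)) = ENNReal.ofReal (s x)
    rw [hsW x v hv]
  have hOW : Inv W Om := hOi.mono hW
  have hpt : ∀ x, Om x * (w x * Zt K W (Cf K e s) x) ≤
      10 * fib W (fun y => Om y * (ENNReal.ofReal (s y) * (w y * K.indicator 1 y))) x := by
    intro x
    have hm1 : Measurable fun y => w y * K.indicator (1 : E → ℝ≥0∞) y := hw.mul hKi
    have hm2 : Measurable fun y => ENNReal.ofReal (s y) * (w y * K.indicator (1 : E → ℝ≥0∞) y) :=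
      hsm.mul hm1
    rw [fib_mul hOW hm2, fib_mul hsi hm1, fib_mul hwi hKi]
    by_cases hx : x ∈ Zn W K
    · have hhalf := half_le hKm hx
      have hex : ∃ y ∈ K, s y = s x := by
        by_contra hne
        push Not at hne
        have : fib W (K.indicator (1 : E → ℝ≥0∞)) x = 0 := by
          unfold fib
          have h1 : ∀ z, K.indicator (1 : E → ℝ≥0∞) (mix W x z) = 0 := by
            intro z
            apply indicator_of_notMem
            intro hz
            exact hne _ hz (hsW.mix x z)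
          simp [h1]
        rw [this] at hhalf
        simp at hhalf
      obtain ⟨y, hy, hyx⟩ := hex
      have hsx : s x * (1 + R) ≤ 1 := by rw [← hyx]; exact hsR y hy
      have hrt : rt (fib W (Kᶜ.indicator 1) x) (fib W ((Cf K e s).indicator 1) x) ≤
          ENNReal.ofReal (5 * s x) := by
        rcases he with he | he
        · exact rt_le_of (fibre_sqrt hK hKm hR hKR he hs hs0 heW hsW x hsx)
        · subst he
          have : fib W ((Cf K 0 s).indicator 1) x = 0 := by
            rw [Cf_zero]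
            unfold fib
            simp
          rw [this, rt_zero]
          exact bot_le
      unfold Zt
      rw [indicator_of_mem hx, Pi.one_apply, mul_one]
      have h5 : ENNReal.ofReal (5 * s x) = 5 * ENNReal.ofReal (s x) := by
        rw [ENNReal.ofReal_mul (by norm_num)]
        simp
      calc Om x * (w x * rt (fib W (Kᶜ.indicator 1) x) (fib W ((Cf K e s).indicator 1) x))
          ≤ Om x * (w x * (5 * ENNReal.ofReal (s x))) :=
            mul_le_mul' le_rfl (mul_le_mul' le_rfl (by rw [← h5]; exact hrt))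
        _ = 10 * (Om x * (ENNReal.ofReal (s x) * (w x * 2⁻¹))) := by
            have h10 : (10 : ℝ≥0∞) * 2⁻¹ = 5 := by
              have : (10 : ℝ≥0∞) = 5 * 2 := by norm_num
              rw [this, mul_assoc, ENNReal.mul_inv_cancel (by norm_num) (by norm_num), mul_one]
            calc Om x * (w x * (5 * ENNReal.ofReal (s x)))
                = 5 * (Om x * (ENNReal.ofReal (s x) * w x)) := by ring
              _ = (10 * 2⁻¹) * (Om x * (ENNReal.ofReal (s x) * w x)) := by rw [h10]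
              _ = _ := by ring
        _ ≤ _ := mul_le_mul' le_rfl (mul_le_mul' le_rfl (mul_le_mul' le_rfl
            (mul_le_mul' le_rfl hhalf)))
    · unfold Zt
      rw [indicator_of_notMem hx, mul_zero, mul_zero, mul_zero]
      exact bot_le
  refine (fib_mono hpt x0).trans (le_of_eq ?_)
  have hm : Measurable fun y => Om y * (ENNReal.ofReal (s y) * (w y * K.indicator 1 y)) :=
    hOm.mul (hsm.mul (hw.mul hKi))
  have h2 : fib W00 (fun x => 10 * fib W (fun y => Om y * (ENNReal.ofReal (s y) *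
      (w y * K.indicator 1 y))) x) x0 = 10 * fib W00 (fib W (fun y => Om y *
        (ENNReal.ofReal (s y) * (w y * K.indicator 1 y)))) x0 := by
    unfold fib
    rw [lintegral_const_mul' _ _ (by norm_num)]
  rw [h2, fib_tower (h00.trans hW) hm]

end bounds

/-! ### crossing -/

lemma cross1 {K : Set E} (hK : Convex ℝ K) {x e : E} (hx : x ∈ K) {t s : ℝ} (hts : |t| ≤ s)
    (h : x + t • e ∉ K) : x + s • e ∉ K ∨ x + s • (-e) ∉ K := by
  by_contra hc
  push Not at hc
  obtain ⟨h1, h2⟩ := hc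
  apply h
  have hs : 0 ≤ s := (abs_nonneg t).trans hts
  rcases eq_or_lt_of_le hs with h0 | h0
  · have : t = 0 := by
      rw [← h0] at hts
      exact abs_nonpos_iff.mp hts
    rw [this, zero_smul, add_zero]
    exact hx
  have ht := abs_le.mp hts
  have e1 : x + t • e = ((s + t) / (2 * s)) • (x + s • e) + ((s - t) / (2 * s)) • (x + s • (-e)) := by
    have a1 : (s + t) / (2 * s) + (s - t) / (2 * s) = 1 := by field_simp; ring
    have a2 : (s + t) / (2 * s) * s - (s - t) / (2 * s) * s = t := by field_simp; ring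
    calc x + t • e = ((s + t) / (2 * s) + (s - t) / (2 * s)) • x +
          ((s + t) / (2 * s) * s - (s - t) / (2 * s) * s) • e := by rw [a1, a2, one_smul]
      _ = _ := by module
  rw [e1]
  apply hK h1 h2 (div_nonneg (by linarith) (by linarith)) (div_nonneg (by linarith) (by linarith))
  field_simp; ring

lemma cross4 {K : Set E} (hK : Convex ℝ K) {x a b c d : E}
    (h : x + (a + b + c + d) ∉ K) :
    x + (4 : ℝ) • a ∉ K ∨ x + (4 : ℝ) • b ∉ K ∨ x + (4 : ℝ) • c ∉ K ∨ x + (4 : ℝ) • d ∉ K := by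
  by_contra hc
  push Not at hc
  obtain ⟨h1, h2, h3, h4⟩ := hc
  apply h
  have m1 : (1 / 2 : ℝ) • (x + (4 : ℝ) • a) + (1 / 2 : ℝ) • (x + (4 : ℝ) • b) ∈ K :=
    hK h1 h2 (by norm_num) (by norm_num) (by norm_num)
  have m2 : (1 / 2 : ℝ) • (x + (4 : ℝ) • c) + (1 / 2 : ℝ) • (x + (4 : ℝ) • d) ∈ K :=
    hK h3 h4 (by norm_num) (by norm_num) (by norm_num)
  have m3 := hK m1 m2 (show (0 : ℝ) ≤ 1 / 2 by norm_num) (show (0 : ℝ) ≤ 1 / 2 by norm_num)
    (by norm_num)
  have e1 : x + (a + b + c + d) =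
      (1 / 2 : ℝ) • ((1 / 2 : ℝ) • (x + (4 : ℝ) • a) + (1 / 2 : ℝ) • (x + (4 : ℝ) • b)) +
      (1 / 2 : ℝ) • ((1 / 2 : ℝ) • (x + (4 : ℝ) • c) + (1 / 2 : ℝ) • (x + (4 : ℝ) • d)) := by
    module
  rw [e1]
  exact m3

lemma split_abs {α A B : ℝ} (hA : 0 ≤ A) (hB : 0 ≤ B) (h : |α| ≤ A + B) :
    ∃ a b : ℝ, α = a + b ∧ |a| ≤ A ∧ |b| ≤ B := by
  have h1 := abs_le.mp h
  rcases le_total |α| A with h2 | h2
  · exact ⟨α, 0, by ring, h2, by simpa using hB⟩
  · rcases le_total 0 α with h3 | h3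
    · rw [abs_of_nonneg h3] at h2
      exact ⟨A, α - A, by ring, (abs_of_nonneg hA).le, by
        rw [abs_of_nonneg (by linarith)]; linarith⟩
    · rw [abs_of_nonpos h3] at h2
      exact ⟨-A, α + A, by ring, by rw [abs_neg, abs_of_nonneg hA], by
        rw [abs_of_nonpos (by linarith)]; linarith⟩

lemma normalize_smul {v : E} (hv : v ≠ 0) (c : ℝ) : c • v = (c * ‖v‖) • (‖v‖⁻¹ • v) := by
  rw [smul_smul, mul_assoc, mul_inv_cancel₀ (norm_ne_zero_iff.mpr hv), mul_one]

/-! ### the layers -/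

lemma gauss_tail (k : ℕ) : gaussianReal 0 1 {t | (k : ℝ) ≤ |t|} ≤
    ENNReal.ofReal (16 * (1 / 4 : ℝ) ^ k) := by
  set L := Real.log 4 with hL
  have hL0 : 0 < L := Real.log_pos (by norm_num)
  have hL2 : L ≤ 1.3864 := by
    have h1 : L = 2 * Real.log 2 := by
      rw [hL, show (4 : ℝ) = 2 ^ 2 by norm_num, Real.log_pow]
      norm_num
    have := Real.log_two_lt_d9
    linarith
  have hexp : Real.exp (-L * k) = (1 / 4 : ℝ) ^ k := by
    rw [mul_comm, Real.exp_nat_mul, Real.exp_neg, hL, Real.exp_log (by norm_num)]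
    norm_num
  have hE : Real.exp (L ^ 2 / 2) ≤ 2.72 := by
    have h1 : L ^ 2 / 2 ≤ 1 := by nlinarith
    calc Real.exp (L ^ 2 / 2) ≤ Real.exp 1 := Real.exp_le_exp.mpr h1
      _ ≤ 2.72 := by
        have := Real.exp_one_lt_d9
        linarith
  have hmgf : ∀ t : ℝ, mgf id (gaussianReal 0 1) t = Real.exp (t ^ 2 / 2) := by
    intro t
    have := mgf_id_gaussianReal (μ := 0) (v := 1)
    rw [this]
    simp
  have h1 : (gaussianReal 0 1).real {t | (k : ℝ) ≤ t} ≤ (1 / 4 : ℝ) ^ k * 2.72 := by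
    have := measure_ge_le_exp_mul_mgf (μ := gaussianReal 0 1) (X := id) (t := L) (k : ℝ) hL0.le
      (by simpa using integrable_exp_mul_gaussianReal (μ := 0) (v := 1) L)
    rw [hmgf] at this
    rw [hexp] at this
    refine le_trans this ?_
    exact mul_le_mul_of_nonneg_left hE (by positivity)
  have h2 : (gaussianReal 0 1).real {t | t ≤ -(k : ℝ)} ≤ (1 / 4 : ℝ) ^ k * 2.72 := by
    have := measure_le_le_exp_mul_mgf (μ := gaussianReal 0 1) (X := id) (t := -L) (-(k : ℝ))
      (by linarith) (by simpa using integrable_exp_mul_gaussianReal (μ := 0) (v := 1) (-L))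
    rw [hmgf] at this
    have e1 : - -L * -(k : ℝ) = -L * k := by ring
    rw [e1, hexp, neg_sq] at this
    refine le_trans this ?_
    exact mul_le_mul_of_nonneg_left hE (by positivity)
  have hsub : {t : ℝ | (k : ℝ) ≤ |t|} ⊆ {t | (k : ℝ) ≤ t} ∪ {t | t ≤ -(k : ℝ)} := by
    intro t ht
    rcases le_abs.mp (show (k : ℝ) ≤ |t| from ht) with h | h
    · exact Or.inl h
    · right
      show t ≤ -(k : ℝ)
      linarith
  calc gaussianReal 0 1 {t | (k : ℝ) ≤ |t|}
      ≤ gaussianReal 0 1 ({t | (k : ℝ) ≤ t} ∪ {t | t ≤ -(k : ℝ)}) := measure_mono hsub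
    _ ≤ gaussianReal 0 1 {t | (k : ℝ) ≤ t} + gaussianReal 0 1 {t | t ≤ -(k : ℝ)} :=
        measure_union_le _ _
    _ = ENNReal.ofReal ((gaussianReal 0 1).real {t | (k : ℝ) ≤ t}) +
        ENNReal.ofReal ((gaussianReal 0 1).real {t | t ≤ -(k : ℝ)}) := by
        rw [ofReal_measureReal, ofReal_measureReal]
    _ ≤ ENNReal.ofReal ((1 / 4 : ℝ) ^ k * 2.72) + ENNReal.ofReal ((1 / 4 : ℝ) ^ k * 2.72) :=
        add_le_add (ENNReal.ofReal_le_ofReal h1) (ENNReal.ofReal_le_ofReal h2)
    _ ≤ _ := by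
        rw [← ENNReal.ofReal_add (by positivity) (by positivity)]
        apply ENNReal.ofReal_le_ofReal
        have : 0 ≤ (1 / 4 : ℝ) ^ k := by positivity
        linarith

/-- the layer `k ≤ |⟪b, x⟫| < k + 1` -/
def Yk (b : E) (k : ℕ) : Set E := {x | (k : ℝ) ≤ |⟪b, x⟫| ∧ |⟪b, x⟫| < k + 1}

lemma measurableSet_Yk (b : E) (k : ℕ) : MeasurableSet (Yk b k) := by
  have h : Measurable fun x : E => |⟪b, x⟫| := by fun_prop
  exact (measurableSet_le measurable_const h).inter (measurableSet_lt h measurable_const)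

lemma fib_Yk {b : E} {W : Submodule ℝ E} (hb : b ∈ Wᗮ) (hb1 : ‖b‖ ≤ 1) (k : ℕ) (x : E) :
    fib W ((Yk b k).indicator 1) x ≤ ENNReal.ofReal (16 * (1 / 4 : ℝ) ^ k) := by
  rw [fib_indicator W (measurableSet_Yk b k)]
  have hz : ∀ z : E, ⟪b, W.starProjection x + (z - W.starProjection z)⟫ = ⟪b, z⟫ := by
    intro z
    have h1 : ∀ y : E, ⟪b, W.starProjection y⟫ = 0 := by
      intro y
      rw [← Submodule.inner_starProjection_left_eq_right, proj_eq_zero hb, inner_zero_left]
    rw [inner_add_right, inner_sub_right, h1, h1]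
    ring
  by_cases h0 : b = 0
  · by_cases hk : k = 0
    · subst hk
      calc (stdGaussian E) _ ≤ 1 := prob_le_one
        _ ≤ _ := by
          rw [← ENNReal.ofReal_one]
          apply ENNReal.ofReal_le_ofReal
          norm_num
    · have : {z | W.starProjection x + (z - W.starProjection z) ∈ Yk b k} = ∅ := by
        ext z
        simp only [mem_setOf_eq, mem_empty_iff_false, iff_false, Yk]
        rintro ⟨h1, -⟩
        rw [hz, h0, inner_zero_left, abs_zero] at h1
        have : (0 : ℝ) < k := by exact_mod_cast Nat.pos_of_ne_zero hk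
        linarith
      rw [this, measure_empty]
      exact bot_le
  · have hb0 : 0 < ‖b‖ := norm_pos_iff.mpr h0
    set e := ‖b‖⁻¹ • b with he
    have he1 : ‖e‖ = 1 := by
      rw [he, norm_smul, norm_inv, norm_norm, inv_mul_cancel₀ hb0.ne']
    have hm : Measurable fun z : E => ⟪e, z⟫ := by fun_prop
    have hms : MeasurableSet {t : ℝ | (k : ℝ) ≤ |t|} :=
      measurableSet_le measurable_const (by fun_prop)
    refine le_trans ?_ (gauss_tail k)
    rw [← map_inner_std he1, Measure.map_apply hm hms]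
    apply measure_mono
    intro z hz1
    have h1 := hz1.1
    rw [hz] at h1
    have h2 : ⟪e, z⟫ = ‖b‖⁻¹ * ⟪b, z⟫ := by rw [he, inner_smul_left]; rfl
    show (k : ℝ) ≤ |⟪e, z⟫|
    rw [h2, abs_mul, abs_of_pos (inv_pos.mpr hb0)]
    have h3 : 1 ≤ ‖b‖⁻¹ := (one_le_inv₀ hb0).mpr hb1
    calc (k : ℝ) ≤ |⟪b, z⟫| := h1
      _ = 1 * |⟪b, z⟫| := (one_mul _).symm
      _ ≤ ‖b‖⁻¹ * |⟪b, z⟫| := mul_le_mul_of_nonneg_right h3 (abs_nonneg _)

lemma exists_Yk (b x : E) : ∃ k : ℕ, x ∈ Yk b k :=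
  ⟨⌊|⟪b, x⟫|⌋₊, Nat.floor_le (abs_nonneg _), Nat.lt_floor_add_one _⟩

lemma tsum_layers {φ : ℝ} (hφ : 0 ≤ φ) :
    ∑' k : ℕ, ENNReal.ofReal (4 * Real.sqrt (16 * (1 / 4 : ℝ) ^ k)) *
      ENNReal.ofReal (4 * φ * (k + 1)) ≤ ENNReal.ofReal (256 * φ) := by
  have h1 : ∀ k : ℕ, ENNReal.ofReal (4 * Real.sqrt (16 * (1 / 4 : ℝ) ^ k)) *
      ENNReal.ofReal (4 * φ * (k + 1)) =
      ENNReal.ofReal (64 * φ * (((k : ℝ) + 1) * (1 / 2 : ℝ) ^ k)) := by
    intro k
    have h2 : Real.sqrt (16 * (1 / 4 : ℝ) ^ k) = 4 * (1 / 2 : ℝ) ^ k := by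
      have h3 : 16 * (1 / 4 : ℝ) ^ k = (4 * (1 / 2 : ℝ) ^ k) ^ 2 := by
        rw [mul_pow, ← pow_mul, mul_comm k 2, pow_mul]
        norm_num
      rw [h3, Real.sqrt_sq (by positivity)]
    rw [← ENNReal.ofReal_mul (by positivity), h2]
    congr 1
    ring
  simp_rw [h1]
  have hs1 : Summable fun k : ℕ => (k : ℝ) * (1 / 2 : ℝ) ^ k := by
    have := summable_pow_mul_geometric_of_norm_lt_one (R := ℝ) 1 (r := (1 / 2 : ℝ)) (by norm_num)
    simpa using this
  have hs2 : Summable fun k : ℕ => (1 / 2 : ℝ) ^ k := summable_geometric_two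
  have hs : Summable fun k : ℕ => 64 * φ * (((k : ℝ) + 1) * (1 / 2 : ℝ) ^ k) := by
    apply Summable.mul_left
    have := hs1.add hs2
    refine this.congr fun k => ?_
    ring
  rw [← ENNReal.ofReal_tsum_of_nonneg (fun k => by positivity) hs]
  apply ENNReal.ofReal_le_ofReal
  rw [tsum_mul_left]
  have e1 : ∑' k : ℕ, ((k : ℝ) + 1) * (1 / 2 : ℝ) ^ k = 4 := by
    have e2 : ∀ k : ℕ, ((k : ℝ) + 1) * (1 / 2 : ℝ) ^ k = (k : ℝ) * (1 / 2 : ℝ) ^ k +
        (1 / 2 : ℝ) ^ k := fun k => by ring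
    simp_rw [e2]
    rw [hs1.tsum_add hs2, tsum_geometric_two]
    have := tsum_coe_mul_geometric_of_norm_lt_one (𝕜 := ℝ) (r := (1 / 2 : ℝ)) (by norm_num)
    rw [this]
    norm_num
  rw [e1]
  linarith

end Vale.Agent.P262.H431
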