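import Mathlib
import Vale.Agent.P262.H431.Thr3

/-!
# P262, block THR0, part 4: the throughput of one plane rotation, sharp form

`w * Del / (dead mass)^(1/2)` integrated over an arbitrary region of labels, without any health
hypothesis, is controlled by line maxima `mL` in the two directions of the plane, with the
displacement factors kept as functions of the label.
-/

set_option linter.all false

open MeasureTheory Set Filter ProbabilityTheory
open scoped ENNReal NNReal Topology RealInnerProductSpace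

namespace Vale.Agent.P262.H431

open Vale.Agent.P262.H493 hiding fib
open Vale.Agent.P262.H395 Vale.Agent.P262.H44 Vale.Agent.P262.H59
open Vale.Agent.P262.H706 (line_ord line_meas edge_sub vol_edge Zn measurableSet_Zn half_le)

variable {E : Type*} [NormedAddCommGroup E] [InnerProductSpace ℝ E] [FiniteDimensional ℝ E]
  [MeasurableSpace E] [BorelSpace E]

/-! ### subadditivity -/

lemma rt_measure {X : Type*} [MeasurableSpace X] (μ : Measure X) [IsFiniteMeasure μ] (D : ℝ≥0∞)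
    {A : Set X} {B : ℕ → Set X} (hB : ∀ i, MeasurableSet (B i)) (hAB : A ⊆ ⋃ i, B i) :
    rt D (μ A) ≤ ∑' i, rt D (μ (B i)) := by
  have h1 : μ A ≤ ∑' i, μ (disjointed B i) := by
    rw [← measure_iUnion (disjoint_disjointed B) (fun i => MeasurableSet.disjointed hB i),
      iUnion_disjointed]
    exact measure_mono hAB
  have h2 : ∑' i, μ (disjointed B i) ≠ ⊤ := by
    rw [← measure_iUnion (disjoint_disjointed B) (fun i => MeasurableSet.disjointed hB i)]
    exact measure_ne_top μ _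
  refine (rt_mono h1 h2).trans ((rt_tsum D _).trans (ENNReal.tsum_le_tsum fun i => ?_))
  exact rt_mono (measure_mono (disjointed_subset B i)) (measure_ne_top μ _)

lemma fib_eq_map (W : Submodule ℝ E) {A : Set E} (hA : MeasurableSet A) (x : E) :
    fib W (A.indicator 1) x = ((stdGaussian E).map (mix W x)) A := by
  rw [fib_indicator W hA, Measure.map_apply (measurable_mix_right W x) hA]
  rfl

section core

variable {K K' : Set E} {R φ : ℝ} {W W0 W00 : Submodule ℝ E} {w Om : E → ℝ≥0∞} {θ b : E}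

lemma Zt_iUnion {A : Set E} {B : ℕ → Set E} (hA : MeasurableSet A)
    (hB : ∀ i, MeasurableSet (B i)) (hAB : A ⊆ ⋃ i, B i) (x : E) :
    Zt K W A x ≤ ∑' i, Zt K W (B i) x := by
  unfold Zt
  rw [ENNReal.tsum_mul_right]
  refine mul_le_mul' ?_ le_rfl
  haveI : IsFiniteMeasure ((stdGaussian E).map (mix W x)) :=
    Measure.isFiniteMeasure_map _ _
  have h := rt_measure ((stdGaussian E).map (mix W x)) (fib W (Kᶜ.indicator 1) x) hB hAB
  rw [fib_eq_map W hA]
  refine h.trans (le_of_eq ?_)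
  congr 1
  funext i
  rw [fib_eq_map W (hB i)]

lemma Zt_union {A B C : Set E} (hA : MeasurableSet A) (hB : MeasurableSet B)
    (hC : MeasurableSet C) (h : A ⊆ B ∪ C) (x : E) :
    Zt K W A x ≤ Zt K W B x + Zt K W C x := by
  unfold Zt
  rw [← add_mul]
  refine mul_le_mul' ?_ le_rfl
  haveI : IsFiniteMeasure ((stdGaussian E).map (mix W x)) :=
    Measure.isFiniteMeasure_map _ _
  rw [fib_eq_map W hA, fib_eq_map W hB, fib_eq_map W hC]
  refine (rt_mono ((measure_mono h).trans (measure_union_le B C)) ?_).trans (rt_add _ _ _)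
  exact ENNReal.add_ne_top.mpr ⟨measure_ne_top _ _, measure_ne_top _ _⟩

/-- the zone functional -/
noncomputable def Phi (K : Set E) (W W00 : Submodule ℝ E) (w Om : E → ℝ≥0∞) (x0 : E)
    (A : Set E) : ℝ≥0∞ := fib W00 (fun x => Om x * (w x * Zt K W A x)) x0

/-- the functional outside of the zone -/
noncomputable def Psi (W00 : Submodule ℝ E) (w Om : E → ℝ≥0∞) (x0 : E)
    (A : Set E) : ℝ≥0∞ := fib W00 (fun x => Om x * (w x * A.indicator 1 x)) x0

lemma Phi_iUnion (hKm : MeasurableSet K) (hw : Measurable w) (hOm : Measurable Om) (x0 : E)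
    {A : Set E} {B : ℕ → Set E} (hA : MeasurableSet A)
    (hB : ∀ i, MeasurableSet (B i)) (hAB : A ⊆ ⋃ i, B i) :
    Phi K W W00 w Om x0 A ≤ ∑' i, Phi K W W00 w Om x0 (B i) := by
  unfold Phi
  have h1 : ∀ x, Om x * (w x * Zt K W A x) ≤ ∑' i, Om x * (w x * Zt K W (B i) x) := by
    intro x
    rw [ENNReal.tsum_mul_left, ENNReal.tsum_mul_left]
    exact mul_le_mul' le_rfl (mul_le_mul' le_rfl (Zt_iUnion hA hB hAB x))
  refine (fib_mono h1 x0).trans (le_of_eq ?_)
  unfold fib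
  rw [lintegral_tsum]
  intro i
  have hm : Measurable fun x => Om x * (w x * Zt K W (B i) x) :=
    hOm.mul (hw.mul (measurable_Zt hKm (hB i)))
  exact (hm.comp (measurable_mix_right W00 x0)).aemeasurable

lemma Phi_union (hKm : MeasurableSet K) (hw : Measurable w) (hOm : Measurable Om) (x0 : E)
    {A B C : Set E} (hA : MeasurableSet A) (hB : MeasurableSet B)
    (hC : MeasurableSet C) (h : A ⊆ B ∪ C) :
    Phi K W W00 w Om x0 A ≤ Phi K W W00 w Om x0 B + Phi K W W00 w Om x0 C := by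
  unfold Phi
  have hm : Measurable fun x => Om x * (w x * Zt K W B x) :=
    hOm.mul (hw.mul (measurable_Zt hKm hB))
  rw [← fib_add hm]
  refine fib_mono (fun x => ?_) x0
  rw [← mul_add, ← mul_add]
  exact mul_le_mul' le_rfl (mul_le_mul' le_rfl (Zt_union hA hB hC h x))

lemma Psi_union (hw : Measurable w) (hOm : Measurable Om) (x0 : E)
    {A B C : Set E} (hB : MeasurableSet B) (h : A ⊆ B ∪ C) :
    Psi W00 w Om x0 A ≤ Psi W00 w Om x0 B + Psi W00 w Om x0 C := by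
  unfold Psi
  have hm : Measurable fun x => Om x * (w x * B.indicator 1 x) :=
    hOm.mul (hw.mul (measurable_one.indicator hB))
  rw [← fib_add hm]
  refine fib_mono (fun x => ?_) x0
  rw [← mul_add, ← mul_add]
  refine mul_le_mul' le_rfl (mul_le_mul' le_rfl ?_)
  by_cases hx : x ∈ A
  · rcases h hx with h1 | h1
    · rw [indicator_of_mem hx, indicator_of_mem h1]
      exact le_self_add
    · rw [indicator_of_mem hx, indicator_of_mem h1]
      exact le_add_self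
  · rw [indicator_of_notMem hx]
    exact bot_le

/-- zone and complement together -/
lemma split_zone (hKm : MeasurableSet K) {V : Set E} (hV : MeasurableSet V)
    (hw : Measurable w) (hwi : Inv W w) (hOm : Measurable Om) (hOi : Inv W0 Om) (hW : W0 ≤ W)
    (h00 : W00 ≤ W0) (x0 : E) :
    fib W00 (fun x => Om x * (w x * rt (fib W (Kᶜ.indicator 1) x) (fib W (V.indicator 1) x))) x0
      ≤ Phi K W W00 w Om x0 V + 2 * Psi W00 w Om x0 V := by
  have hVi : Measurable (V.indicator (1 : E → ℝ≥0∞)) := measurable_one.indicator hV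
  have hOW : Inv W Om := hOi.mono hW
  have hpt : ∀ x, Om x * (w x * rt (fib W (Kᶜ.indicator 1) x) (fib W (V.indicator 1) x)) ≤
      Om x * (w x * Zt K W V x) +
        2 * fib W (fun y => Om y * (w y * V.indicator 1 y)) x := by
    intro x
    have hm1 : Measurable fun y => w y * V.indicator (1 : E → ℝ≥0∞) y := hw.mul hVi
    rw [fib_mul hOW hm1, fib_mul hwi hVi]
    by_cases hx : x ∈ Zn W K
    · unfold Zt
      rw [indicator_of_mem hx, Pi.one_apply, mul_one]
      exact le_self_add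
    · have hD : 2⁻¹ ≤ fib W (Kᶜ.indicator 1) x := (not_le.mp hx).le
      refine le_trans ?_ le_add_self
      calc Om x * (w x * rt (fib W (Kᶜ.indicator 1) x) (fib W (V.indicator 1) x))
          ≤ Om x * (w x * (2 * fib W (V.indicator 1) x)) :=
            mul_le_mul' le_rfl (mul_le_mul' le_rfl (rt_le_two hD))
        _ = _ := by ring
  have hmP : Measurable fun x => Om x * (w x * Zt K W V x) :=
    hOm.mul (hw.mul (measurable_Zt hKm hV))
  have hmV : Measurable fun y => Om y * (w y * V.indicator 1 y) := hOm.mul (hw.mul hVi)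
  refine (fib_mono hpt x0).trans (le_of_eq ?_)
  rw [fib_add hmP]
  unfold Phi Psi
  congr 1
  have h2 : fib W00 (fun x => 2 * fib W (fun y => Om y * (w y * V.indicator 1 y)) x) x0 =
      2 * fib W00 (fib W (fun y => Om y * (w y * V.indicator 1 y))) x0 := by
    unfold fib
    rw [lintegral_const_mul' _ _ (by norm_num)]
  rw [h2, fib_tower (h00.trans hW) hmV]

/-- the displacement functions -/
noncomputable def d1 (φ : ℝ) (u : E) (x : E) : ℝ := 4 * φ * (1 + |⟪u, x⟫|)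

noncomputable def d2 (φ : ℝ) (u : E) (x : E) : ℝ := 4 * φ * |⟪u, x⟫|

lemma measurable_d1 (φ : ℝ) (u : E) : Measurable (d1 φ u) := by unfold d1; fun_prop

lemma measurable_d2 (φ : ℝ) (u : E) : Measurable (d2 φ u) := by unfold d2; fun_prop

lemma d1_nonneg (hφ : 0 ≤ φ) (u x : E) : 0 ≤ d1 φ u x := by unfold d1; positivity

lemma d2_nonneg (hφ : 0 ≤ φ) (u x : E) : 0 ≤ d2 φ u x := by unfold d2; positivity

lemma al_d1 {u e : E} (h : ⟪u, e⟫ = 0) : Al e (d1 φ u) := by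
  intro x t
  unfold d1
  rw [inner_add_right, inner_smul_right, h, mul_zero, add_zero]

lemma al_d2 {u e : E} (h : ⟪u, e⟫ = 0) : Al e (d2 φ u) := by
  intro x t
  unfold d2
  rw [inner_add_right, inner_smul_right, h, mul_zero, add_zero]

lemma la_d1 {u : E} (hu : u ∈ W) : La W (d1 φ u) := by
  intro x v hv
  unfold d1
  rw [inner_add_right, (Submodule.mem_orthogonal W v).mp hv u hu, add_zero]

/-- the points lost by a small motion in the plane cross the boundary in one of four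
directions -/
lemma cover {b1 b2 : E} (hK : Convex ℝ K) (hφ : 0 ≤ φ) (hb : b = b1 + b2) (h1 : ‖b1‖ ≤ 1)
    (h2 : ‖b2‖ ≤ 1) {x : E} (hx : x ∈ K) {α β : ℝ} (hα : |α| ≤ φ * (1 + |⟪b, x⟫|))
    (hβ : |β| ≤ φ * (1 + |⟪θ, x⟫|)) (hxK : x + (α • θ + β • b) ∉ K) :
    x ∈ ((Cf K θ (d1 φ b1) ∪ Cf K (-θ) (d1 φ b1)) ∪ (Cf K θ (d2 φ b2) ∪ Cf K (-θ) (d2 φ b2))) ∪
      ((Cf K (‖b1‖⁻¹ • b1) (d1 φ θ) ∪ Cf K (-(‖b1‖⁻¹ • b1)) (d1 φ θ)) ∪
        (Cf K (‖b2‖⁻¹ • b2) (d1 φ θ) ∪ Cf K (-(‖b2‖⁻¹ • b2)) (d1 φ θ))) := by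
  have hα' : |α| ≤ φ * (1 + |⟪b1, x⟫|) + φ * |⟪b2, x⟫| := by
    refine hα.trans ?_
    have : |⟪b, x⟫| ≤ |⟪b1, x⟫| + |⟪b2, x⟫| := by
      rw [hb, inner_add_left]
      exact abs_add_le _ _
    nlinarith
  obtain ⟨a, a', hs, ha, ha'⟩ := split_abs (by positivity) (by positivity) hα'
  have e1 : x + (α • θ + β • b) = x + (a • θ + a' • θ + β • b1 + β • b2) := by
    rw [hs, hb]
    module
  rw [e1] at hxK
  have key : ∀ (v : E), ‖v‖ ≤ 1 → x + (4 : ℝ) • (β • v) ∉ K →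
      x ∈ Cf K (‖v‖⁻¹ • v) (d1 φ θ) ∪ Cf K (-(‖v‖⁻¹ • v)) (d1 φ θ) := by
    intro v hv hxv
    by_cases h0 : v = 0
    · exfalso
      apply hxv
      rw [h0, smul_zero, smul_zero, add_zero]
      exact hx
    · rw [smul_smul, normalize_smul h0] at hxv
      have h5 : |4 * β * ‖v‖| ≤ d1 φ θ x := by
        unfold d1
        rw [abs_mul, abs_mul, abs_of_nonneg (norm_nonneg v)]
        have : |(4 : ℝ)| = 4 := by norm_num
        rw [this]
        calc 4 * |β| * ‖v‖ ≤ 4 * |β| * 1 := by gcongr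
          _ ≤ 4 * (φ * (1 + |⟪θ, x⟫|)) := by linarith
          _ = _ := by ring
      rcases cross1 hK hx h5 hxv with h | h
      · exact Or.inl ⟨hx, h⟩
      · exact Or.inr ⟨hx, h⟩
  have hab : |4 * a| ≤ d1 φ b1 x := by
    unfold d1
    rw [abs_mul]
    have : |(4 : ℝ)| = 4 := by norm_num
    rw [this]
    calc 4 * |a| ≤ 4 * (φ * (1 + |⟪b1, x⟫|)) := by linarith
      _ = _ := by ring
  have hab' : |4 * a'| ≤ d2 φ b2 x := by
    unfold d2
    rw [abs_mul]
    have : |(4 : ℝ)| = 4 := by norm_num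
    rw [this]
    calc 4 * |a'| ≤ 4 * (φ * |⟪b2, x⟫|) := by linarith
      _ = _ := by ring
  rcases cross4 hK hxK with h | h | h | h
  · rw [smul_smul] at h
    rcases cross1 hK hx hab h with h | h
    · exact Or.inl (Or.inl (Or.inl ⟨hx, h⟩))
    · exact Or.inl (Or.inl (Or.inr ⟨hx, h⟩))
  · rw [smul_smul] at h
    rcases cross1 hK hx hab' h with h | h
    · exact Or.inl (Or.inr (Or.inl ⟨hx, h⟩))
    · exact Or.inl (Or.inr (Or.inr ⟨hx, h⟩))
  · exact Or.inr (Or.inl (key b1 h1 h))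
  · exact Or.inr (Or.inr (key b2 h2 h))

/-- the layered displacement -/
lemma Phi_layer (hK : Convex ℝ K) (hKc : IsCompact K) (hR : 0 ≤ R)
    (hKR : K ⊆ Metric.closedBall 0 R) (hφ : 0 ≤ φ) {e b2 : E} (he : UZ e)
    (heW0 : e ∈ W0ᗮ) (heW : e ∈ W) (hb2 : b2 ∈ Wᗮ) (hb1 : ‖b2‖ ≤ 1)
    (hw : Continuous w) (hwt : ∀ x, w x ≠ ⊤) (hwi : Inv W w)
    (hOm : Measurable Om) (hOi : Inv W0 Om) (hW : W0 ≤ W) (h00 : W00 ≤ W0) (x0 : E) :
    Phi K W W00 w Om x0 (Cf K e (d2 φ b2)) ≤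
      ENNReal.ofReal (256 * φ) * fib W00 (fun x => Om x * mL w K e x) x0 := by
  have hKm := hKc.measurableSet
  have hbe : ⟪b2, e⟫ = 0 := by
    rw [real_inner_comm]
    exact (Submodule.mem_orthogonal W b2).mp hb2 e heW
  set c : ℕ → E → ℝ := fun k _ => 4 * φ * (k + 1) with hc
  have hcm : ∀ k, Measurable (c k) := fun k => measurable_const
  have hB : ∀ k, MeasurableSet (Yk b2 k ∩ Cf K e (c k)) := fun k =>
    (measurableSet_Yk b2 k).inter (measurableSet_Cf hKm e (hcm k))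
  have hsub : Cf K e (d2 φ b2) ⊆ ⋃ k, (Yk b2 k ∩ Cf K e (c k)) := by
    intro x hx
    obtain ⟨k, hk⟩ := exists_Yk b2 x
    refine mem_iUnion.mpr ⟨k, hk, hx.1, ?_⟩
    intro hcon
    apply hx.2
    have h1 : 0 ≤ d2 φ b2 x := d2_nonneg hφ b2 x
    have h2 : d2 φ b2 x ≤ c k x := by
      simp only [hc, d2]
      apply mul_le_mul_of_nonneg_left hk.2.le (by positivity)
    have h3 := line_ord hK x e
    have h4 : (0 : ℝ) ∈ {r : ℝ | x + r • e ∈ K} := by
      show x + (0 : ℝ) • e ∈ K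
      rw [zero_smul, add_zero]
      exact hx.1
    exact h3.out h4 hcon ⟨h1, h2⟩
  refine (Phi_iUnion hKm hw.measurable hOm x0 (measurableSet_Cf hKm e (measurable_d2 φ b2))
    hB hsub).trans ?_
  have hterm : ∀ k, Phi K W W00 w Om x0 (Yk b2 k ∩ Cf K e (c k)) ≤
      (ENNReal.ofReal (4 * Real.sqrt (16 * (1 / 4 : ℝ) ^ k)) * ENNReal.ofReal (4 * φ * (k + 1))) *
        fib W00 (fun x => Om x * mL w K e x) x0 := by
    intro k
    have h1 := dir_label (K := K) (R := R) (W := W) (W0 := W0) (W00 := W00) (w := w) (Om := Om)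
      hK hKc hR hKR (measurableSet_Yk b2 k) he (by
        intro x t
        unfold Yk
        simp only [mem_setOf_eq, inner_add_right, inner_smul_right, hbe, mul_zero, add_zero])
      heW0 heW (hcm k) (fun x => by simp only [hc]; positivity) (fun x t => rfl)
      (fun x v hv => rfl) (cY := 16 * (1 / 4 : ℝ) ^ k) (by positivity)
      (fib_Yk hb2 hb1 k) hw hwt hwi hOm hOi hW h00 x0
    refine h1.trans (le_of_eq ?_)
    rw [mul_assoc]
    congr 1
    have e1 : ∀ x, Om x * (ENNReal.ofReal (c k x) * mL w K e x) =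
        ENNReal.ofReal (4 * φ * (k + 1)) * (Om x * mL w K e x) := by
      intro x
      simp only [hc]
      ring
    simp only [e1]
    unfold fib
    rw [lintegral_const_mul' _ _ ENNReal.ofReal_ne_top]
  refine (ENNReal.tsum_le_tsum hterm).trans ?_
  rw [ENNReal.tsum_mul_right]
  exact mul_le_mul' (tsum_layers hφ) le_rfl

/-- the displacement factors of the two directions of the plane -/
noncomputable def gA (φ : ℝ) (b1 b2 x : E) : ℝ≥0∞ :=
  ENNReal.ofReal (φ * (1 + |⟪b1, x⟫| + |⟪b2, x⟫|))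

noncomputable def gB (φ : ℝ) (θ x : E) : ℝ≥0∞ := ENNReal.ofReal (φ * (1 + |⟪θ, x⟫|))

/-- **THR0, one body**: the mass lost by the motion -/
theorem thr0_half {b1 b2 : E} (hK : Convex ℝ K) (hKc : IsCompact K) (hK' : MeasurableSet K')
    (hR : 0 ≤ R) (hKR : K ⊆ Metric.closedBall 0 R) (hφ : 0 ≤ φ)
    (hφR : 4 * φ * (1 + R) ^ 2 ≤ 1)
    (hθ : ‖θ‖ = 1) (hθW : θ ∈ W) (hθ0 : θ ∈ W0ᗮ) (hb : b = b1 + b2) (hb1W : b1 ∈ W)
    (hb10 : b1 ∈ W0ᗮ) (hb1 : ‖b1‖ ≤ 1) (hb2W : b2 ∈ Wᗮ) (hb2 : ‖b2‖ ≤ 1) (hθb : ⟪θ, b1⟫ = 0)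
    (hrot : ∀ x ∈ K, x ∉ K' → ∃ α β : ℝ, |α| ≤ φ * (1 + |⟪b, x⟫|) ∧
      |β| ≤ φ * (1 + |⟪θ, x⟫|) ∧ x + (α • θ + β • b) ∉ K)
    (hw : Continuous w) (hwt : ∀ x, w x ≠ ⊤) (hwi : Inv W w)
    (hOm : Measurable Om) (hOi : Inv W0 Om) (hW : W0 ≤ W) (h00 : W00 ≤ W0) (x0 : E) :
    fib W00 (fun x => Om x * (w x * rt (fib W (Kᶜ.indicator 1) x)
      (fib W ((K \ K').indicator 1) x))) x0 ≤
    576 * (fib W00 (fun x => Om x * (gA φ b1 b2 x * mL w K θ x)) x0 +
      fib W00 (fun x => Om x * (gB φ θ x * mL w K (‖b1‖⁻¹ • b1) x)) x0 +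
      fib W00 (fun x => Om x * (gB φ θ x * mL w K (‖b2‖⁻¹ • b2) x)) x0 +
      fib W00 (fun x => Om x * (gB φ θ x * (w x * K.indicator 1 x))) x0) := by
  have hKm := hKc.measurableSet
  have hwm := hw.measurable
  set e1 := ‖b1‖⁻¹ • b1 with he1
  set e2 := ‖b2‖⁻¹ • b2 with he2
  have u1 : UZ e1 := UZ_normalize b1
  have u2 : UZ e2 := UZ_normalize b2
  have uθ : UZ θ := Or.inl hθ
  have he1W : e1 ∈ W := Submodule.smul_mem _ _ hb1W
  have he10 : e1 ∈ W0ᗮ := Submodule.smul_mem _ _ hb10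
  have he2W : e2 ∈ Wᗮ := Submodule.smul_mem _ _ hb2W
  have he20 : e2 ∈ W0ᗮ := Submodule.orthogonal_le hW he2W
  have hb1θ : ⟪b1, θ⟫ = 0 := by rw [real_inner_comm]; exact hθb
  have hb2θ : ⟪b2, θ⟫ = 0 := by
    rw [real_inner_comm]
    exact (Submodule.mem_orthogonal W b2).mp hb2W θ hθW
  have hθe1 : ⟪θ, e1⟫ = 0 := by rw [he1, inner_smul_right, hθb, mul_zero]
  have hθe2 : ⟪θ, e2⟫ = 0 := (Submodule.mem_orthogonal W e2).mp he2W θ hθW
  have ng : ∀ {u e : E}, ⟪u, e⟫ = 0 → ⟪u, -e⟫ = 0 := fun h => by rw [inner_neg_right, h, neg_zero]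
  -- totals
  set TA := fib W00 (fun x => Om x * (gA φ b1 b2 x * mL w K θ x)) x0 with hTA
  set TB1 := fib W00 (fun x => Om x * (gB φ θ x * mL w K e1 x)) x0 with hTB1
  set TB2 := fib W00 (fun x => Om x * (gB φ θ x * mL w K e2 x)) x0 with hTB2
  set TC := fib W00 (fun x => Om x * (gB φ θ x * (w x * K.indicator 1 x))) x0 with hTC
  -- comparison of the integrals
  have cmp : ∀ {c : ℝ≥0∞} {f g : E → ℝ≥0∞}, c ≠ ⊤ → (∀ x, f x ≤ c * g x) →
      ∀ h : E → ℝ≥0∞, fib W00 (fun x => Om x * (f x * h x)) x0 ≤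
        c * fib W00 (fun x => Om x * (g x * h x)) x0 := by
    intro c f g hc hfg h
    have h1 : ∀ x, Om x * (f x * h x) ≤ c * (Om x * (g x * h x)) := by
      intro x
      calc Om x * (f x * h x) ≤ Om x * ((c * g x) * h x) :=
            mul_le_mul' le_rfl (mul_le_mul' (hfg x) le_rfl)
        _ = _ := by ring
    refine (fib_mono h1 x0).trans (le_of_eq ?_)
    unfold fib
    rw [lintegral_const_mul' _ _ hc]
  have g1 : ∀ x, ENNReal.ofReal (d1 φ b1 x) ≤ 4 * gA φ b1 b2 x := by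
    intro x
    unfold gA
    have h4 : (4 : ℝ≥0∞) = ENNReal.ofReal 4 := by simp
    rw [h4, ← ENNReal.ofReal_mul (by norm_num)]
    apply ENNReal.ofReal_le_ofReal
    unfold d1
    have : 0 ≤ φ * |⟪b2, x⟫| := by positivity
    nlinarith
  have g2 : ∀ x, ENNReal.ofReal (d2 φ b2 x) ≤ 4 * gA φ b1 b2 x := by
    intro x
    unfold gA
    have h4 : (4 : ℝ≥0∞) = ENNReal.ofReal 4 := by simp
    rw [h4, ← ENNReal.ofReal_mul (by norm_num)]
    apply ENNReal.ofReal_le_ofReal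
    unfold d2
    have : 0 ≤ φ * |⟪b1, x⟫| := by positivity
    nlinarith
  have g4 : ∀ x, ENNReal.ofReal (d1 φ θ x) ≤ 4 * gB φ θ x := by
    intro x
    unfold gB
    have h4 : (4 : ℝ≥0∞) = ENNReal.ofReal 4 := by simp
    rw [h4, ← ENNReal.ofReal_mul (by norm_num)]
    apply ENNReal.ofReal_le_ofReal
    unfold d1
    nlinarith
  have gφ : ∀ x : E, ENNReal.ofReal φ ≤ 1 * gA φ b1 b2 x := by
    intro x
    unfold gA
    rw [one_mul]
    apply ENNReal.ofReal_le_ofReal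
    have : 0 ≤ φ * (|⟪b1, x⟫| + |⟪b2, x⟫|) := by positivity
    nlinarith
  -- the sets
  have hm1 := measurable_d1 φ b1
  have hm2 := measurable_d2 φ b2
  have hm4 := measurable_d1 φ θ
  have n1 := d1_nonneg hφ b1
  have n2 := d2_nonneg hφ b2
  have n4 := d1_nonneg hφ θ
  -- zone bounds
  have hYu : ∀ x : E, fib W ((univ : Set E).indicator 1) x ≤ ENNReal.ofReal 1 := by
    intro x
    rw [ENNReal.ofReal_one]
    exact fib_le_one (fun y => indicator_le_self' (fun _ _ => bot_le) y) x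
  have s4 : ENNReal.ofReal (4 * Real.sqrt 1) = 4 := by
    rw [Real.sqrt_one, mul_one]; simp
  have zl : ∀ {e : E} {s : E → ℝ}, UZ e → e ∈ W0ᗮ → e ∈ W → Measurable s → (∀ x, 0 ≤ s x) →
      Al e s → La W s → Phi K W W00 w Om x0 (Cf K e s) ≤
        4 * fib W00 (fun x => Om x * (ENNReal.ofReal (s x) * mL w K e x)) x0 := by
    intro e s ue he0 heW hs hs0 hse hsW
    have h := dir_label (K := K) (R := R) (W := W) (W0 := W0) (W00 := W00) (w := w) (Om := Om)
      hK hKc hR hKR MeasurableSet.univ ue (fun x t => by simp) he0 heW hs hs0 hse hsW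
      (cY := 1) zero_le_one hYu hw hwt hwi hOm hOi hW h00 x0
    rw [univ_inter, s4] at h
    exact h
  have laθ : La W (d1 φ θ) := la_d1 hθW
  have la1 : La W (d1 φ b1) := la_d1 hb1W
  have z1 : Phi K W W00 w Om x0 (Cf K θ (d1 φ b1)) ≤ 16 * TA := by
    refine (zl uθ hθ0 hθW hm1 n1 (al_d1 hb1θ) la1).trans ?_
    calc _ ≤ 4 * (4 * TA) := mul_le_mul' le_rfl (cmp (by norm_num) g1 _)
      _ = _ := by ring
  have z1' : Phi K W W00 w Om x0 (Cf K (-θ) (d1 φ b1)) ≤ 16 * TA := by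
    refine (zl uθ.neg (Submodule.neg_mem _ hθ0) (Submodule.neg_mem _ hθW) hm1 n1
      (al_d1 (ng hb1θ)) la1).trans ?_
    simp only [mL_neg]
    calc _ ≤ 4 * (4 * TA) := mul_le_mul' le_rfl (cmp (by norm_num) g1 _)
      _ = _ := by ring
  have lay : ENNReal.ofReal (256 * φ) * fib W00 (fun x => Om x * mL w K θ x) x0 ≤ 256 * TA := by
    have h1 : ENNReal.ofReal (256 * φ) * fib W00 (fun x => Om x * mL w K θ x) x0 =
        256 * fib W00 (fun x => Om x * (ENNReal.ofReal φ * mL w K θ x)) x0 := by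
      rw [ENNReal.ofReal_mul (by norm_num)]
      have e0 : ∀ x, Om x * (ENNReal.ofReal φ * mL w K θ x) =
          ENNReal.ofReal φ * (Om x * mL w K θ x) := fun x => by ring
      simp only [e0]
      unfold fib
      rw [lintegral_const_mul' _ _ ENNReal.ofReal_ne_top]
      simp only [ENNReal.ofReal_ofNat]
      ring
    rw [h1]
    calc _ ≤ 256 * (1 * TA) := mul_le_mul' le_rfl (cmp (by norm_num) gφ _)
      _ = _ := by ring
  have z2 : Phi K W W00 w Om x0 (Cf K θ (d2 φ b2)) ≤ 256 * TA :=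
    (Phi_layer hK hKc hR hKR hφ uθ hθ0 hθW hb2W hb2 hw hwt hwi hOm hOi hW h00 x0).trans lay
  have z2' : Phi K W W00 w Om x0 (Cf K (-θ) (d2 φ b2)) ≤ 256 * TA := by
    refine (Phi_layer hK hKc hR hKR hφ uθ.neg (Submodule.neg_mem _ hθ0)
      (Submodule.neg_mem _ hθW) hb2W hb2 hw hwt hwi hOm hOi hW h00 x0).trans ?_
    simp only [mL_neg]
    exact lay
  have z3 : Phi K W W00 w Om x0 (Cf K e1 (d1 φ θ)) ≤ 16 * TB1 := by
    refine (zl u1 he10 he1W hm4 n4 (al_d1 hθe1) laθ).trans ?_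
    calc _ ≤ 4 * (4 * TB1) := mul_le_mul' le_rfl (cmp (by norm_num) g4 _)
      _ = _ := by ring
  have z3' : Phi K W W00 w Om x0 (Cf K (-e1) (d1 φ θ)) ≤ 16 * TB1 := by
    refine (zl u1.neg (Submodule.neg_mem _ he10) (Submodule.neg_mem _ he1W) hm4 n4
      (al_d1 (ng hθe1)) laθ).trans ?_
    simp only [mL_neg]
    calc _ ≤ 4 * (4 * TB1) := mul_le_mul' le_rfl (cmp (by norm_num) g4 _)
      _ = _ := by ring
  have hsR : ∀ x, x ∈ K → d1 φ θ x * (1 + R) ≤ 1 := by
    intro x hx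
    have h1 : |⟪θ, x⟫| ≤ R := by
      have h3 := hKR hx
      rw [mem_closedBall_zero_iff] at h3
      have h4 : |⟪θ, x⟫| ≤ ‖θ‖ * ‖x‖ := abs_real_inner_le_norm _ _
      rw [hθ, one_mul] at h4
      linarith
    unfold d1
    calc 4 * φ * (1 + |⟪θ, x⟫|) * (1 + R) ≤ 4 * φ * (1 + R) * (1 + R) := by gcongr
      _ = 4 * φ * (1 + R) ^ 2 := by ring
      _ ≤ 1 := hφR
  have zf : ∀ {e : E}, UZ e → e ∈ Wᗮ → Phi K W W00 w Om x0 (Cf K e (d1 φ θ)) ≤ 40 * TC := by
    intro e ue heW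
    refine (dir_fibre hK hKm hR hKR ue heW hm4 n4 laθ hsR hwm hwi hOm hOi hW h00 x0).trans ?_
    calc _ ≤ 10 * (4 * TC) := mul_le_mul' le_rfl (cmp (by norm_num) g4 _)
      _ = _ := by ring
  have z4 := zf u2 he2W
  have z4' := zf u2.neg (Submodule.neg_mem _ he2W)
  -- outside the zone
  have o1 : Psi W00 w Om x0 (Cf K θ (d1 φ b1)) ≤ 4 * TA :=
    (dir_edge hK hKm uθ hθ0 hm1 n1 (al_d1 hb1θ) hwm hOm hOi h00 x0).trans
      (cmp (by norm_num) g1 _)
  have o1' : Psi W00 w Om x0 (Cf K (-θ) (d1 φ b1)) ≤ 4 * TA := by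
    refine (dir_edge hK hKm uθ.neg (Submodule.neg_mem _ hθ0) hm1 n1 (al_d1 (ng hb1θ)) hwm hOm
      hOi h00 x0).trans ?_
    simp only [mL_neg]
    exact cmp (by norm_num) g1 _
  have o2 : Psi W00 w Om x0 (Cf K θ (d2 φ b2)) ≤ 4 * TA :=
    (dir_edge hK hKm uθ hθ0 hm2 n2 (al_d2 hb2θ) hwm hOm hOi h00 x0).trans
      (cmp (by norm_num) g2 _)
  have o2' : Psi W00 w Om x0 (Cf K (-θ) (d2 φ b2)) ≤ 4 * TA := by
    refine (dir_edge hK hKm uθ.neg (Submodule.neg_mem _ hθ0) hm2 n2 (al_d2 (ng hb2θ)) hwm hOm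
      hOi h00 x0).trans ?_
    simp only [mL_neg]
    exact cmp (by norm_num) g2 _
  have of : ∀ {e : E}, UZ e → e ∈ W0ᗮ → ⟪θ, e⟫ = 0 → Psi W00 w Om x0 (Cf K e (d1 φ θ)) ≤
      4 * fib W00 (fun x => Om x * (gB φ θ x * mL w K e x)) x0 := by
    intro e ue he0 hθe
    exact (dir_edge hK hKm ue he0 hm4 n4 (al_d1 hθe) hwm hOm hOi h00 x0).trans
      (cmp (by norm_num) g4 _)
  have o3 := of u1 he10 hθe1
  have o3' := of u1.neg (Submodule.neg_mem _ he10) (ng hθe1)
  have o4 := of u2 he20 hθe2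
  have o4' := of u2.neg (Submodule.neg_mem _ he20) (ng hθe2)
  simp only [mL_neg] at o3' o4'
  -- assembly
  have mV : MeasurableSet (K \ K') := hKm.diff hK'
  have ma := measurableSet_Cf hKm θ hm1
  have ma' := measurableSet_Cf hKm (-θ) hm1
  have mb := measurableSet_Cf hKm θ hm2
  have mb' := measurableSet_Cf hKm (-θ) hm2
  have mc := measurableSet_Cf hKm e1 hm4
  have mc' := measurableSet_Cf hKm (-e1) hm4
  have md := measurableSet_Cf hKm e2 hm4
  have md' := measurableSet_Cf hKm (-e2) hm4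
  have hsub : K \ K' ⊆ ((Cf K θ (d1 φ b1) ∪ Cf K (-θ) (d1 φ b1)) ∪
      (Cf K θ (d2 φ b2) ∪ Cf K (-θ) (d2 φ b2))) ∪
      ((Cf K e1 (d1 φ θ) ∪ Cf K (-e1) (d1 φ θ)) ∪ (Cf K e2 (d1 φ θ) ∪ Cf K (-e2) (d1 φ θ))) := by
    intro x hx
    obtain ⟨α, β, hα, hβ, hxK⟩ := hrot x hx.1 hx.2
    exact cover hK hφ hb hb1 hb2 hx.1 hα hβ hxK
  have P : ∀ {A B C : Set E}, MeasurableSet A → MeasurableSet B → MeasurableSet C → A ⊆ B ∪ C →
      Phi K W W00 w Om x0 A ≤ Phi K W W00 w Om x0 B + Phi K W W00 w Om x0 C := fun hA hB hC h =>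
    Phi_union hKm hwm hOm x0 hA hB hC h
  have Q : ∀ {A B C : Set E}, MeasurableSet B → A ⊆ B ∪ C →
      Psi W00 w Om x0 A ≤ Psi W00 w Om x0 B + Psi W00 w Om x0 C := fun hB h =>
    Psi_union hwm hOm x0 hB h
  have hPhi : Phi K W W00 w Om x0 (K \ K') ≤ 544 * TA + 32 * TB1 + 80 * TC := by
    have m12 := (ma.union ma').union (mb.union mb')
    have m34 := (mc.union mc').union (md.union md')
    calc _ ≤ ((Phi K W W00 w Om x0 (Cf K θ (d1 φ b1)) + Phi K W W00 w Om x0 (Cf K (-θ) (d1 φ b1))) +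
          (Phi K W W00 w Om x0 (Cf K θ (d2 φ b2)) + Phi K W W00 w Om x0 (Cf K (-θ) (d2 φ b2)))) +
          ((Phi K W W00 w Om x0 (Cf K e1 (d1 φ θ)) + Phi K W W00 w Om x0 (Cf K (-e1) (d1 φ θ))) +
          (Phi K W W00 w Om x0 (Cf K e2 (d1 φ θ)) + Phi K W W00 w Om x0 (Cf K (-e2) (d1 φ θ)))) :=
          (P mV m12 m34 hsub).trans (add_le_add
            ((P m12 (ma.union ma') (mb.union mb') subset_rfl).trans
              (add_le_add (P (ma.union ma') ma ma' subset_rfl) (P (mb.union mb') mb mb' subset_rfl)))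
            ((P m34 (mc.union mc') (md.union md') subset_rfl).trans
              (add_le_add (P (mc.union mc') mc mc' subset_rfl)
                (P (md.union md') md md' subset_rfl))))
      _ ≤ ((16 * TA + 16 * TA) + (256 * TA + 256 * TA)) +
          ((16 * TB1 + 16 * TB1) + (40 * TC + 40 * TC)) :=
          add_le_add (add_le_add (add_le_add z1 z1') (add_le_add z2 z2'))
            (add_le_add (add_le_add z3 z3') (add_le_add z4 z4'))
      _ = _ := by ring
  have hPsi : Psi W00 w Om x0 (K \ K') ≤ 16 * TA + 8 * TB1 + 8 * TB2 := by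
    calc _ ≤ ((Psi W00 w Om x0 (Cf K θ (d1 φ b1)) + Psi W00 w Om x0 (Cf K (-θ) (d1 φ b1))) +
          (Psi W00 w Om x0 (Cf K θ (d2 φ b2)) + Psi W00 w Om x0 (Cf K (-θ) (d2 φ b2)))) +
          ((Psi W00 w Om x0 (Cf K e1 (d1 φ θ)) + Psi W00 w Om x0 (Cf K (-e1) (d1 φ θ))) +
          (Psi W00 w Om x0 (Cf K e2 (d1 φ θ)) + Psi W00 w Om x0 (Cf K (-e2) (d1 φ θ)))) :=
          (Q ((ma.union ma').union (mb.union mb')) hsub).trans (add_le_add
            ((Q (ma.union ma') subset_rfl).trans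
              (add_le_add (Q ma subset_rfl) (Q mb subset_rfl)))
            ((Q (mc.union mc') subset_rfl).trans
              (add_le_add (Q mc subset_rfl) (Q md subset_rfl))))
      _ ≤ ((4 * TA + 4 * TA) + (4 * TA + 4 * TA)) +
          ((4 * TB1 + 4 * TB1) + (4 * TB2 + 4 * TB2)) :=
          add_le_add (add_le_add (add_le_add o1 o1') (add_le_add o2 o2'))
            (add_le_add (add_le_add o3 o3') (add_le_add o4 o4'))
      _ = _ := by ring
  refine (split_zone hKm mV hwm hwi hOm hOi hW h00 x0).trans ?_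
  calc _ ≤ (544 * TA + 32 * TB1 + 80 * TC) + 2 * (16 * TA + 8 * TB1 + 8 * TB2) :=
        add_le_add hPhi (mul_le_mul' le_rfl hPsi)
    _ = 576 * TA + 48 * TB1 + 16 * TB2 + 80 * TC := by ring
    _ ≤ 576 * TA + 576 * TB1 + 576 * TB2 + 576 * TC := by
        gcongr <;> norm_num
    _ = _ := by ring

end core

end Vale.Agent.P262.H431
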