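import Mathlib
import Vale.Agent.P262.H431.Thr4
import Vale.Agent.P262.H493.Cons
import Vale.Agent.P262.H633.FlatL

/-!
# P262, block THR0, part 5: the chain of a fixed flag below a healthy label

Weights `dw a (PB (l ++ l') q) * dw c (slab b 5)` on the region `avoid L`: the tip inequality, the
perimeter inequality, and the estimate of the terms of `thr0_half`.
-/

set_option linter.all false

open MeasureTheory Set Filter ProbabilityTheory
open scoped ENNReal NNReal Topology RealInnerProductSpace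

namespace Vale.Agent.P262.H431

open Vale.Agent.P262.H395
open Vale.Agent.P262.H44 (InvS ec)
open Vale.Agent.P262.H493 (LogConc ee)
open Vale.Agent.P262.H606 (dw dw2 dw2_eq continuous_dw FlatD Healthy AllInv TInv cap_tip2)
open Vale.Agent.P262.H962 (PB CB PB_anti isClosed_PB convex_PB zero_mem_PB PB_nonempty flatD_PB
  PB_cyl capS continuous_capS inv_capS)
open Vale.Agent.P262.Cons493 (avoid sT kT reg_sT reg_kT valid_sT valid_kT Chn frz_kT under_kT
  hkq_kT)
open Vale.Agent.P262.H633 (slab isClosed_slab zero_mem_slab slab_add infDist_slab_add lin_tail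
  flatAt_PB one_add_le_slab exp_tail_bound)

variable {E : Type*} [NormedAddCommGroup E] [InnerProductSpace ℝ E] [FiniteDimensional ℝ E]
  [MeasurableSpace E] [BorelSpace E]

lemma convex_slab' (b : E) (h : ℝ) : Convex ℝ (slab b h) := by
  intro x hx y hy s t hs ht hst
  show |⟪b, s • x + t • y⟫| ≤ h
  rw [inner_add_right, inner_smul_right, inner_smul_right]
  have h1 : |⟪b, x⟫| ≤ h := hx
  have h2 : |⟪b, y⟫| ≤ h := hy
  calc |s * ⟪b, x⟫ + t * ⟪b, y⟫| ≤ |s * ⟪b, x⟫| + |t * ⟪b, y⟫| := abs_add_le _ _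
    _ = s * |⟪b, x⟫| + t * |⟪b, y⟫| := by
        rw [abs_mul, abs_mul, abs_of_nonneg hs, abs_of_nonneg ht]
    _ ≤ s * h + t * h := by gcongr
    _ = h := by rw [← add_mul, hst, one_mul]

lemma tinv_slab' {W : Submodule ℝ E} {b : E} (hb : b ∈ Wᗮ) (h : ℝ) : TInv W (slab b h) :=
  fun x v hv => slab_add (Submodule.inner_left_of_mem_orthogonal hv hb)

lemma gam_slab5 {b : E} (hb : ‖b‖ ≤ 1) :
    ENNReal.ofReal (1 - 1 / 40) ≤ stdGaussian E (slab b 5) := by
  have h1 := lin_tail hb (k := 5) (by norm_num)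
  have h2 : Real.sqrt 2 * Real.exp (-((5 : ℝ) ^ 2 / 4)) ≤ 1 / 300 := exp_tail_bound (by norm_num)
  have hm : MeasurableSet (slab b 5) := (isClosed_slab b 5).measurableSet
  have e1 : (slab b 5)ᶜ = {z | (5 : ℝ) < |⟪b, z⟫|} := by
    ext z
    simp [slab, not_le]
  have h3 : stdGaussian E (slab b 5)ᶜ ≤ ENNReal.ofReal (1 / 40) := by
    rw [e1]
    exact h1.trans (ENNReal.ofReal_le_ofReal (h2.trans (by norm_num)))
  have h4 : stdGaussian E (slab b 5) = 1 - stdGaussian E (slab b 5)ᶜ := by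
    rw [prob_compl_eq_one_sub hm, ENNReal.sub_sub_cancel ENNReal.one_ne_top prob_le_one]
  rw [h4, ENNReal.ofReal_sub _ (by norm_num), ENNReal.ofReal_one]
  exact tsub_le_tsub_left h3 1

/-- health at the nodes of the chain, for an arbitrary list of deeper levels -/
lemma healthy_chain {K : Set E} {q : ℝ} (hq : 0 ≤ q)
    (hε : 2 * (Real.sqrt 2 * Real.exp (-(q / 4))) ≤ 1 / 10) {l' : List (Submodule ℝ E)} :
    ∀ {L : List (Submodule ℝ E × Set E)} {l0 : List (Submodule ℝ E)} {W0 : Submodule ℝ E},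
    (∀ V ∈ l0, V ≤ W0) → (L.map Prod.fst ++ l').Pairwise (· < ·) →
    (∀ V ∈ L.map Prod.fst ++ l', W0 < V) →
    (∀ p ∈ L, ∀ x ∈ p.2, ENNReal.ofReal (4 / 5) ≤ fib p.1 (K.indicator 1) x) →
    Healthy K (PB (l0 ++ L.map Prod.fst) q) (PB ((l0 ++ L.map Prod.fst) ++ l') q) (sT L)
  | [], _, _, _, _, _, _ => trivial
  | p :: L, l0, W0, h1, h2, h3, h4 => by
    have e1 : l0 ++ (p :: L).map Prod.fst = (l0 ++ [p.1]) ++ L.map Prod.fst := by simp
    rw [List.map_cons, List.cons_append, List.pairwise_cons] at h2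
    have hl : ∀ V ∈ l0 ++ [p.1], V ≤ p.1 := by
      intro V hV
      rcases List.mem_append.mp hV with h | h
      · exact (h1 V h).trans (h3 p.1 (by simp)).le
      · rw [List.mem_singleton.mp h]
    have hF := flatD_PB (q := q) (l := l0 ++ [p.1]) (l' := L.map Prod.fst ++ l') (W := p.1)
      hε (by norm_num) hl (Or.inl (by simp)) h2.2 h2.1
    rw [e1]
    refine ⟨h4 p (by simp), ⟨PB (l0 ++ [p.1]) q, CB p.1 (L.map Prod.fst ++ l') q, ?_, ?_⟩,
      fun _ => healthy_chain hq hε hl h2.2 h2.1 fun r hr => h4 r (by simp [hr])⟩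
    · rw [List.append_assoc]
      exact hF
    · exact PB_anti (List.subset_append_left _ _)

/-- the weight of the deeper label with a slab factor -/
noncomputable def ws (a c q : ℝ) (l : List (Submodule ℝ E)) (b x : E) : ℝ≥0∞ :=
  dw a (PB l q) x * dw c (slab b 5) x

lemma dw_ne_top' (a : ℝ) (B : Set E) (x : E) : dw a B x ≠ ⊤ :=
  Vale.Agent.P262.H606.dw_ne_top a B x

lemma continuous_ws (a c q : ℝ) (l : List (Submodule ℝ E)) (b : E) :
    Continuous (ws a c q l b) :=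
  cont_mul (continuous_dw _ _) (continuous_dw _ _) (fun x => dw_ne_top' _ _ x)
    (fun x => dw_ne_top' _ _ x)

lemma ws_ne_top (a c q : ℝ) (l : List (Submodule ℝ E)) (b x : E) : ws a c q l b x ≠ ⊤ :=
  ENNReal.mul_ne_top (dw_ne_top' _ _ x) (dw_ne_top' _ _ x)

/-- flatness at the stops of the chain -/
lemma stop_chain {K : Set E} {q : ℝ} (hq : 100 ≤ q) {l' : List (Submodule ℝ E)} {e b : E}
    (he1 : ‖e‖ = 1) (hb1 : ‖b‖ ≤ 1) {a c : ℝ} (ha0 : 0 ≤ a) (hc0 : 0 ≤ c) (hac : a + c ≤ 1 / 8)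
    {V : Submodule ℝ E} (he : e ∈ Vᗮ) (hb : b ∈ Vᗮ) :
    ∀ {L : List (Submodule ℝ E × Set E)} {l0 : List (Submodule ℝ E)} {W0 : Submodule ℝ E}
      (B : Set E),
    (∀ V ∈ l0, V ≤ W0) → (L.map Prod.fst ++ l').Pairwise (· < ·) →
    (∀ V ∈ L.map Prod.fst ++ l', W0 < V) → (∀ p ∈ L, p.1 ≤ V) →
    (∀ p ∈ L, ∀ x ∈ p.2, ENNReal.ofReal (4 / 5) ≤ fib p.1 (K.indicator 1) x) →
    StopOK K (ws a c q ((l0 ++ L.map Prod.fst) ++ l') b) e (sT L) B
  | [], _, _, _, _, _, _, _, _ => trivial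
  | p :: L, l0, W0, B, h1, h2, h3, h5, h4 => by
    have e1 : l0 ++ (p :: L).map Prod.fst = (l0 ++ [p.1]) ++ L.map Prod.fst := by simp
    rw [List.map_cons, List.cons_append, List.pairwise_cons] at h2
    have hl : ∀ V ∈ l0 ++ [p.1], V ≤ p.1 := by
      intro V hV
      rcases List.mem_append.mp hV with h | h
      · exact (h1 V h).trans (h3 p.1 (by simp)).le
      · rw [List.mem_singleton.mp h]
    have hpV : p.1 ≤ V := h5 p (by simp)
    rw [e1]
    refine ⟨fun x hx _ => ⟨h4 p (by simp) x hx, ?_⟩, fun _ =>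
      stop_chain hq he1 hb1 ha0 hc0 hac he hb _ hl h2.2 h2.1 (fun r hr => h5 r (by simp [hr]))
        fun r hr => h4 r (by simp [hr])⟩
    have := flatAt_PB (l := l0 ++ [p.1]) (l' := L.map Prod.fst ++ l') (W := p.1) hq hl
      (Or.inl (by simp)) h2.2 h2.1 he1 (Submodule.orthogonal_le hpV he) hb1
      (Submodule.orthogonal_le hpV hb) (k := 5) le_rfl ha0 hc0 hac x
    rw [← List.append_assoc] at this
    exact this

section chain

variable {K : Set E} {R q a c : ℝ} {l0 l' : List (Submodule ℝ E)}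
  {W0 V : Submodule ℝ E} {L : List (Submodule ℝ E × Set E)} {b : E}

lemma allInv_sT {S : Set E} : ∀ {L : List (Submodule ℝ E × Set E)},
    (∀ p ∈ L, TInv p.1 S) → AllInv S (sT L)
  | [], _ => trivial
  | p :: L, h => ⟨h p (by simp), fun _ => allInv_sT fun r hr => h r (by simp [hr])⟩

lemma below_sT {U : Submodule ℝ E} : ∀ {L : List (Submodule ℝ E × Set E)},
    (∀ p ∈ L, p.1 ≤ U) → (sT L).Below U
  | [], _ => trivial
  | p :: L, h => ⟨h p (by simp), fun _ => below_sT fun r hr => h r (by simp [hr])⟩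

/-- tip inequality with a slab factor -/
theorem tip_slab (hK : IsClosed K) (hKc : Convex ℝ K) (hKR : K ⊆ Metric.closedBall 0 R)
    (hq : 0 ≤ q) (hε : 2 * (Real.sqrt 2 * Real.exp (-(q / 4))) ≤ 1 / 10)
    (ha0 : 0 ≤ a) (hc0 : 0 ≤ c) (hac : a + c ≤ 1 / 8)
    (h1 : ∀ V ∈ l0, V ≤ W0) (hW0 : W0 ∈ l0 ∨ W0 = ⊥)
    (hL : (L.map Prod.fst ++ l').Pairwise (· < ·)) (hL0 : ∀ V ∈ L.map Prod.fst ++ l', W0 < V)
    (hV0 : W0 ≤ V) (hVL : ∀ p ∈ L, p.1 ≤ V)
    (hD : ∀ p ∈ L, MeasurableSet p.2 ∧ InvS p.1 p.2)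
    (hgood : ∀ p ∈ L, ∀ x ∈ p.2, ENNReal.ofReal (4 / 5) ≤ fib p.1 (K.indicator 1) x)
    (hb1 : ‖b‖ ≤ 1) (hb : b ∈ Vᗮ)
    (x0 : E) (hroot : ENNReal.ofReal (2 / 3) ≤ fib W0 (K.indicator 1) x0) :
    fib W0 ((avoid L).indicator (K.indicator (ws a c q ((l0 ++ L.map Prod.fst) ++ l') b))) x0 ≤
      ENNReal.ofReal (2 * Real.exp (2 ^ 11)) *
        fib W0 ((avoid L).indicator (K.indicator (dw a (PB (l0 ++ L.map Prod.fst) q)))) x0 := by
  have hLp : (L.map Prod.fst).Pairwise (· < ·) := (List.pairwise_append.mp hL).1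
  have hLp0 : ∀ V ∈ L.map Prod.fst, W0 < V := fun V hV => hL0 V (by simp [hV])
  have hchn : Chn L W0 := Chn.of_list hLp hLp0 hD
  have hF0 : FlatD (1 / 10) W0 (PB ((l0 ++ L.map Prod.fst) ++ l') q) (PB l0 q)
      (CB W0 (L.map Prod.fst ++ l') q) := by
    rw [List.append_assoc]
    exact flatD_PB hε (by norm_num) h1 hW0 hL hL0
  have s1 := cap_tip2 (K := K) (B := PB (l0 ++ L.map Prod.fst) q)
    (B' := PB ((l0 ++ L.map Prod.fst) ++ l') q) (S := slab b 5) hK hKc hKR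
    (isClosed_PB _ q) (convex_PB _ q) (isClosed_PB _ q) (convex_PB _ q) (PB_nonempty _ hq)
    (PB_anti (List.subset_append_left _ _)) (isClosed_slab b 5) (convex_slab' b 5)
    (gam_slab5 hb1) ha0 hc0 hac (T := sT L) (W0 := W0)
    (valid_sT hchn) (healthy_chain hq hε h1 hL hL0 hgood)
    (allInv_sT fun p hp => tinv_slab' (Submodule.orthogonal_le (hVL p hp) hb) 5)
    x0 (P := PB l0 q) (C := CB W0 (L.map Prod.fst ++ l') q) hF0
    (PB_anti (List.subset_append_left _ _)) (tinv_slab' (Submodule.orthogonal_le hV0 hb) 5)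
    ((ENNReal.ofReal_le_ofReal (by norm_num)).trans hroot)
  rw [reg_sT] at s1
  have e1 : dw2 a c (PB ((l0 ++ L.map Prod.fst) ++ l') q) (slab b 5) =
      ws a c q ((l0 ++ L.map Prod.fst) ++ l') b := by
    funext x
    rw [dw2_eq]
    rfl
  rw [e1] at s1
  exact s1

/-- log-concavity of the tilted weight -/
lemma lc_ws (hq : 0 ≤ q) (ha0 : 0 ≤ a) (hc0 : 0 ≤ c) (hac : a + c ≤ 1 / 8)
    (l : List (Submodule ℝ E)) (b : E) :
    LogConc fun x => ec (a + c) x * ws a c q l b x := by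
  have w1 := (Vale.Agent.P262.H44.weight_dw (isClosed_PB l q) (zero_mem_PB l hq) ha0
    (show a ≤ 1 / 2 by linarith)).lc
  have w2 := (Vale.Agent.P262.H44.weight_dw (isClosed_slab b 5) (zero_mem_slab b (by norm_num)) hc0
    (show c ≤ 1 / 2 by linarith)).lc
  have e : ∀ x, ec (a + c) x * ws a c q l b x =
      (ec a x * dw a (PB l q) x) * (ec c x * dw c (slab b 5) x) := by
    intro x
    have e1 : ec (a + c) x = ec a x * ec c x := by
      unfold ec
      rw [← ENNReal.ofReal_mul (Real.exp_pos _).le, ← Real.exp_add]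
      congr 2
      ring
    unfold ws
    rw [e1]
    ring
  intro x y s t hs ht hst
  show (ec (a + c) x * ws a c q l b x) ^ s * (ec (a + c) y * ws a c q l b y) ^ t ≤
    ec (a + c) (s • x + t • y) * ws a c q l b (s • x + t • y)
  rw [e, e, e, ENNReal.mul_rpow_of_nonneg _ _ hs.le, ENNReal.mul_rpow_of_nonneg _ _ ht.le]
  calc _ = ((ec a x * dw a (PB l q) x) ^ s * (ec a y * dw a (PB l q) y) ^ t) *
        ((ec c x * dw c (slab b 5) x) ^ s * (ec c y * dw c (slab b 5) y) ^ t) := by ring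
    _ ≤ _ := mul_le_mul' (w1 x y s t hs ht hst) (w2 x y s t hs ht hst)

/-- perimeter inequality with a slab factor -/
theorem per_slab (hKc : Convex ℝ K) (hK : IsCompact K) (hq : 100 ≤ q)
    (ha0 : 0 ≤ a) (hc0 : 0 ≤ c) (hac : a + c ≤ 1 / 8)
    (h1 : ∀ V ∈ l0, V ≤ W0) (hW0 : W0 ∈ l0 ∨ W0 = ⊥)
    (hL : (L.map Prod.fst ++ l').Pairwise (· < ·)) (hL0 : ∀ V ∈ L.map Prod.fst ++ l', W0 < V)
    (hV0 : W0 ≤ V) (hVL : ∀ p ∈ L, p.1 ≤ V)
    (hD : ∀ p ∈ L, MeasurableSet p.2 ∧ InvS p.1 p.2)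
    (hgood : ∀ p ∈ L, ∀ x ∈ p.2, ENNReal.ofReal (4 / 5) ≤ fib p.1 (K.indicator 1) x)
    (hb1 : ‖b‖ ≤ 1) (hb : b ∈ Vᗮ) {e : E} (he : UZ e) (heV : e ∈ Vᗮ)
    (x0 : E) (hroot : ENNReal.ofReal (2 / 3) ≤ fib W0 (K.indicator 1) x0) :
    fib W0 ((avoid L).indicator (mL (ws a c q ((l0 ++ L.map Prod.fst) ++ l') b) K e)) x0 ≤
      5632 * fib W0 ((avoid L).indicator
        (K.indicator (ws a c q ((l0 ++ L.map Prod.fst) ++ l') b))) x0 := by
  have hLp : (L.map Prod.fst).Pairwise (· < ·) := (List.pairwise_append.mp hL).1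
  have hLp0 : ∀ V ∈ L.map Prod.fst, W0 < V := fun V hV => hL0 V (by simp [hV])
  have hchn : Chn L W0 := Chn.of_list hLp hLp0 hD
  rcases he with he | he
  · have hVe : V ≤ (ℝ ∙ e)ᗮ := le_orth heV
    have hf := flatAt_PB (l := l0) (l' := L.map Prod.fst ++ l') (W := W0) hq h1 hW0 hL hL0 he
      (Submodule.orthogonal_le hV0 heV) hb1 (Submodule.orthogonal_le hV0 hb) (k := 5) le_rfl
      ha0 hc0 hac x0
    rw [← List.append_assoc] at hf
    have h := per_tree (K := K) (w := ws a c q ((l0 ++ L.map Prod.fst) ++ l') b) (e := e) he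
      (continuous_ws _ _ _ _ _) (ws_ne_top _ _ _ _ _) hK hKc (c := a + c) (by linarith)
      (by linarith) (lc_ws (by linarith) ha0 hc0 hac _ b) (W0 := W0) (hV0.trans hVe)
      (T := sT L) (valid_sT hchn) (below_sT fun p hp => (hVL p hp).trans hVe)
      (stop_chain hq he hb1 ha0 hc0 hac heV hb univ h1 hL hL0 hVL hgood) x0 hf hroot
    rw [reg_sT] at h
    exact h
  · subst he
    have e1 : mL (ws a c q ((l0 ++ L.map Prod.fst) ++ l') b) K 0 ≤
        K.indicator (ws a c q ((l0 ++ L.map Prod.fst) ++ l') b) := by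
      intro x
      unfold mL
      refine iSup_le fun t => ?_
      have e2 : pt (0 : E) x t = x := by
        unfold pt
        rw [smul_zero, add_zero]
      rw [e2]
      calc ee t * _ ≤ 1 * _ := mul_le_mul' (ee_le_one' t) le_rfl
        _ = _ := one_mul _
    refine (fib_mono (fun y => indicator_le_indicator (e1 y)) x0).trans ?_
    calc _ = 1 * fib W0 ((avoid L).indicator
          (K.indicator (ws a c q ((l0 ++ L.map Prod.fst) ++ l') b))) x0 := (one_mul _).symm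
      _ ≤ _ := mul_le_mul' (by norm_num) le_rfl

/-- the constant of the line terms -/
noncomputable def cL1 : ℝ := 23 * 5632 * (2 * Real.exp (2 ^ 11))

/-- a factor which is constant on the lines is absorbed by the weight -/
lemma mul_mL {e : E} {f g : E → ℝ≥0∞} (hg : ∀ x t, g (pt e x t) = g x) (K : Set E) (x : E) :
    g x * mL f K e x = mL (fun y => f y * g y) K e x := by
  unfold mL
  rw [ENNReal.mul_iSup]
  refine iSup_congr fun t => ?_
  by_cases h : pt e x t ∈ K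
  · rw [indicator_of_mem h, indicator_of_mem h, hg]
    ring
  · rw [indicator_of_notMem h, indicator_of_notMem h]
    simp

lemma one_add_ofReal (hb1 : ‖b‖ ≤ 1) (x : E) :
    ENNReal.ofReal (1 + |⟪b, x⟫|) ≤ 23 * dw (1 / 16) (slab b 5) x := by
  have h1 := one_add_le_slab hb1 (k := 5) (c := 1 / 16) (by norm_num) (by norm_num) x
  have h23 : (23 : ℝ≥0∞) = ENNReal.ofReal 23 := by simp
  unfold dw
  rw [h23, ← ENNReal.ofReal_mul (by norm_num)]
  apply ENNReal.ofReal_le_ofReal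
  refine h1.trans (le_of_eq ?_)
  norm_num

lemma dw_slab_pt {e : E} (hbe : ⟪b, e⟫ = 0) (x : E) (t : ℝ) :
    dw c (slab b 5) (pt e x t) = dw c (slab b 5) x := by
  unfold dw pt
  rw [infDist_slab_add (by norm_num) (by rw [inner_smul_right, hbe, mul_zero])]

/-- the line terms -/
theorem term_line (hKc : Convex ℝ K) (hK : IsCompact K) (hKR : K ⊆ Metric.closedBall 0 R)
    (hq : 100 ≤ q) (ha0 : 0 ≤ a) (ha : a ≤ 1 / 16)
    (h1 : ∀ V ∈ l0, V ≤ W0) (hW0 : W0 ∈ l0 ∨ W0 = ⊥)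
    (hL : (L.map Prod.fst ++ l').Pairwise (· < ·)) (hL0 : ∀ V ∈ L.map Prod.fst ++ l', W0 < V)
    (hV0 : W0 ≤ V) (hVL : ∀ p ∈ L, p.1 ≤ V)
    (hD : ∀ p ∈ L, MeasurableSet p.2 ∧ InvS p.1 p.2)
    (hgood : ∀ p ∈ L, ∀ x ∈ p.2, ENNReal.ofReal (4 / 5) ≤ fib p.1 (K.indicator 1) x)
    (hb1 : ‖b‖ ≤ 1) (hb : b ∈ Vᗮ) {e : E} (he : UZ e) (heV : e ∈ Vᗮ) (hbe : ⟪b, e⟫ = 0)
    (x0 : E) (hroot : ENNReal.ofReal (2 / 3) ≤ fib W0 (K.indicator 1) x0) :
    fib W0 (fun x => (avoid L).indicator 1 x * (ENNReal.ofReal (1 + |⟪b, x⟫|) *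
        mL (dw a (PB ((l0 ++ L.map Prod.fst) ++ l') q)) K e x)) x0 ≤
      ENNReal.ofReal cL1 *
        fib W0 ((avoid L).indicator (K.indicator (dw a (PB (l0 ++ L.map Prod.fst) q)))) x0 := by
  have hb4 : Real.sqrt 2 * Real.exp (-(q / 4)) ≤ 1 / 300 := exp_tail_bound (by linarith)
  have p := per_slab (K := K) (q := q) (a := a) (c := 1 / 16) (l0 := l0) (l' := l') (W0 := W0)
    (V := V) (L := L) (b := b) hKc hK hq ha0 (by norm_num) (by linarith) h1 hW0 hL hL0 hV0 hVL hD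
    hgood hb1 hb he heV x0 hroot
  have t := tip_slab (K := K) (R := R) (q := q) (a := a) (c := 1 / 16) (l0 := l0) (l' := l')
    (W0 := W0) (V := V) (L := L) (b := b) hK.isClosed hKc hKR (by linarith) (by linarith) ha0
    (by norm_num) (by linarith) h1 hW0 hL hL0 hV0 hVL hD hgood hb1 hb x0 hroot
  set l := (l0 ++ L.map Prod.fst) ++ l' with hl
  have hpt : ∀ x, (avoid L).indicator 1 x * (ENNReal.ofReal (1 + |⟪b, x⟫|) *
      mL (dw a (PB l q)) K e x) ≤
      23 * (avoid L).indicator (mL (ws a (1 / 16) q l b) K e) x := by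
    intro x
    by_cases hx : x ∈ avoid L
    · rw [indicator_of_mem hx, indicator_of_mem hx, Pi.one_apply, one_mul]
      have e1 : mL (ws a (1 / 16) q l b) K e x =
          dw (1 / 16) (slab b 5) x * mL (dw a (PB l q)) K e x :=
        (mul_mL (fun x t => dw_slab_pt hbe x t) K x).symm
      rw [e1, ← mul_assoc]
      exact mul_le_mul' (one_add_ofReal hb1 x) le_rfl
    · rw [indicator_of_notMem hx, zero_mul]
      exact bot_le
  have e2 : fib W0 (fun x => 23 * (avoid L).indicator (mL (ws a (1 / 16) q l b) K e) x) x0 =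
      23 * fib W0 ((avoid L).indicator (mL (ws a (1 / 16) q l b) K e)) x0 := by
    unfold fib
    rw [lintegral_const_mul' _ _ (by norm_num)]
  calc _ ≤ 23 * fib W0 ((avoid L).indicator (mL (ws a (1 / 16) q l b) K e)) x0 := by
        rw [← e2]
        exact fib_mono hpt x0
    _ ≤ 23 * (5632 * (ENNReal.ofReal (2 * Real.exp (2 ^ 11)) *
        fib W0 ((avoid L).indicator (K.indicator (dw a (PB (l0 ++ L.map Prod.fst) q)))) x0)) :=
        mul_le_mul' le_rfl (p.trans (mul_le_mul' le_rfl t))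
    _ = _ := by
        have e3 : ENNReal.ofReal cL1 = 23 * (5632 * ENNReal.ofReal (2 * Real.exp (2 ^ 11))) := by
          unfold cL1
          rw [ENNReal.ofReal_mul (by norm_num), ENNReal.ofReal_mul (by norm_num)]
          simp only [ENNReal.ofReal_ofNat]
          ring
        rw [e3]
        ring

/-- the alive term -/
theorem term_alive (hKc : Convex ℝ K) (hK : IsCompact K) (hKR : K ⊆ Metric.closedBall 0 R)
    (hq : 100 ≤ q) (ha0 : 0 ≤ a) (ha : a ≤ 1 / 16)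
    (h1 : ∀ V ∈ l0, V ≤ W0) (hW0 : W0 ∈ l0 ∨ W0 = ⊥)
    (hL : (L.map Prod.fst ++ l').Pairwise (· < ·)) (hL0 : ∀ V ∈ L.map Prod.fst ++ l', W0 < V)
    (hV0 : W0 ≤ V) (hVL : ∀ p ∈ L, p.1 ≤ V)
    (hD : ∀ p ∈ L, MeasurableSet p.2 ∧ InvS p.1 p.2)
    (hgood : ∀ p ∈ L, ∀ x ∈ p.2, ENNReal.ofReal (4 / 5) ≤ fib p.1 (K.indicator 1) x)
    (hb1 : ‖b‖ ≤ 1) (hb : b ∈ Vᗮ)
    (x0 : E) (hroot : ENNReal.ofReal (2 / 3) ≤ fib W0 (K.indicator 1) x0) :
    fib W0 (fun x => (avoid L).indicator 1 x * (ENNReal.ofReal (1 + |⟪b, x⟫|) *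
        (dw a (PB ((l0 ++ L.map Prod.fst) ++ l') q) x * K.indicator 1 x))) x0 ≤
      ENNReal.ofReal cL1 *
        fib W0 ((avoid L).indicator (K.indicator (dw a (PB (l0 ++ L.map Prod.fst) q)))) x0 := by
  have h := term_line (K := K) (R := R) (q := q) (a := a) (l0 := l0) (l' := l') (W0 := W0)
    (V := V) (L := L) (b := b) hKc hK hKR hq ha0 ha h1 hW0 hL hL0 hV0 hVL hD hgood hb1 hb
    (e := 0) (Or.inr rfl) (Submodule.zero_mem _) (inner_zero_right _) x0 hroot
  refine le_trans (fib_mono (fun x => ?_) x0) h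
  refine mul_le_mul' le_rfl (mul_le_mul' le_rfl ?_)
  by_cases hx : x ∈ K
  · have h2 := le_iSup (fun t : ℝ => ee t * K.indicator
      (dw a (PB ((l0 ++ L.map Prod.fst) ++ l') q)) (pt 0 x t)) 0
    have e2 : pt (0 : E) x 0 = x := by
      unfold pt
      rw [smul_zero, add_zero]
    simp only [e2, ee_zero, one_mul, indicator_of_mem hx] at h2
    rw [indicator_of_mem hx, Pi.one_apply, mul_one]
    exact h2
  · rw [indicator_of_notMem hx, mul_zero]
    exact bot_le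

end chain

end Vale.Agent.P262.H431
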