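import Mathlib
import Vale.Agent.P262.H431.Thr5

/-!
# P262, block THR0, part 6: throughput of one plane rotation on the class 0 chain

`thr0_chain`: below a healthy root label `x0` of `W0`, on the chain `avoid L` (healthy labels
stopped) with parent space `V`, for a deeper label space `W` containing the rotating direction
`theta`, and all exponents `s ≤ 1/2`: the mean of `cap^s * new dead mass / (dead mass)^(1/2)` is at
most `C * phi * (kap^k)^s` times the mean of `cap^s` over the parent labels which are not very sick.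
-/

set_option linter.all false

open MeasureTheory Set Filter ProbabilityTheory
open scoped ENNReal NNReal Topology RealInnerProductSpace

namespace Vale.Agent.P262.H431

open Vale.Agent.P262.H395
open Vale.Agent.P262.H44 (InvS ec Weight weight_dw STree)
open Vale.Agent.P262.H606 (dw continuous_dw FlatD infDist_add)
open Vale.Agent.P262.H962 (PB CB PB_anti isClosed_PB convex_PB zero_mem_PB PB_nonempty flatD_PB
  PB_cyl capS continuous_capS inv_capS)
open Vale.Agent.P262.Cons493 (avoid sT kT reg_sT reg_kT valid_sT valid_kT Chn frz_kT under_kT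
  hkq_kT)
open Vale.Agent.P262.H439 (qq qtip_unit HKQ QH Under measurable_qq qq_le_one inv_qq)
open Vale.Agent.P262.H633 (exp_tail_bound)

variable {E : Type*} [NormedAddCommGroup E] [InnerProductSpace ℝ E] [FiniteDimensional ℝ E]
  [MeasurableSpace E] [BorelSpace E]

section

variable {K K' Kl : Set E} {R q s : ℝ} {l0 l' : List (Submodule ℝ E)}
  {W0 V W : Submodule ℝ E} {L : List (Submodule ℝ E × Set E)}

/-- from the alive mass to the unit of the parent (the very sick labels are dropped) -/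
theorem unit_conv (hKl : IsClosed Kl) (hKlc : Convex ℝ Kl) (hKK : K ⊆ Kl) (hK : IsClosed K)
    (hq : 0 ≤ q) (hε : 2 * (Real.sqrt 2 * Real.exp (-(q / 4))) ≤ 1 / 41)
    (hs : 0 ≤ s) (hs1 : s ≤ 1)
    (h1 : ∀ V ∈ l0, V ≤ W0) (hW0 : W0 ∈ l0 ∨ W0 = ⊥)
    (hLp : (L.map Prod.fst).Pairwise (· < ·)) (hLp0 : ∀ V ∈ L.map Prod.fst, W0 < V)
    (hV0 : W0 ≤ V) (hVL : ∀ p ∈ L, p.1 ≤ V)
    (hVin : InvS V (avoid L))
    (hD : ∀ p ∈ L, MeasurableSet p.2 ∧ InvS p.1 p.2)
    (hgood : ∀ p ∈ L, ∀ x ∈ p.2, ENNReal.ofReal (4 / 5) ≤ fib p.1 (K.indicator 1) x)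
    (x0 : E) (hroot : ENNReal.ofReal (2 / 3) ≤ fib W0 (K.indicator 1) x0) :
    fib W0 ((avoid L).indicator (K.indicator (dw (s / 8) (PB (l0 ++ L.map Prod.fst) q)))) x0 ≤
      2 * fib W0 ((avoid L).indicator ({x | ENNReal.ofReal (Real.exp (-1418)) ≤ qq V Kl x}.indicator
          (dw (s / 8) (PB (l0 ++ L.map Prod.fst) q)))) x0 := by
  set l := l0 ++ L.map Prod.fst with hl
  have hchn : Chn L W0 := Chn.of_list hLp hLp0 hD
  have hregm : MeasurableSet (avoid L) := by
    rw [← reg_sT]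
    exact STree.measurableSet_reg _ (valid_sT hchn)
  have hwm : Measurable (dw (s / 8) (PB l q)) := (continuous_dw _ _).measurable
  have hwi : Inv V (dw (s / 8) (PB l q)) := by
    intro x w hw
    unfold dw
    have hcyl : ∀ x, ∀ w ∈ Vᗮ, (x + w ∈ PB l q ↔ x ∈ PB l q) := by
      intro x w hw
      refine PB_cyl (fun U hU => ?_) x w hw
      rcases List.mem_append.mp hU with h | h
      · exact (h1 U h).trans hV0
      · obtain ⟨p, hp, rfl⟩ := List.mem_map.mp h
        exact hVL p hp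
    rw [infDist_add hcyl x hw]
  have hindi : ∀ f : E → ℝ≥0∞, Inv V f → Inv V ((avoid L).indicator f) := by
    intro f hf x w hw
    by_cases hx : x ∈ avoid L
    · rw [indicator_of_mem hx, indicator_of_mem ((hVin x w hw).mpr hx), hf x w hw]
    · rw [indicator_of_notMem hx, indicator_of_notMem (fun h => hx ((hVin x w hw).mp h))]
  have s2 : fib W0 ((avoid L).indicator (K.indicator (dw (s / 8) (PB l q)))) x0 ≤
      fib W0 ((avoid L).indicator fun x => dw (s / 8) (PB l q) x * qq V Kl x) x0 := by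
    have hm : Measurable ((avoid L).indicator (Kl.indicator (dw (s / 8) (PB l q)))) :=
      (hwm.indicator hKl.measurableSet).indicator hregm
    have e1 : fib V ((avoid L).indicator (Kl.indicator (dw (s / 8) (PB l q)))) =
        (avoid L).indicator fun x => dw (s / 8) (PB l q) x * qq V Kl x := by
      funext x
      have e2 : (avoid L).indicator (Kl.indicator (dw (s / 8) (PB l q))) = fun y =>
          (avoid L).indicator (dw (s / 8) (PB l q)) y * Kl.indicator 1 y := by
        funext y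
        by_cases h : y ∈ avoid L
        · rw [indicator_of_mem h, indicator_of_mem h]
          by_cases h' : y ∈ Kl
          · rw [indicator_of_mem h', indicator_of_mem h', Pi.one_apply, mul_one]
          · rw [indicator_of_notMem h', indicator_of_notMem h', mul_zero]
        · rw [indicator_of_notMem h, indicator_of_notMem h, zero_mul]
      rw [e2, fib_mul (hindi _ hwi) (measurable_one.indicator hKl.measurableSet)]
      by_cases h : x ∈ avoid L
      · rw [indicator_of_mem h, indicator_of_mem h]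
        rfl
      · rw [indicator_of_notMem h, indicator_of_notMem h, zero_mul]
    rw [← e1, fib_tower hV0 hm]
    refine fib_mono (fun y => indicator_le_indicator ?_) x0
    exact indicator_le_indicator_of_subset hKK (fun _ => bot_le) y
  have hgl : ∀ p ∈ L, ∀ x ∈ p.2, ENNReal.ofReal (4 / 5) ≤ fib p.1 (Kl.indicator 1) x :=
    fun p hp x hx => (hgood p hp x hx).trans
      (fib_mono (fun y => indicator_le_indicator_of_subset hKK (fun _ => bot_le) y) x)
  have hF1 : FlatD (1 / 41) W0 (PB l q) (PB l0 q) (CB W0 (L.map Prod.fst) q) :=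
    flatD_PB hε (by norm_num) h1 hW0 hLp hLp0
  have e3 : (kT L).frz ∩ Kl = Kl := by rw [frz_kT, univ_inter]
  have s3 := qtip_unit (c := s / 8) (w := dw (s / 8) (PB l q)) (V := V) (W0 := W0) (K := Kl)
    (T := kT L) (x0 := x0) (by positivity) (by linarith)
    (weight_dw (isClosed_PB l q) (zero_mem_PB l hq) (by positivity) (by linarith)) hKl hKlc
    (valid_kT hchn) (under_kT hVL) hV0
    (fun y _ => hkq_kT hq hε hs hs1 h1 hLp hLp0 hgl y)
    (QH.root (by
        rw [e3]
        exact hroot.trans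
          (fib_mono (fun y => indicator_le_indicator_of_subset hKK (fun _ => bot_le) y) x0))
      (Vale.Agent.P262.H44.flatAt_dw hF1 (by norm_num) (by norm_num) (by norm_num)
        (PB_nonempty _ hq) (by positivity) (by linarith) x0))
  rw [reg_kT] at s3
  exact s2.trans s3

/-- the constant of THR0 -/
noncomputable def cThr : ℝ := 5760 * cL1

lemma cL1_pos : 0 < cL1 := by unfold cL1; positivity

lemma cThr_pos : 0 < cThr := by unfold cThr; have := cL1_pos; positivity

variable {φ A0 kap : ℝ} {θ b b1 b2 : E}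

/-- the assumptions on the flag: root space `W0` (last space of `l0`), chain `L` with its stopped
sets, parent space `V`, spaces `l'` of the deeper levels, label space `W` -/
structure FlagC (l0 l' : List (Submodule ℝ E)) (L : List (Submodule ℝ E × Set E))
    (W0 V W : Submodule ℝ E) : Prop where
  h1 : ∀ V ∈ l0, V ≤ W0
  hW0 : W0 ∈ l0 ∨ W0 = ⊥
  hL : (L.map Prod.fst ++ l').Pairwise (· < ·)
  hL0 : ∀ V ∈ L.map Prod.fst ++ l', W0 < V
  hV0 : W0 ≤ V
  hVL : ∀ p ∈ L, p.1 ≤ V
  hVW : V ≤ W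
  hl' : ∀ U ∈ l', U ≤ W
  hVin : InvS V (avoid L)
  hD : ∀ p ∈ L, MeasurableSet p.2 ∧ InvS p.1 p.2

/-- the assumptions on a plane motion: `theta` a label direction, `b = b1 + b2` -/
structure PlaneC (V W : Submodule ℝ E) (θ b b1 b2 : E) : Prop where
  hθ : ‖θ‖ = 1
  hθW : θ ∈ W
  hθV : θ ∈ Vᗮ
  hb : b = b1 + b2
  hb1W : b1 ∈ W
  hb1V : b1 ∈ Vᗮ
  hb1 : ‖b1‖ ≤ 1
  hb2W : b2 ∈ Wᗮ
  hb2 : ‖b2‖ ≤ 1
  hθb : ⟪θ, b1⟫ = 0

/-- the points of `K` which are lost move out of `K` under a small motion of the plane -/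
def Mot (φ : ℝ) (θ b : E) (K K' : Set E) : Prop :=
  ∀ x ∈ K, x ∉ K' → ∃ α β : ℝ, |α| ≤ φ * (1 + |⟪b, x⟫|) ∧ |β| ≤ φ * (1 + |⟪θ, x⟫|) ∧
    x + (α • θ + β • b) ∉ K

/-- **THR0 on the chain, one body, in terms of the alive mass** -/
theorem thr0_alive (F : FlagC l0 l' L W0 V W) (P : PlaneC V W θ b b1 b2)
    (hK : IsCompact K) (hKc : Convex ℝ K) (hK' : MeasurableSet K')
    (hR : 0 ≤ R) (hKR : K ⊆ Metric.closedBall 0 R) (hφ : 0 ≤ φ)
    (hφR : 4 * φ * (1 + R) ^ 2 ≤ 1) (hM : Mot φ θ b K K')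
    (hq : 100 ≤ q) {a : ℝ} (ha0 : 0 ≤ a) (ha : a ≤ 1 / 16)
    (hgood : ∀ p ∈ L, ∀ x ∈ p.2, ENNReal.ofReal (4 / 5) ≤ fib p.1 (K.indicator 1) x)
    (x0 : E) (hroot : ENNReal.ofReal (2 / 3) ≤ fib W0 (K.indicator 1) x0) :
    fib W0 (fun x => (avoid L).indicator 1 x * (dw a (PB ((l0 ++ L.map Prod.fst) ++ l') q) x *
      rt (fib W (Kᶜ.indicator 1) x) (fib W ((K \ K').indicator 1) x))) x0 ≤
      ENNReal.ofReal (2880 * cL1 * φ) *
        fib W0 ((avoid L).indicator (K.indicator (dw a (PB (l0 ++ L.map Prod.fst) q)))) x0 := by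
  have hLp : (L.map Prod.fst).Pairwise (· < ·) := (List.pairwise_append.mp F.hL).1
  have hLp0 : ∀ V ∈ L.map Prod.fst, W0 < V := fun V hV => F.hL0 V (by simp [hV])
  have hchn : Chn L W0 := Chn.of_list hLp hLp0 F.hD
  have hregm : MeasurableSet (avoid L) := by
    rw [← reg_sT]
    exact STree.measurableSet_reg _ (valid_sT hchn)
  set w : E → ℝ≥0∞ := dw a (PB ((l0 ++ L.map Prod.fst) ++ l') q) with hw
  set T := fib W0 ((avoid L).indicator (K.indicator (dw a (PB (l0 ++ L.map Prod.fst) q)))) x0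
    with hT
  have hwi : Inv W w := by
    intro x v hv
    rw [hw]
    unfold dw
    have hcyl : ∀ x, ∀ v ∈ Wᗮ, (x + v ∈ PB ((l0 ++ L.map Prod.fst) ++ l') q ↔
        x ∈ PB ((l0 ++ L.map Prod.fst) ++ l') q) := by
      intro x v hv
      refine PB_cyl (fun U hU => ?_) x v hv
      rcases List.mem_append.mp hU with h | h
      · rcases List.mem_append.mp h with h | h
        · exact ((F.h1 U h).trans F.hV0).trans F.hVW
        · obtain ⟨p, hp, rfl⟩ := List.mem_map.mp h
          exact (F.hVL p hp).trans F.hVW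
      · exact F.hl' U h
    rw [infDist_add hcyl x hv]
  have hOi : Inv V ((avoid L).indicator (1 : E → ℝ≥0∞)) := by
    intro x v hv
    by_cases hx : x ∈ avoid L
    · rw [indicator_of_mem hx, indicator_of_mem ((F.hVin x v hv).mpr hx)]
      rfl
    · rw [indicator_of_notMem hx, indicator_of_notMem (fun h => hx ((F.hVin x v hv).mp h))]
  have key := thr0_half (W00 := W0) (W0 := V) (W := W) (w := w)
    (Om := (avoid L).indicator 1) hKc hK hK' hR hKR hφ hφR P.hθ P.hθW P.hθV P.hb P.hb1W P.hb1V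
    P.hb1 P.hb2W P.hb2 P.hθb hM (continuous_dw _ _) (fun x => dw_ne_top' _ _ x) hwi
    (measurable_one.indicator hregm) hOi F.hVW F.hV0 x0
  refine key.trans ?_
  -- the line terms
  have line : ∀ {u e : E}, ‖u‖ ≤ 1 → u ∈ Vᗮ → UZ e → e ∈ Vᗮ → ⟪u, e⟫ = 0 →
      fib W0 (fun x => (avoid L).indicator 1 x * (ENNReal.ofReal (1 + |⟪u, x⟫|) * mL w K e x)) x0 ≤
      ENNReal.ofReal cL1 * T := fun hu hu' he he' hue =>
    term_line hKc hK hKR hq ha0 ha F.h1 F.hW0 F.hL F.hL0 F.hV0 F.hVL F.hD hgood hu hu' he he' hue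
      x0 hroot
  have hb2V : b2 ∈ Vᗮ := Submodule.orthogonal_le F.hVW P.hb2W
  have u1 : UZ (‖b1‖⁻¹ • b1) := UZ_normalize b1
  have u2 : UZ (‖b2‖⁻¹ • b2) := UZ_normalize b2
  have hb1θ : ⟪b1, θ⟫ = 0 := by rw [real_inner_comm]; exact P.hθb
  have hθb2 : ⟪θ, b2⟫ = 0 := (Submodule.mem_orthogonal W b2).mp P.hb2W θ P.hθW
  have hb2θ : ⟪b2, θ⟫ = 0 := by rw [real_inner_comm]; exact hθb2
  -- pulling out the angle
  have pull : ∀ f : E → ℝ≥0∞, fib W0 (fun x => ENNReal.ofReal φ * f x) x0 =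
      ENNReal.ofReal φ * fib W0 f x0 := by
    intro f
    unfold fib
    rw [lintegral_const_mul' _ _ ENNReal.ofReal_ne_top]
  have gBe : ∀ x, gB φ θ x = ENNReal.ofReal φ * ENNReal.ofReal (1 + |⟪θ, x⟫|) := fun x => by
    unfold gB
    rw [ENNReal.ofReal_mul hφ]
  have gAe : ∀ x, gA φ b1 b2 x ≤ ENNReal.ofReal φ * (ENNReal.ofReal (1 + |⟪b1, x⟫|) +
      ENNReal.ofReal (1 + |⟪b2, x⟫|)) := by
    intro x
    unfold gA
    rw [← ENNReal.ofReal_add (by positivity) (by positivity), ← ENNReal.ofReal_mul hφ]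
    apply ENNReal.ofReal_le_ofReal
    nlinarith
  have tB : ∀ {e : E}, UZ e → e ∈ Vᗮ → ⟪θ, e⟫ = 0 →
      fib W0 (fun x => (avoid L).indicator 1 x * (gB φ θ x * mL w K e x)) x0 ≤
      ENNReal.ofReal φ * (ENNReal.ofReal cL1 * T) := by
    intro e he he' hθe
    have e1 : ∀ x, (avoid L).indicator 1 x * (gB φ θ x * mL w K e x) = ENNReal.ofReal φ *
        ((avoid L).indicator 1 x * (ENNReal.ofReal (1 + |⟪θ, x⟫|) * mL w K e x)) := by
      intro x
      rw [gBe]
      ring
    simp only [e1]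
    rw [pull]
    exact mul_le_mul' le_rfl (line P.hθ.le P.hθV he he' hθe)
  have tA : fib W0 (fun x => (avoid L).indicator 1 x * (gA φ b1 b2 x * mL w K θ x)) x0 ≤
      ENNReal.ofReal φ * (ENNReal.ofReal cL1 * T + ENNReal.ofReal cL1 * T) := by
    have e1 : ∀ x, (avoid L).indicator 1 x * (gA φ b1 b2 x * mL w K θ x) ≤ ENNReal.ofReal φ *
        (((avoid L).indicator 1 x * (ENNReal.ofReal (1 + |⟪b1, x⟫|) * mL w K θ x)) +
          ((avoid L).indicator 1 x * (ENNReal.ofReal (1 + |⟪b2, x⟫|) * mL w K θ x))) := by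
      intro x
      calc _ ≤ (avoid L).indicator 1 x * ((ENNReal.ofReal φ * (ENNReal.ofReal (1 + |⟪b1, x⟫|) +
            ENNReal.ofReal (1 + |⟪b2, x⟫|))) * mL w K θ x) :=
            mul_le_mul' le_rfl (mul_le_mul' (gAe x) le_rfl)
        _ = _ := by ring
    have hmw : Measurable (mL w K θ) :=
      (usc_mL P.hθ (continuous_dw _ _) (fun x => dw_ne_top' _ _ x) hK).measurable
    have hm1 : Measurable fun x => (avoid L).indicator (1 : E → ℝ≥0∞) x *
        (ENNReal.ofReal (1 + |⟪b1, x⟫|) * mL w K θ x) := by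
      refine (measurable_one.indicator hregm).mul (Measurable.mul ?_ hmw)
      fun_prop
    refine (fib_mono e1 x0).trans ?_
    rw [pull, fib_add hm1]
    exact mul_le_mul' le_rfl (add_le_add (line P.hb1 P.hb1V (Or.inl P.hθ) P.hθV hb1θ)
      (line P.hb2 hb2V (Or.inl P.hθ) P.hθV hb2θ))
  have tC : fib W0 (fun x => (avoid L).indicator 1 x * (gB φ θ x * (w x * K.indicator 1 x))) x0 ≤
      ENNReal.ofReal φ * (ENNReal.ofReal cL1 * T) := by
    have e1 : ∀ x, (avoid L).indicator 1 x * (gB φ θ x * (w x * K.indicator 1 x)) =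
        ENNReal.ofReal φ * ((avoid L).indicator 1 x *
          (ENNReal.ofReal (1 + |⟪θ, x⟫|) * (w x * K.indicator 1 x))) := by
      intro x
      rw [gBe]
      ring
    simp only [e1]
    rw [pull]
    exact mul_le_mul' le_rfl (term_alive hKc hK hKR hq ha0 ha F.h1 F.hW0 F.hL F.hL0 F.hV0 F.hVL
      F.hD hgood P.hθ.le P.hθV x0 hroot)
  have tB1 := tB u1 (Submodule.smul_mem _ _ P.hb1V) (by rw [inner_smul_right, P.hθb, mul_zero])
  have tB2 := tB u2 (Submodule.smul_mem _ _ hb2V) (by rw [inner_smul_right, hθb2, mul_zero])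
  calc _ ≤ 576 * ((ENNReal.ofReal φ * (ENNReal.ofReal cL1 * T + ENNReal.ofReal cL1 * T)) +
        ENNReal.ofReal φ * (ENNReal.ofReal cL1 * T) + ENNReal.ofReal φ * (ENNReal.ofReal cL1 * T) +
        ENNReal.ofReal φ * (ENNReal.ofReal cL1 * T)) :=
        mul_le_mul' le_rfl (add_le_add (add_le_add (add_le_add tA tB1) tB2) tC)
    _ = _ := by
        have e2 : ENNReal.ofReal (2880 * cL1 * φ) =
            2880 * (ENNReal.ofReal cL1 * ENNReal.ofReal φ) := by
          rw [ENNReal.ofReal_mul (by have := cL1_pos; positivity), ENNReal.ofReal_mul (by norm_num)]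
          simp only [ENNReal.ofReal_ofNat]
          ring
        rw [e2]
        ring

/-- **THR0 on the class 0 chain.** -/
theorem thr0_chain (F : FlagC l0 l' L W0 V W) (P : PlaneC V W θ b b1 b2)
    (hK : IsCompact K) (hKc : Convex ℝ K) (hK' : MeasurableSet K')
    (hKl : IsClosed Kl) (hKlc : Convex ℝ Kl) (hKK : K ⊆ Kl)
    (hR : 0 ≤ R) (hKR : K ⊆ Metric.closedBall 0 R) (hφ : 0 ≤ φ)
    (hφR : 4 * φ * (1 + R) ^ 2 ≤ 1) (hM : Mot φ θ b K K')
    (hq : 100 ≤ q) (hs : 0 ≤ s) (hs1 : s ≤ 1 / 2) (hA : 0 < A0) (hk : 0 < kap)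
    (hgood : ∀ p ∈ L, ∀ x ∈ p.2, ENNReal.ofReal (4 / 5) ≤ fib p.1 (K.indicator 1) x)
    (x0 : E) (hroot : ENNReal.ofReal (2 / 3) ≤ fib W0 (K.indicator 1) x0) :
    fib W0 ((avoid L).indicator fun x => capS A0 kap q s ((l0 ++ L.map Prod.fst) ++ l') W x *
      rt (fib W (Kᶜ.indicator 1) x) (fib W ((K \ K').indicator 1) x)) x0 ≤
      ENNReal.ofReal (cThr * φ * (kap ^ (Module.finrank ℝ W - Module.finrank ℝ V)) ^ s) *
        fib W0 ((avoid L).indicator ({x | ENNReal.ofReal (Real.exp (-1418)) ≤ qq V Kl x}.indicator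
          (capS A0 kap q s (l0 ++ L.map Prod.fst) V))) x0 := by
  have hLp : (L.map Prod.fst).Pairwise (· < ·) := (List.pairwise_append.mp F.hL).1
  have hLp0 : ∀ V ∈ L.map Prod.fst, W0 < V := fun V hV => F.hL0 V (by simp [hV])
  have hchn : Chn L W0 := Chn.of_list hLp hLp0 F.hD
  have hregm : MeasurableSet (avoid L) := by
    rw [← reg_sT]
    exact STree.measurableSet_reg _ (valid_sT hchn)
  have hb4 : Real.sqrt 2 * Real.exp (-(q / 4)) ≤ 1 / 300 := exp_tail_bound (by linarith)
  have s1 := thr0_alive (a := s / 8) F P hK hKc hK' hR hKR hφ hφR hM hq (by positivity)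
    (by linarith) hgood x0 hroot
  have s2 := unit_conv (s := s) (q := q) (K := K) (Kl := Kl) (V := V) hKl hKlc hKK hK.isClosed
    (by linarith) (by linarith) hs (by linarith) F.h1 F.hW0 hLp hLp0 F.hV0 F.hVL F.hVin F.hD hgood
    x0 hroot
  set G : Set E := {x | ENNReal.ofReal (Real.exp (-1418)) ≤ qq V Kl x} with hG
  set U := fib W0 ((avoid L).indicator (G.indicator (dw (s / 8) (PB (l0 ++ L.map Prod.fst) q)))) x0
    with hU
  have eL : fib W0 ((avoid L).indicator fun x =>
      capS A0 kap q s ((l0 ++ L.map Prod.fst) ++ l') W x *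
        rt (fib W (Kᶜ.indicator 1) x) (fib W ((K \ K').indicator 1) x)) x0 =
      ENNReal.ofReal ((A0 * kap ^ Module.finrank ℝ W) ^ s) *
        fib W0 (fun x => (avoid L).indicator 1 x *
          (dw (s / 8) (PB ((l0 ++ L.map Prod.fst) ++ l') q) x *
          rt (fib W (Kᶜ.indicator 1) x) (fib W ((K \ K').indicator 1) x))) x0 := by
    have e0 : ∀ f : E → ℝ≥0∞, fib W0 (fun x => ENNReal.ofReal ((A0 * kap ^ Module.finrank ℝ W) ^ s) *
        f x) x0 = ENNReal.ofReal ((A0 * kap ^ Module.finrank ℝ W) ^ s) * fib W0 f x0 := by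
      intro f
      unfold fib
      rw [lintegral_const_mul' _ _ ENNReal.ofReal_ne_top]
    rw [← e0]
    congr 1
    funext y
    by_cases h : y ∈ avoid L
    · rw [indicator_of_mem h, indicator_of_mem h, Pi.one_apply, one_mul]
      unfold capS
      ring
    · rw [indicator_of_notMem h, indicator_of_notMem h, zero_mul, mul_zero]
  have eR : fib W0 ((avoid L).indicator (G.indicator
      (capS A0 kap q s (l0 ++ L.map Prod.fst) V))) x0 =
      ENNReal.ofReal ((A0 * kap ^ Module.finrank ℝ V) ^ s) * U := by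
    have e0 : ∀ f : E → ℝ≥0∞, fib W0 (fun x => ENNReal.ofReal ((A0 * kap ^ Module.finrank ℝ V) ^ s) *
        f x) x0 = ENNReal.ofReal ((A0 * kap ^ Module.finrank ℝ V) ^ s) * fib W0 f x0 := by
      intro f
      unfold fib
      rw [lintegral_const_mul' _ _ ENNReal.ofReal_ne_top]
    rw [hU, ← e0]
    congr 1
    funext y
    by_cases h : y ∈ avoid L
    · rw [indicator_of_mem h, indicator_of_mem h]
      by_cases h' : y ∈ G
      · rw [indicator_of_mem h', indicator_of_mem h']
        rfl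
      · rw [indicator_of_notMem h', indicator_of_notMem h', mul_zero]
    · rw [indicator_of_notMem h, indicator_of_notMem h, mul_zero]
  have h4 : A0 * kap ^ Module.finrank ℝ W =
      kap ^ (Module.finrank ℝ W - Module.finrank ℝ V) * (A0 * kap ^ Module.finrank ℝ V) := by
    have : kap ^ Module.finrank ℝ W =
        kap ^ (Module.finrank ℝ W - Module.finrank ℝ V) * kap ^ Module.finrank ℝ V := by
      rw [← pow_add, Nat.sub_add_cancel (Submodule.finrank_mono F.hVW)]
    rw [this]; ring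
  have hc := cL1_pos
  have e5 : ENNReal.ofReal (cThr * φ * (kap ^ (Module.finrank ℝ W - Module.finrank ℝ V)) ^ s) =
      ENNReal.ofReal ((kap ^ (Module.finrank ℝ W - Module.finrank ℝ V)) ^ s) *
        (ENNReal.ofReal (2880 * cL1 * φ) * 2) := by
    rw [show (2 : ℝ≥0∞) = ENNReal.ofReal 2 by norm_num, ← ENNReal.ofReal_mul (by positivity),
      ← ENNReal.ofReal_mul (by positivity)]
    congr 1
    unfold cThr
    ring
  rw [eL, eR, h4, Real.mul_rpow (by positivity) (by positivity),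
    ENNReal.ofReal_mul (by positivity), e5]
  calc ENNReal.ofReal ((kap ^ (Module.finrank ℝ W - Module.finrank ℝ V)) ^ s) *
        ENNReal.ofReal ((A0 * kap ^ Module.finrank ℝ V) ^ s) * _
      ≤ ENNReal.ofReal ((kap ^ (Module.finrank ℝ W - Module.finrank ℝ V)) ^ s) *
        ENNReal.ofReal ((A0 * kap ^ Module.finrank ℝ V) ^ s) *
        (ENNReal.ofReal (2880 * cL1 * φ) * (2 * U)) :=
        mul_le_mul' le_rfl (s1.trans (mul_le_mul' le_rfl s2))
    _ = _ := by ring

end

end Vale.Agent.P262.H431
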