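import Mathlib
import Vale.Agent.P262.H431.Thr6
import Vale.Agent.P262.H118.Rot

/-!
# P262, block THR0, part 7: plane rotations as motions, and the symmetric two body form
-/

set_option linter.all false

open MeasureTheory Set Filter ProbabilityTheory
open scoped ENNReal NNReal Topology RealInnerProductSpace

namespace Vale.Agent.P262.H431

open Vale.Agent.P262.H395
open Vale.Agent.P262.H118 (ON rotL rotE rotE_apply rotE_symm_apply rotL_apply)

variable {E : Type*} [NormedAddCommGroup E] [InnerProductSpace ℝ E] [FiniteDimensional ℝ E]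
  [MeasurableSpace E] [BorelSpace E]

/-! ### rotations -/

omit [FiniteDimensional ℝ E] [MeasurableSpace E] [BorelSpace E] in
/-- the displacement of a plane rotation -/
lemma rotL_disp {θ b x : E} {ψ φ R : ℝ} (hφ : |ψ| ≤ φ) (hφR : φ * R ≤ 2)
    (hθ : ‖θ‖ = 1) (hb : ‖b‖ = 1) (hx : ‖x‖ ≤ R) :
    ∃ α β : ℝ, |α| ≤ φ * (1 + |⟪b, x⟫|) ∧ |β| ≤ φ * (1 + |⟪θ, x⟫|) ∧
      rotL θ b ψ x = x + (α • θ + β • b) := by
  have hφ0 : 0 ≤ φ := (abs_nonneg _).trans hφ
  have hc : |Real.cos ψ - 1| ≤ φ ^ 2 / 2 := by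
    have h1 := Real.one_sub_sq_div_two_le_cos (x := ψ)
    have h2 := Real.cos_le_one ψ
    have h3 : ψ ^ 2 ≤ φ ^ 2 := by
      rw [← sq_abs ψ]
      exact pow_le_pow_left₀ (abs_nonneg _) hφ 2
    rw [abs_le]
    constructor <;> linarith
  have hs : |Real.sin ψ| ≤ φ := (Real.abs_sin_le_abs (x := ψ)).trans hφ
  have hR : 0 ≤ R := (norm_nonneg x).trans hx
  have key : ∀ u w : E, ‖u‖ = 1 → ∀ a : ℝ, |a| ≤ φ ^ 2 / 2 → ∀ c : ℝ, |c| ≤ φ →
      |a * ⟪u, x⟫ + c * ⟪w, x⟫| ≤ φ * (1 + |⟪w, x⟫|) := by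
    intro u w hu a ha c hc
    have h1 : |⟪u, x⟫| ≤ R := by
      refine (abs_real_inner_le_norm u x).trans ?_
      rw [hu, one_mul]; exact hx
    have h2 : |a * ⟪u, x⟫| ≤ φ ^ 2 / 2 * R := by
      rw [abs_mul]
      exact mul_le_mul ha h1 (abs_nonneg _) (by positivity)
    have h3 : |c * ⟪w, x⟫| ≤ φ * |⟪w, x⟫| := by
      rw [abs_mul]
      exact mul_le_mul_of_nonneg_right hc (abs_nonneg _)
    have h4 : φ ^ 2 / 2 * R ≤ φ := by nlinarith
    have h5 := abs_add_le (a * ⟪u, x⟫) (c * ⟪w, x⟫)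
    nlinarith
  refine ⟨(Real.cos ψ - 1) * ⟪θ, x⟫ + (-Real.sin ψ) * ⟪b, x⟫,
    (Real.cos ψ - 1) * ⟪b, x⟫ + Real.sin ψ * ⟪θ, x⟫, ?_, ?_, ?_⟩
  · exact key θ b hθ _ hc _ (by rwa [abs_neg])
  · exact key b θ hb _ hc _ hs
  · rw [rotL_apply]
    have e1 : (Real.cos ψ - 1) * ⟪θ, x⟫ - Real.sin ψ * ⟪b, x⟫ =
        (Real.cos ψ - 1) * ⟪θ, x⟫ + (-Real.sin ψ) * ⟪b, x⟫ := by ring
    have e2 : Real.sin ψ * ⟪θ, x⟫ + (Real.cos ψ - 1) * ⟪b, x⟫ =
        (Real.cos ψ - 1) * ⟪b, x⟫ + Real.sin ψ * ⟪θ, x⟫ := by ring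
    rw [e1, e2, add_assoc]

omit [FiniteDimensional ℝ E] [MeasurableSpace E] [BorelSpace E] in
/-- the motion from `K` to its preimage under a rotation -/
theorem mot_rot {θ b : E} (h : ON θ b) {φ R : ℝ} (hφ : 0 ≤ φ) (hφR : φ * R ≤ 2) {K : Set E}
    (hKR : K ⊆ Metric.closedBall 0 R) : Mot φ θ b K ((fun x => rotE h φ x) ⁻¹' K) := by
  intro x hx hx'
  obtain ⟨α, β, h1, h2, h3⟩ := rotL_disp (ψ := φ) (φ := φ) (R := R) (by rw [abs_of_nonneg hφ]) hφR
    h.hp h.hq (by simpa using hKR hx)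
  refine ⟨α, β, h1, h2, ?_⟩
  rw [← h3]
  exact hx'

omit [FiniteDimensional ℝ E] [MeasurableSpace E] [BorelSpace E] in
/-- the motion back -/
theorem mot_rot_symm {θ b : E} (h : ON θ b) {φ R : ℝ} (hφ : 0 ≤ φ) (hφR : φ * R ≤ 2) {K : Set E}
    (hKR : K ⊆ Metric.closedBall 0 R) : Mot φ θ b ((fun x => rotE h φ x) ⁻¹' K) K := by
  intro x hx hx'
  have hxR : ‖x‖ ≤ R := by
    have h1 : rotE h φ x ∈ K := hx
    have h2 : ‖rotE h φ x‖ ≤ R := by simpa using hKR h1
    rwa [(rotE h φ).norm_map] at h2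
  obtain ⟨α, β, h1, h2, h3⟩ := rotL_disp (ψ := -φ) (φ := φ) (R := R)
    (by rw [abs_neg, abs_of_nonneg hφ]) hφR h.hp h.hq hxR
  refine ⟨α, β, h1, h2, ?_⟩
  rw [← h3, mem_preimage]
  have h4 : rotE h φ (rotL θ b (-φ) x) = x := by
    rw [← rotE_symm_apply h φ x, LinearIsometryEquiv.apply_symm_apply]
  rw [h4]
  exact hx'

omit [MeasurableSpace E] [BorelSpace E] in
/-- the plane of a rotation of the node with label space `Wj`, seen from a deeper label space `W` -/
theorem planeC_of {V Wj W : Submodule ℝ E} (hVj : V ≤ Wj) (hjW : Wj ≤ W) {θ b : E} (h : ON θ b)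
    (hθ : θ ∈ Wj) (hθV : θ ∈ Vᗮ) (hb : b ∈ Wjᗮ) :
    PlaneC V W θ b (W.starProjection b) (b - W.starProjection b) := by
  have hbV : b ∈ Vᗮ := Submodule.orthogonal_le hVj hb
  have h2 : b - W.starProjection b ∈ Wᗮ := Submodule.sub_starProjection_mem_orthogonal _
  have h1 : W.starProjection b ∈ W := Submodule.starProjection_apply_mem _ _
  have h2V : b - W.starProjection b ∈ Vᗮ := Submodule.orthogonal_le (hVj.trans hjW) h2
  refine ⟨h.hp, hjW hθ, hθV, by abel, h1, ?_, ?_, h2, ?_, ?_⟩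
  · have : W.starProjection b = b - (b - W.starProjection b) := by abel
    rw [this]
    exact Submodule.sub_mem _ hbV h2V
  · exact (W.norm_starProjection_apply_le b).trans (le_of_eq h.hq)
  · have e1 : b - W.starProjection b = (Wᗮ).starProjection b :=
      (Submodule.starProjection_orthogonal_val (K := W) b).symm
    rw [e1]
    exact ((Wᗮ).norm_starProjection_apply_le b).trans (le_of_eq h.hq)
  · have e1 : ⟪θ, b - W.starProjection b⟫ = 0 := (Submodule.mem_orthogonal W _).mp h2 θ (hjW hθ)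
    rw [inner_sub_right, h.hpq] at e1
    linarith

/-! ### the symmetric form -/

/-- the two losses and the joint deficit -/
theorem sym_form {W : Submodule ℝ E} {K K' : Set E} (hK : MeasurableSet K)
    (hK' : MeasurableSet K') (x : E) :
    fib W ((symmDiff K K').indicator 1) x / (fib W ((K ∩ K')ᶜ.indicator 1) x) ^ (1 / 2 : ℝ) =
      rt (fib W (Kᶜ.indicator 1) x) (fib W ((K \ K').indicator 1) x) +
      rt (fib W (K'ᶜ.indicator 1) x) (fib W ((K' \ K).indicator 1) x) := by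
  have e1 : fib W ((symmDiff K K').indicator 1) x =
      fib W ((K \ K').indicator 1) x + fib W ((K' \ K).indicator 1) x := by
    rw [← fib_add (measurable_one.indicator (hK.diff hK'))]
    congr 1
    funext y
    by_cases h1 : y ∈ K
    · by_cases h2 : y ∈ K'
      · rw [indicator_of_notMem (show y ∉ symmDiff K K' by
            rw [mem_symmDiff]; tauto), indicator_of_notMem (fun h => h.2 h2),
          indicator_of_notMem (fun h => h.2 h1), add_zero]
      · rw [indicator_of_mem (show y ∈ symmDiff K K' by rw [mem_symmDiff]; tauto),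
          indicator_of_mem (show y ∈ K \ K' from ⟨h1, h2⟩), indicator_of_notMem (fun h => h2 h.1),
          add_zero]
    · by_cases h2 : y ∈ K'
      · rw [indicator_of_mem (show y ∈ symmDiff K K' by rw [mem_symmDiff]; tauto),
          indicator_of_notMem (fun h => h1 h.1), indicator_of_mem (show y ∈ K' \ K from ⟨h2, h1⟩),
          zero_add]
      · rw [indicator_of_notMem (show y ∉ symmDiff K K' by
            rw [mem_symmDiff]; tauto), indicator_of_notMem (fun h => h1 h.1),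
          indicator_of_notMem (fun h => h2 h.1), add_zero]
  have e2 : ∀ {A B : Set E}, MeasurableSet A → MeasurableSet B →
      fib W (Aᶜ.indicator 1) x + fib W ((A \ B).indicator 1) x =
        fib W ((A ∩ B)ᶜ.indicator 1) x := by
    intro A B hA hB
    rw [← fib_add (measurable_one.indicator hA.compl)]
    congr 1
    funext y
    by_cases h1 : y ∈ A
    · by_cases h2 : y ∈ B
      · rw [indicator_of_notMem (show y ∉ Aᶜ from fun h => h h1),
          indicator_of_notMem (show y ∉ A \ B from fun h => h.2 h2),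
          indicator_of_notMem (show y ∉ (A ∩ B)ᶜ from fun h => h ⟨h1, h2⟩), add_zero]
      · rw [indicator_of_notMem (show y ∉ Aᶜ from fun h => h h1),
          indicator_of_mem (show y ∈ A \ B from ⟨h1, h2⟩), indicator_of_mem (show y ∈ (A ∩ B)ᶜ from fun h => h2 h.2), zero_add]
    · rw [indicator_of_mem (show y ∈ Aᶜ from h1), indicator_of_notMem (fun h => h1 h.1),
        indicator_of_mem (show y ∈ (A ∩ B)ᶜ from fun h => h1 h.1), add_zero]
  unfold rt
  rw [e1, e2 hK hK', e2 hK' hK, inter_comm K' K, ENNReal.add_div]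

/-- `Δ / D^th ≤ Δ / D^(1/2)` for `th ≤ 1/2`, `D ≤ 1`, `Δ ≤ D` -/
lemma div_rpow_le {D u : ℝ≥0∞} (hD : D ≤ 1) (hu : u ≤ D) {th : ℝ} (h0 : 0 ≤ th)
    (h1 : th ≤ 1 / 2) : u / D ^ th ≤ u / D ^ (1 / 2 : ℝ) := by
  apply ENNReal.div_le_div_left
  exact ENNReal.rpow_le_rpow_of_exponent_ge hD h1

/-- the weight of the label in terms of its cap -/
lemma weight_le {A D u : ℝ≥0∞} (hD : D ≤ 1) (hu : u ≤ D) (hDt : D ≠ ⊤) {th : ℝ} (h0 : 0 ≤ th)
    (h1 : th ≤ 1 / 2) :
    (A / max A D) ^ th * u ≤ A ^ th * (u / D ^ (1 / 2 : ℝ)) := by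
  rcases eq_or_ne D 0 with hD0 | hD0
  · rw [hD0] at hu
    rw [le_antisymm hu bot_le, mul_zero]
    exact bot_le
  calc (A / max A D) ^ th * u ≤ (A / D) ^ th * u := by
        refine mul_le_mul' (ENNReal.rpow_le_rpow ?_ h0) le_rfl
        exact ENNReal.div_le_div_left (le_max_right _ _) _
    _ = A ^ th * (u / D ^ th) := by
        rw [ENNReal.div_rpow_of_nonneg _ _ h0]
        rw [ENNReal.div_eq_inv_mul, ENNReal.div_eq_inv_mul]
        ring
    _ ≤ _ := mul_le_mul' le_rfl (div_rpow_le hD hu h0 h1)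

end Vale.Agent.P262.H431
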