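import Mathlib
import Vale.Agent.P262.H431.Thr7
import Vale.Agent.P262.H395.CW4

/-!
# P262, block THR0, part 8: throughput of a plane rotation at class 0 parents, on class paths

The abstract setting of the conservation inequality (H395/CW4): `W` = label spaces of the paths,
`cls`, `om` = classes and counted labels, all read at the same point.  `thr_zero`: the node
`0 :: p` is rotated, `u ++ (0 :: p)` is any (virtual) descendant, `K` its body before, `K'` after.
-/

set_option linter.all false

open MeasureTheory ProbabilityTheory Set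
open scoped ENNReal NNReal RealInnerProductSpace

namespace Vale.Agent.P262.H431

open Vale.Agent.P262.H395 Vale.Agent.P262.H395.CW Vale.Agent.P262.H962
open Vale.Agent.P262.H44 (InvS)
open Vale.Agent.P262.H439 (qq measurable_qq qq_le_one inv_qq)
open Vale.Agent.P262.Cons493

variable {E : Type*} [NormedAddCommGroup E] [InnerProductSpace ℝ E] [FiniteDimensional ℝ E]
  [MeasurableSpace E] [BorelSpace E]

variable {W : List ℕ → Submodule ℝ E} {cls : List ℕ → E → ℕ} {om : List ℕ → Set E}
  {p : List ℕ}

omit [FiniteDimensional ℝ E] [MeasurableSpace E] [BorelSpace E] in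
lemma chf_append (a s t : List ℕ) : chf W a (t ++ s) = chf W a s ++ chf W (s ++ a) t := by
  induction t with
  | nil => simp [chf]
  | cons c t ih =>
    rw [List.cons_append, chf, ih, chf, List.append_assoc, List.append_assoc]

/-- classes of the chain below the last ancestor of class at least one -/
lemma chain_zero {a s0 : List ℕ} {c' : ℕ} (hs0 : ∀ d ∈ s0, d = 0) {d : ℕ} {r : List ℕ}
    (h1 : (d :: r) <:+ (s0 ++ [c']) ++ a) (h2 : a <:+ r) (h3 : r ≠ a) : d = 0 := by
  obtain ⟨u, hu⟩ := h2
  have hune : u ≠ [] := by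
    intro h; rw [h] at hu; exact h3 (by simpa using hu.symm)
  obtain ⟨v, hv⟩ := h1
  have e1 : v ++ (d :: (u ++ a)) = s0 ++ [c'] ++ a := by
    rw [hu, hv]
  have e2 : (v ++ (d :: u)) ++ a = (s0 ++ [c']) ++ a := by
    rw [← e1]; simp
  have e3 : v ++ (d :: u) = s0 ++ [c'] := List.append_cancel_right e2
  have hmem : d ∈ s0 := by
    rcases List.eq_nil_or_concat u with h | ⟨u', z, h⟩
    · exact absurd h hune
    · rw [h] at e3
      have e4 : (v ++ (d :: u')) ++ [z] = s0 ++ [c'] := by rw [← e3]; simp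
      have e5 := (List.append_inj' e4 rfl).1
      rw [← e5]; simp
  exact hs0 d hmem

section zero

variable {A0 kap q th : ℝ} {b0 : ℝ≥0∞} {K K' : Set E}

/-- **THR0, integrated over all labels, one body.**  `K` = body of the descendant
`u ++ (0 :: p)` before the move, `K'` = after. -/
theorem thr_zero (h0 : W [] = ⊥) {u : List ℕ} (hW : SI W (u ++ (0 :: p))) (hL : Lab W cls om p)
    (hq : 100 ≤ q) (hth : 0 ≤ th) (hth1 : th ≤ 1 / 2) (hA : 0 < A0) (hk : 0 < kap)
    (hk1 : kap ≤ 1 / 100)
    (hAb : ENNReal.ofReal A0 ≤ b0) (hb : b0 ≠ ⊤)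
    (hK : IsClosed K) (hKc : Convex ℝ K) {R : ℝ} (hR : 0 ≤ R) (hKR : K ⊆ Metric.closedBall 0 R)
    (hK' : MeasurableSet K') {φ : ℝ} (hφ : 0 ≤ φ) (hφR : 4 * φ * (1 + R) ^ 2 ≤ 1)
    {θ b b1 b2 : E} (P : PlaneC (W p) (W (u ++ (0 :: p))) θ b b1 b2) (hM : Mot φ θ b K K')
    (hroot : ∀ x, cls [] x ≠ 0)
    (homk : ∀ r, r <:+ p → om r ⊆ {x | capS A0 kap q 1 (pl W r) (W r) x ≤ b0})
    (hom0 : ∀ r, r <:+ p → ∀ x, cls r x = 0 → x ∈ nk W A0 kap q b0 r → x ∈ om r)
    (hgood : ∀ r, r <:+ p → ∀ x, cls r x ≠ 0 → x ∈ nk W A0 kap q b0 r →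
      fib (W r) (Kᶜ.indicator 1) x ≤ ENNReal.ofReal (1 / 8)) :
    ∫⁻ x, (OMc cls om p 0).indicator 1 x *
        (capS A0 kap q th (pl W (u ++ (0 :: p))) (W (u ++ (0 :: p))) x *
          rt (fib (W (u ++ (0 :: p))) (Kᶜ.indicator 1) x)
            (fib (W (u ++ (0 :: p))) ((K \ K').indicator 1) x)) ∂(stdGaussian E) ≤
      ENNReal.ofReal (cThr * φ *
        (kap ^ (Module.finrank ℝ (W (u ++ (0 :: p))) - Module.finrank ℝ (W p))) ^ th) *
      ∫⁻ x, (OMc cls om p 0).indicator 1 x *
        ({x | ENNReal.ofReal (Real.exp (-1418)) ≤ qq (W p) K x}.indicator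
          (capS A0 kap q th (pl W p) (W p)) x) ∂(stdGaussian E) := by
  have hb0 : b0 ≠ 0 := by
    intro h
    rw [h, nonpos_iff_eq_zero, ENNReal.ofReal_eq_zero] at hAb
    linarith
  have hb4 : Real.sqrt 2 * Real.exp (-(q / 4)) ≤ 1 / 300 :=
    Vale.Agent.P262.H633.exp_tail_bound (by linarith)
  have hε : 2 * (Real.sqrt 2 * Real.exp (-(q / 4))) ≤ 1 / 41 := by linarith
  set rr := u ++ (0 :: p) with hrr
  have hprr : p <:+ rr := ⟨u ++ [0], by rw [hrr]; simp⟩
  have hWp : SI W p := hW.suffix hprr
  have hKm := hK.measurableSet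
  -- points of `OMp` are not killed
  have hnk : ∀ r, r <:+ p → ∀ x, (∀ t, t <:+ r → x ∈ om t) → x ∈ nk W A0 kap q b0 r := by
    intro r
    induction r with
    | nil => intro _ x _; rw [nk_nil]; trivial
    | cons c r ih =>
      intro hr x hx
      rw [nk_cons]
      exact ⟨ih ((List.suffix_cons c r).trans hr) x fun t ht => hx t
        (ht.trans (List.suffix_cons c r)), homk _ hr (hx _ (List.suffix_refl _))⟩
  rcases exists_chain p with hz | ⟨s0, c', a, hc', hs0, hpa⟩
  · -- no ancestor of class at least one: empty region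
    have hempty : ∀ x, x ∉ OMc cls om p 0 := by
      rintro x ⟨⟨h1, h2⟩, h3⟩
      have : ∀ r : List ℕ, r <:+ p → cls [] x = 0 := by
        intro r hr
        rcases p.eq_nil_or_concat with hp | ⟨l, d, hp⟩
        · subst hp; exact h3
        · have h4 : [d] <:+ p := ⟨l, by rw [hp]; simp⟩
          have h5 := h1 d [] h4
          rw [h5]
          exact hz d (by rw [hp]; simp)
      exact hroot x (this p (List.suffix_refl _))
    have : ∀ x, (OMc cls om p 0).indicator (1 : E → ℝ≥0∞) x = 0 := fun x =>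
      indicator_of_notMem (hempty x) _
    simp [this]
  -- the chain
  set s := s0 ++ [c'] with hs
  have hpsa : p = s ++ a := hpa
  set V0 := W a with hV0
  have hap : a <:+ p := ⟨s, hpsa.symm⟩
  have hca : (c' :: a) <:+ p := ⟨s0, by rw [hpsa, hs]; simp⟩
  have hWsa : SI W (s ++ a) := by rw [← hpsa]; exact hWp
  have hrrsa : rr = ((u ++ [0]) ++ s) ++ a := by rw [hrr, hpsa]; simp
  have hWrrsa : SI W (((u ++ [0]) ++ s) ++ a) := by rw [← hrrsa]; exact hW
  -- stopped sets
  set D : List ℕ → Set E := fun r => {x | cls r x ≠ 0} ∩ nk W A0 kap q b0 r with hD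
  set L := chn W D a s with hLdef
  set Ks := K ∩ nk W A0 kap q b0 p with hKs
  have hnkcl : IsClosed (nk W A0 kap q b0 p) := isClosed_unk _ _
  have hKsc : IsClosed Ks := hK.inter hnkcl
  have hKsm := hKsc.measurableSet
  have hfst : L.map Prod.fst = chf W a s := map_chn s
  set l' := chf W p (u ++ [0]) with hl'def
  have hLl : L.map Prod.fst ++ l' = chf W a ((u ++ [0]) ++ s) := by
    rw [hfst, hl'def, chf_append a s (u ++ [0]), ← hpsa]
  have hple : pl W p = pl W a ++ L.map Prod.fst := by rw [hfst, hpsa, pl_append]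
  have hpl0 : pl W rr = (pl W a ++ L.map Prod.fst) ++ l' := by
    rw [← hple, hl'def, ← pl_append]
    congr 1
    rw [hrr]; simp
  -- kills below a label which is not killed
  have hkill : ∀ r, a <:+ r → r <:+ p → ∀ x, x ∈ nk W A0 kap q b0 r →
      fib (W r) (Kᶜ.indicator 1) x ≤ ENNReal.ofReal (1 / 8) →
      ENNReal.ofReal (4 / 5) ≤ fib (W r) (Ks.indicator 1) x := by
    intro r har hrp x hx hDx
    obtain ⟨v, hu⟩ := hrp
    have hWu : SI W (v ++ r) := by rw [hu]; exact hWp
    have h1 := health_unk (l := pl W r) (l' := chf W r v) (W := W r) (A0 := A0) (kap := kap)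
      (q := q) (b0 := b0) hε (by norm_num) (hWp.suffix ⟨v, hu⟩).pl_le (mem_pl_or h0)
      (chf_pairwise hWu) (chf_gt hWu) hA hk (by linarith) (by linarith) hb0 hb
      (cap_le_of_nk hA h0 hAb hx) hKm (a := 1 / 8) (m := 4 / 5) (by norm_num)
      (by
        have : (1 - 1 / 41 : ℝ)⁻¹ = 41 / 40 := by norm_num
        rw [this]; linarith) hDx
    refine h1.trans ?_
    -- on the fibre of `x` the outer kills are absent
    have h2 : ∀ z, (unk A0 kap q b0 (pl W r) (chf W r v) ∩ K).indicator (1 : E → ℝ≥0∞)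
        (mix (W r) x z) ≤ Ks.indicator 1 (mix (W r) x z) := by
      intro z
      by_cases hz : mix (W r) x z ∈ unk A0 kap q b0 (pl W r) (chf W r v) ∩ K
      · have h3 : mix (W r) x z ∈ nk W A0 kap q b0 r :=
          ((inv_nk (hWp.suffix ⟨v, hu⟩)).mix x z).mpr hx
        have h4 : mix (W r) x z ∈ Ks := by
          refine ⟨hz.2, ?_⟩
          rw [← hu, nk_append]
          exact ⟨h3, hz.1⟩
        rw [indicator_of_mem hz, indicator_of_mem h4]
      · rw [indicator_of_notMem hz]; exact bot_le
    unfold fib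
    exact lintegral_mono h2
  -- the outer factor
  set G : E → ℝ≥0∞ := (OMc cls om a c').indicator 1 with hG
  have hLa : Lab W cls om a := hL.suffix hap
  have hGi : Inv V0 G := inv_ind (hLa.inv_c (hWp.suffix hap) c')
  have hGm : Measurable G := measurable_one.indicator (hLa.measurable_c c')
  -- measurability and invariance of the stopped sets
  have hDm : ∀ r, r <:+ p → MeasurableSet (D r) := fun r hr =>
    ((hL.mcls r hr (measurableSet_singleton 0)).compl).inter (measurableSet_nk r)
  have hDi : ∀ r, r <:+ p → InvS (W r) (D r) := by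
    intro r hr x w hw
    have h1 := hL.icls r hr x w hw
    have h2 := inv_nk (A0 := A0) (kap := kap) (q := q) (b0 := b0) (hWp.suffix hr) x w hw
    simp only [hD, mem_inter_iff, mem_setOf_eq, h1, h2]
  have hmemL : ∀ v ∈ L, ∃ r, a <:+ r ∧ r ≠ a ∧ r <:+ p ∧ v = (W r, D r) := by
    intro v hv
    obtain ⟨r, h1, h2, h3, h4⟩ := mem_chn hv
    exact ⟨r, h1, h2, by rw [hpsa]; exact h3, h4⟩
  have havoid : ∀ x, x ∈ avoid L ↔ ∀ r, a <:+ r → r ≠ a → r <:+ p → x ∉ D r := by
    intro x
    constructor
    · intro hx r h1 h2 h3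
      exact hx (W r, D r) (mem_chn_of h1 h2 (by rw [← hpsa]; exact h3))
    · intro hx v hv
      obtain ⟨r, h1, h2, h3, rfl⟩ := hmemL v hv
      exact hx r h1 h2 h3
  have havm : MeasurableSet (avoid L) := by
    have : avoid L = ⋂ v ∈ L, (v.2)ᶜ := by
      ext x
      simp [avoid]
    rw [this]
    refine MeasurableSet.biInter (List.finite_toSet L).countable fun v hv => ?_
    obtain ⟨r, _, _, h3, rfl⟩ := hmemL v hv
    exact (hDm r h3).compl
  -- chain classes are zero
  have hzero : ∀ d r, (d :: r) <:+ p → a <:+ r → r ≠ a → d = 0 := fun d r h1 h2 h3 =>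
    chain_zero hs0 (by rw [← hpa]; exact h1) h2 h3
  -- region: left inclusion
  have hreg1 : ∀ x, x ∈ OMc cls om p 0 → x ∈ OMc cls om a c' ∧ x ∈ avoid L ∧
      x ∈ nk W A0 kap q b0 p := by
    rintro x ⟨⟨h1, h2⟩, h3⟩
    refine ⟨⟨OMp_anti hap ⟨h1, h2⟩, h1 c' a hca⟩, ?_, hnk p (List.suffix_refl _) x h2⟩
    rw [havoid]
    rintro r har hra hrp ⟨h4, -⟩
    apply h4
    rcases eq_or_ne r p with h5 | h5
    · rw [h5]; exact h3
    · obtain ⟨v, hu⟩ := hrp
      rcases List.eq_nil_or_concat v with h6 | ⟨u', d, h6⟩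
      · exact absurd (by rw [h6] at hu; simpa using hu) h5
      · have h7 : (d :: r) <:+ p := ⟨u', by rw [← hu, h6]; simp⟩
        rw [h1 d r h7]
        exact hzero d r h7 har hra
  -- region: right inclusion
  have hreg2 : ∀ x, x ∈ OMc cls om a c' → x ∈ avoid L → x ∈ nk W A0 kap q b0 p →
      x ∈ OMc cls om p 0 := by
    rintro x ⟨⟨h1, h2⟩, h3⟩ h4 h5
    rw [havoid] at h4
    have h6 : ∀ r, a <:+ r → r ≠ a → r <:+ p → cls r x = 0 := by
      intro r har hra hrp
      by_contra hcon
      exact h4 r har hra hrp ⟨hcon, nk_anti hrp h5⟩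
    have hcmp : ∀ r, r <:+ p → r <:+ a ∨ (a <:+ r ∧ r ≠ a) := by
      intro r hr
      rcases List.suffix_or_suffix_of_suffix hr hap with h | h
      · exact Or.inl h
      · by_cases hra : r = a
        · exact Or.inl (hra ▸ List.suffix_refl _)
        · exact Or.inr ⟨h, hra⟩
    refine ⟨⟨fun d r hr => ?_, fun r hr => ?_⟩, ?_⟩
    · have hrp := (List.suffix_cons d r).trans hr
      rcases hcmp (d :: r) hr with h | ⟨h, hne⟩
      · exact h1 d r h
      · rcases List.suffix_cons_iff.mp h with h' | h'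
        · exact absurd h'.symm hne
        · by_cases hra : r = a
          · subst hra
            -- `d = c'`
            have h7 : (d :: r) = (c' :: r) := by
              rcases List.suffix_or_suffix_of_suffix hr hca with h8 | h8
              · exact h8.eq_of_length rfl
              · exact (h8.eq_of_length rfl).symm
            rw [List.cons.injEq] at h7
            rw [h7.1]
            exact h3
          · rw [h6 r h' hra hrp]
            exact (hzero d r hr h' hra).symm
    · rcases hcmp r hr with h | ⟨h, hne⟩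
      · exact h2 r h
      · exact hom0 r hr x (h6 r h hne hr) (nk_anti hr h5)
    · have hpa' : p ≠ a := by
        intro h
        have := congrArg List.length hpsa
        rw [h] at this
        simp [hs] at this
        omega
      exact h6 p hap hpa' (List.suffix_refl _)
  have hVin : InvS (W p) (avoid L) := by
    intro y w hw
    rw [havoid, havoid]
    have : ∀ r, r <:+ p → (y + w ∈ D r ↔ y ∈ D r) := fun r hr =>
      hDi r hr y w (Submodule.orthogonal_le (hWp.le_of_suffix hr) hw)
    constructor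
    · intro h r h1 h2 h3 h4
      exact h r h1 h2 h3 ((this r h3).mpr h4)
    · intro h r h1 h2 h3 h4
      exact h r h1 h2 h3 ((this r h3).mp h4)
  have hFlag : FlagC (pl W a) l' L V0 (W p) (W rr) := by
    refine ⟨(hWp.suffix hap).pl_le, mem_pl_or h0, ?_, ?_, hWp.le_of_suffix hap, ?_,
      hW.le_of_suffix hprr, ?_, hVin, ?_⟩
    · rw [hLl]; exact chf_pairwise hWrrsa
    · rw [hLl]; exact chf_gt hWrrsa
    · intro v hv
      obtain ⟨r, _, _, h3, rfl⟩ := hmemL v hv
      exact hWp.le_of_suffix h3
    · intro U hU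
      obtain ⟨r, _, _, h3, rfl⟩ := mem_chf hU
      refine hW.le_of_suffix (h3.trans ?_)
      rw [hrr]
      simp
    · intro v hv
      obtain ⟨r, _, _, h3, rfl⟩ := hmemL v hv
      exact ⟨hDm r h3, hDi r h3⟩
  -- the single time inequality in the fibres of `V0`
  have hKsK : IsCompact Ks := Metric.isCompact_of_isClosed_isBounded hKsc
    (Metric.isBounded_closedBall.subset fun y hy => hKR hy.1)
  have hKscv : Convex ℝ Ks := hKc.inter (convex_unk (by linarith) hA hk _ _)
  have hsingle : ∀ x, G x ≠ 0 → fib V0 ((avoid L).indicator fun x =>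
        capS A0 kap q th (pl W rr) (W rr) x * rt (fib (W rr) (Ksᶜ.indicator 1) x)
          (fib (W rr) ((Ks \ K').indicator 1) x)) x ≤
      ENNReal.ofReal (cThr * φ *
        (kap ^ (Module.finrank ℝ (W rr) - Module.finrank ℝ (W p))) ^ th) *
      fib V0 ((avoid L).indicator ({x | ENNReal.ofReal (Real.exp (-1418)) ≤
        qq (W p) Ks x}.indicator (capS A0 kap q th (pl W p) (W p)))) x := by
    intro x hx
    have hxG : x ∈ OMc cls om a c' := by
      by_contra hcon
      exact hx (indicator_of_notMem hcon _)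
    have hxnk : x ∈ nk W A0 kap q b0 a := hnk a hap x hxG.1.2
    have hxg : fib (W a) (Kᶜ.indicator 1) x ≤ ENNReal.ofReal (1 / 8) :=
      hgood a hap x (by rw [show cls a x = c' from hxG.2]; exact hc') hxnk
    have hgoodL : ∀ v ∈ L, ∀ y ∈ v.2, ENNReal.ofReal (4 / 5) ≤ fib v.1 (Ks.indicator 1) y := by
      intro v hv y hy
      obtain ⟨r, h1, _, h3, rfl⟩ := hmemL v hv
      exact hkill r h1 h3 y hy.2 (hgood r h3 y hy.1 hy.2)
    have hMs : Mot φ θ b Ks K' := by
      intro y hy hy'
      obtain ⟨α, β, h1, h2, h3⟩ := hM y hy.1 hy'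
      exact ⟨α, β, h1, h2, fun h => h3 h.1⟩
    rw [hpl0, hple]
    exact thr0_chain (K := Ks) (Kl := Ks) (K' := K') hFlag P hKsK hKscv hK' hKsc hKscv
      subset_rfl hR (fun y hy => hKR hy.1) hφ hφR hMs hq hth hth1 hA hk hgoodL x
      ((ENNReal.ofReal_le_ofReal (by norm_num)).trans
        (hkill a (List.suffix_refl _) hap x hxnk hxg))
  -- integration
  have hqm : MeasurableSet {x | ENNReal.ofReal (Real.exp (-1418)) ≤ qq (W p) Ks x} :=
    measurableSet_le measurable_const (measurable_qq hKsm)
  have hrtm : Measurable fun x => rt (fib (W rr) (Ksᶜ.indicator 1) x)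
      (fib (W rr) ((Ks \ K').indicator 1) x) := by
    unfold rt
    have m1 : Measurable (fib (W rr) (Ksᶜ.indicator (1 : E → ℝ≥0∞))) :=
      measurable_fib (measurable_one.indicator hKsm.compl)
    have m2 : Measurable (fib (W rr) ((Ks \ K').indicator (1 : E → ℝ≥0∞))) :=
      measurable_fib (measurable_one.indicator (hKsm.diff hK'))
    exact m2.div ((m1.add m2).pow_const _)
  have hint := int_fib_le hGi hGm ((measurable_capS.mul hrtm).indicator havm)
    ((measurable_capS.indicator hqm).indicator havm) hsingle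
  -- left side
  have hnkrr : ∀ x, x ∈ nk W A0 kap q b0 p → ∀ z, mix (W rr) x z ∈ nk W A0 kap q b0 p := by
    intro x hx z
    have h1 : InvS (W rr) (nk W A0 kap q b0 p) :=
      InvS.mono' (hW.le_of_suffix hprr) (inv_nk hWp)
    exact (h1.mix x z).mpr hx
  have hleft : ∫⁻ x, (OMc cls om p 0).indicator 1 x *
        (capS A0 kap q th (pl W rr) (W rr) x *
          rt (fib (W rr) (Kᶜ.indicator 1) x) (fib (W rr) ((K \ K').indicator 1) x))
        ∂(stdGaussian E) ≤ ∫⁻ x, G x * ((avoid L).indicator (fun x =>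
        capS A0 kap q th (pl W rr) (W rr) x * rt (fib (W rr) (Ksᶜ.indicator 1) x)
          (fib (W rr) ((Ks \ K').indicator 1) x)) x) ∂(stdGaussian E) := by
    refine lintegral_mono fun x => ?_
    by_cases hx : x ∈ OMc cls om p 0
    · obtain ⟨h1, h2, h3⟩ := hreg1 x hx
      have e1 : fib (W rr) (Kᶜ.indicator 1) x = fib (W rr) (Ksᶜ.indicator 1) x := by
        unfold fib
        refine lintegral_congr fun z => ?_
        have h4 := hnkrr x h3 z
        by_cases h5 : mix (W rr) x z ∈ K
        · rw [indicator_of_notMem (show mix (W rr) x z ∉ Kᶜ from fun h => h h5),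
            indicator_of_notMem (show mix (W rr) x z ∉ Ksᶜ from fun h => h ⟨h5, h4⟩)]
        · rw [indicator_of_mem (show mix (W rr) x z ∈ Kᶜ from h5),
            indicator_of_mem (show mix (W rr) x z ∈ Ksᶜ from fun h => h5 h.1)]
      have e2 : fib (W rr) ((K \ K').indicator 1) x = fib (W rr) ((Ks \ K').indicator 1) x := by
        unfold fib
        refine lintegral_congr fun z => ?_
        have h4 := hnkrr x h3 z
        by_cases h5 : mix (W rr) x z ∈ K \ K'
        · rw [indicator_of_mem h5,
            indicator_of_mem (show mix (W rr) x z ∈ Ks \ K' from ⟨⟨h5.1, h4⟩, h5.2⟩)]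
        · rw [indicator_of_notMem h5,
            indicator_of_notMem (show mix (W rr) x z ∉ Ks \ K' from fun h => h5 ⟨h.1.1, h.2⟩)]
      simp only [hG]
      rw [indicator_of_mem hx, indicator_of_mem h1, indicator_of_mem h2, e1, e2]
    · simp only []
      rw [indicator_of_notMem hx, zero_mul]
      exact bot_le
  have hright : ∫⁻ x, G x * ((avoid L).indicator ({x | ENNReal.ofReal (Real.exp (-1418)) ≤
        qq (W p) Ks x}.indicator (capS A0 kap q th (pl W p) (W p))) x) ∂(stdGaussian E) ≤
      ∫⁻ x, (OMc cls om p 0).indicator 1 x *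
        ({x | ENNReal.ofReal (Real.exp (-1418)) ≤ qq (W p) K x}.indicator
          (capS A0 kap q th (pl W p) (W p)) x) ∂(stdGaussian E) := by
    refine lintegral_mono fun x => ?_
    by_cases h1 : x ∈ OMc cls om a c'
    swap
    · simp only [hG]
      rw [indicator_of_notMem h1, zero_mul]
      exact bot_le
    by_cases h2 : x ∈ avoid L
    swap
    · rw [indicator_of_notMem h2, mul_zero]
      exact bot_le
    by_cases h3 : x ∈ {x | ENNReal.ofReal (Real.exp (-1418)) ≤ qq (W p) Ks x}
    swap
    · rw [indicator_of_mem h2, indicator_of_notMem h3, mul_zero]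
      exact bot_le
    have h4 : x ∈ nk W A0 kap q b0 p := by
      by_contra hcon
      have h5 : qq (W p) Ks x = 0 := by
        unfold qq fib
        have h6 : ∀ z, Ks.indicator (1 : E → ℝ≥0∞) (mix (W p) x z) = 0 := by
          intro z
          rw [indicator_of_notMem]
          rintro ⟨_, h7⟩
          exact hcon (((inv_nk hWp).mix x z).mp h7)
        simp [h6]
      rw [mem_setOf_eq, h5, nonpos_iff_eq_zero, ENNReal.ofReal_eq_zero] at h3
      exact absurd h3 (not_le.mpr (Real.exp_pos _))
    have h5 := hreg2 x h1 h2 h4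
    have h3' : ENNReal.ofReal (Real.exp (-1418)) ≤ qq (W p) Ks x := h3
    have h6 : x ∈ {x | ENNReal.ofReal (Real.exp (-1418)) ≤ qq (W p) K x} := by
      refine le_trans h3' ?_
      exact fib_mono (fun y => indicator_le_indicator_of_subset inter_subset_left
        (fun _ => bot_le) y) x
    simp only [hG]
    rw [indicator_of_mem h1, indicator_of_mem h2, indicator_of_mem h3, indicator_of_mem h5,
      indicator_of_mem h6]
  exact hleft.trans (hint.trans (mul_le_mul' le_rfl hright))

end zero

end Vale.Agent.P262.H431
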