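import Mathlib
import Vale.Agent.P262.H431.Thr8
import Vale.Agent.P262.H395.CS2
import Vale.Agent.P262.M2.Nodes
import Vale.Agent.P262.M2.Blocks

/-!
# P262, block THR0, part 9: throughput of a rotation at class 0 parents, on the system of milestone 2
-/

set_option linter.all false

open MeasureTheory ProbabilityTheory Set
open scoped ENNReal NNReal RealInnerProductSpace
open Vale.Agent.P262.H118 (ON rotE El2 paths mem_paths)
open Vale.Agent.P262.H395 (fib mix Inv measurable_fib fib_mono)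
open Vale.Agent.P262.H395.CW (pl nk nk_nil nk_cons OMp OMc Lab SI)
open Vale.Agent.P262.H962 (capS measurable_capS)
open Vale.Agent.P262.H44 (InvS)
open Vale.Agent.P262.H439 (qq)

namespace Vale.Agent.P262.H431

open Vale.Agent.P262.M2
open Vale.Agent.P262.M2.Sys

variable {E : Type*} [NormedAddCommGroup E] [InnerProductSpace ℝ E] [FiniteDimensional ℝ E]
  [MeasurableSpace E] [BorelSpace E] {S : Sys E}

/-- numerical hypotheses of THR0 -/
structure ThrC (S : Sys E) : Prop where
  qq : 100 ≤ S.qq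
  th : S.th ≤ 1 / 2
  kap : S.kap ≤ 1 / 100
  q0 : 2 * S.q0 ≤ ENNReal.ofReal (Real.exp (-1418))

/-! ### nodes -/

lemma leaf_mono {r q : List ℕ} {m : ℕ} (h : r <:+ q) (hr : S.Leaf r m) : S.Leaf q m :=
  (Submodule.finrank_mono (Submodule.orthogonal_le (S.W_mono h m))).trans hr

lemma SI_of {q : List ℕ} {m : ℕ} (hm : S.mv.tm m < S.T)
    (h : ∀ d s, (d :: s) <:+ q → ¬ S.Leaf s m) : SI (fun r => S.W r m) q := by
  intro d s hs
  exact W_lt hm (h d s hs) d

/-- the parent of the rotating node is not a leaf -/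
lemma parent_not_leaf {m : ℕ} (hrot : S.mv.IsRot m) {c : ℕ} {p : List ℕ}
    (hjj : S.mv.jj m = c :: p) : ¬ S.Leaf p m := by
  intro h
  obtain ⟨θ, h1, h2, h3⟩ := S.mv.U_rot hrot.1 hrot.2
  obtain ⟨b, hb, _, _⟩ := h3 _ (List.suffix_refl _)
  rw [hjj] at h1 h2
  have h4 : S.W (c :: p) m = S.W p m := W_leaf h c
  have h5 : θ ∈ S.W p m := by rw [← h4]; exact h1
  have h6 : θ ∈ (S.W p m)ᗮ := h2
  have h7 : ⟪θ, θ⟫ = (0 : ℝ) := (Submodule.mem_orthogonal _ _).mp h6 θ h5
  rw [hb.pp] at h7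
  exact one_ne_zero h7

/-- label spaces grow along the path of a descendant of the rotating node -/
lemma SI_desc {m : ℕ} (hm : S.mv.tm m < S.T) (hrot : S.mv.IsRot m) {c : ℕ} {p u : List ℕ}
    (hjj : S.mv.jj m = c :: p)
    (hnl : ∀ s, (c :: p) <:+ s → s <:+ u ++ (c :: p) → s ≠ u ++ (c :: p) → ¬ S.Leaf s m) :
    SI (fun r => S.W r m) (u ++ (c :: p)) := by
  refine SI_of hm fun d s hs => ?_
  have hp := parent_not_leaf hrot hjj
  have hs' : s <:+ u ++ (c :: p) := (List.suffix_cons d s).trans hs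
  rcases List.suffix_or_suffix_of_suffix hs' (List.suffix_append u (c :: p)) with h | h
  · -- `s` is a suffix of `c :: p`
    rcases List.suffix_cons_iff.mp h with h' | h'
    · refine hnl s (by rw [h']) hs' fun h0 => ?_
      have := hs.length_le
      rw [← h0, List.length_cons] at this
      omega
    · exact fun hl => hp (leaf_mono h' hl)
  · refine hnl s h hs' fun h0 => ?_
    have := hs.length_le
    rw [← h0, List.length_cons] at this
    omega

lemma ph_small {m : ℕ} : 4 * S.mv.ph m * (1 + S.R) ^ 2 ≤ 1 ∧ S.mv.ph m * S.R ≤ 2 := by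
  have h := S.hph m
  have h0 := S.mv.ph_nonneg m
  have hR := S.hR
  have hn : (0 : ℝ) ≤ (Module.finrank ℝ E : ℝ) := Nat.cast_nonneg _
  have h1 : (1 + S.R) ^ 2 ≤ (S.R + 4) ^ 2 := pow_le_pow_left₀ (by linarith) (by linarith) 2
  have h2 : 4 * S.mv.ph m * (1 + S.R) ^ 2 ≤
      5 * ((Module.finrank ℝ E : ℝ) + 2) * S.mv.ph m * (S.R + 4) ^ 2 := by
    have h3 : 4 * S.mv.ph m ≤ 5 * ((Module.finrank ℝ E : ℝ) + 2) * S.mv.ph m := by
      nlinarith [mul_nonneg hn h0]
    exact mul_le_mul h3 h1 (by positivity) (by positivity)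
  refine ⟨h2.trans h, ?_⟩
  have h3 := h2.trans h
  nlinarith [mul_nonneg h0 (by positivity : (0:ℝ) ≤ S.R), mul_nonneg h0 (sq_nonneg S.R)]

/-! ### one virtual list of classes -/

/-- **THR0 on the system, one list.**  The node `0 :: p` is rotated in the move `m`; `u` = any list of
classes such that the proper ancestors of `u ++ (0 :: p)` are not leaves. -/
theorem thr0_list (H : ThrC S) {m : ℕ} (hroot : ∀ x, S.kl [] m x ≠ 0) (hm : S.mv.tm m < S.T)
    (hrot : S.mv.IsRot m) {p u : List ℕ} (hjj : S.mv.jj m = 0 :: p)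
    (hnl : ∀ s, (0 :: p) <:+ s → s <:+ u ++ (0 :: p) → s ≠ u ++ (0 :: p) → ¬ S.Leaf s m) :
    ∫⁻ x, (S.Rg p 0 m).indicator 1 x * S.xd (u ++ (0 :: p)) m x ∂stdGaussian E ≤
      ENNReal.ofReal (2 * cThr * S.mv.ph m *
        (S.kap ^ (Module.finrank ℝ (S.W (u ++ (0 :: p)) m) - Module.finrank ℝ (S.W p m))) ^ S.th) *
      ∫⁻ x, (S.Rg p 0 m).indicator 1 x *
        ({x | ENNReal.ofReal (Real.exp (-1418)) ≤ S.q p m x}.indicator (S.As S.th p m) x)
        ∂stdGaussian E := by
  set r := u ++ (0 :: p) with hr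
  have hSI : SI (fun r => S.W r m) r := SI_desc hm hrot hjj hnl
  have hqr : (0 :: p) <:+ r := List.suffix_append u (0 :: p)
  have hpq : p <:+ 0 :: p := List.suffix_cons 0 p
  have hpr : p <:+ r := hpq.trans hqr
  obtain ⟨hφR, hφR'⟩ := ph_small (S := S) (m := m)
  have hφ := S.mv.ph_nonneg m
  have hR0 : 0 ≤ S.R := by linarith [S.hR]
  -- the rotation
  obtain ⟨θ, hθ1, hθ2, hrest⟩ := S.mv.Bd_rot (Kt := S.Kt) hrot.1 hrot.2
  obtain ⟨b, hb, hbL, -, hX⟩ := hrest r (by rw [hjj]; exact hqr)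
  rw [hjj] at hθ1 hθ2 hbL
  have hP : PlaneC (S.W p m) (S.W r m) θ b ((S.W r m).starProjection b)
      (b - (S.W r m).starProjection b) :=
    planeC_of (S.W_mono hpq m) (S.W_mono hqr m) hb hθ1 hθ2 hbL
  set K := S.X r m with hKdef
  set K' := S.X r (m + 1) with hK'def
  have hK'K : K' = (fun x => rotE hb (S.mv.ph m) x) ⁻¹' K := hX
  have hKR : K ⊆ Metric.closedBall 0 S.R :=
    S.mv.Bd_subset_ball (fun t => M1.body_subset S.v S.R t) _ _
  have hK'R : K' ⊆ Metric.closedBall 0 S.R :=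
    S.mv.Bd_subset_ball (fun t => M1.body_subset S.v S.R t) _ _
  have hKc : IsClosed K := S.mv.isClosed_Bd (fun t => M1.isClosed_body S.v S.R t) _ _
  have hK'c : IsClosed K' := S.mv.isClosed_Bd (fun t => M1.isClosed_body S.v S.R t) _ _
  have hKv : Convex ℝ K := S.mv.convex_Bd (fun t => M1.convex_body S.v S.R t) _ _
  have hK'v : Convex ℝ K' := S.mv.convex_Bd (fun t => M1.convex_body S.v S.R t) _ _
  have hM1 : Mot (S.mv.ph m) θ b K K' := by
    rw [hK'K]; exact mot_rot hb hφ hφR' hKR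
  have hM2 : Mot (S.mv.ph m) θ b K' K := by
    rw [hK'K]; exact mot_rot_symm hb hφ hφR' hKR
  -- fibres of the ancestors
  have htm : S.mv.tm (m + 1) = S.mv.tm m := S.mv.tm_succ_rot hrot
  have hnj : ∀ s, s <:+ p → ¬ S.mv.jj m <:+ s := by
    intro s hs h
    rw [hjj] at h
    have h1 := h.length_le
    have h2 := hs.length_le
    rw [List.length_cons] at h1
    omega
  have hfib : ∀ s, s <:+ p → ∀ x, fib (S.W s m) (Kᶜ.indicator 1) x = S.De s m x := fun s hs x =>
    S.mv.fib_Bd_compl (fun t => M1.measurableSet_body S.v S.R t) m (hs.trans hpr) x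
  have hfib' : ∀ s, s <:+ p → ∀ x, fib (S.W s m) (K'ᶜ.indicator 1) x = S.De s m x := by
    intro s hs x
    have h := S.mv.fib_Bd_compl (fun t => M1.measurableSet_body S.v S.R t) (m + 1)
      (hs.trans hpr) x
    rw [htm] at h
    have h2 : S.X s (m + 1) = S.X s m := S.X_rot_not hrot (hnj s hs)
    unfold De
    rw [← h2]
    exact h
  have hqK : ∀ x, qq (S.W p m) K x = S.q p m x := fun x =>
    S.mv.fib_Bd (fun t => M1.measurableSet_body S.v S.R t) m hpr x
  have hqK' : ∀ x, qq (S.W p m) K' x = S.q p m x := by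
    intro x
    have h := S.mv.fib_Bd (fun t => M1.measurableSet_body S.v S.R t) (m + 1) hpr x
    rw [htm] at h
    have h2 : S.X p (m + 1) = S.X p m := S.X_rot_not hrot (hnj p (List.suffix_refl _))
    unfold Sys.q
    rw [← h2]
    exact h
  have hself : ∀ s, S.In (S.K.B s 0) m m := fun s => In.self_c (zero_B_c (S := S) s 0) hm
  have hgood : ∀ s, s <:+ p → ∀ x, S.kl s m x ≠ 0 →
      S.De s m x ≤ ENNReal.ofReal (1 / 8) := fun s _ x h0 =>
    (good_of_pos_c h0 (hself s)).trans (ENNReal.ofReal_le_ofReal (by norm_num))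
  -- the two bodies
  have key : ∀ {K K' : Set E}, IsClosed K → Convex ℝ K → K ⊆ Metric.closedBall 0 S.R →
      MeasurableSet K' → Mot (S.mv.ph m) θ b K K' →
      (∀ s, s <:+ p → ∀ x, fib (S.W s m) (Kᶜ.indicator 1) x = S.De s m x) →
      (∀ x, qq (S.W p m) K x = S.q p m x) →
      ∫⁻ x, (S.Rg p 0 m).indicator 1 x * (S.As S.th r m x *
          rt (fib (S.W r m) (Kᶜ.indicator 1) x) (fib (S.W r m) ((K \ K').indicator 1) x))
          ∂stdGaussian E ≤
        ENNReal.ofReal (cThr * S.mv.ph m *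
          (S.kap ^ (Module.finrank ℝ (S.W r m) - Module.finrank ℝ (S.W p m))) ^ S.th) *
        ∫⁻ x, (S.Rg p 0 m).indicator 1 x *
          ({x | ENNReal.ofReal (Real.exp (-1418)) ≤ S.q p m x}.indicator (S.As S.th p m) x)
          ∂stdGaussian E := by
    intro K K' g1 g2 g3 g4 g5 g6 g7
    have h := thr_zero (W := fun r => S.W r m) (cls := fun r => S.kl r m)
      (om := fun r => S.om r m) (p := p) (A0 := S.A0) (kap := S.kap) (q := S.qq) (th := S.th)
      (b0 := ENNReal.ofReal S.b0) (K := K) (K' := K') (u := u) (W_nil_c m) hSI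
      (lab_c hm) H.qq S.hth.le H.th S.hA0 S.hkap H.kap (ENNReal.ofReal_le_ofReal S.hAb)
      ENNReal.ofReal_ne_top g1 g2 hR0 g3 g4 hφ hφR hP g5 hroot
      (fun s _ x hx => by
        have h := A_le_b0_c (S := S) (p := s) (m := m) (x := x) hx.1
        rw [mem_setOf_eq, pl_eq_chn_c]
        exact h)
      (fun s _ x h0 hx => by
        rw [nk_eq_c] at hx
        exact om_of_zero_c h0 hx)
      (fun s hs x h0 hx => by
        rw [g6 s hs x]
        exact hgood s hs x h0)
    rw [pl_eq_chn_c, pl_eq_chn_c] at h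
    have e1 : {x | ENNReal.ofReal (Real.exp (-1418)) ≤ qq (S.W p m) K x} =
        {x | ENNReal.ofReal (Real.exp (-1418)) ≤ S.q p m x} := by
      ext x
      rw [mem_setOf_eq, mem_setOf_eq, g7 x]
    rw [e1] at h
    exact h
  have k1 := key hKc hKv hKR hK'c.measurableSet hM1 hfib hqK
  have k2 := key hK'c hK'v hK'R hKc.measurableSet hM2 hfib' hqK'
  set V := ∫⁻ x, (S.Rg p 0 m).indicator 1 x *
    ({x | ENNReal.ofReal (Real.exp (-1418)) ≤ S.q p m x}.indicator (S.As S.th p m) x)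
    ∂stdGaussian E with hV
  set gg := (S.kap ^ (Module.finrank ℝ (S.W r m) - Module.finrank ℝ (S.W p m))) ^ S.th with hgg
  have hgg0 : 0 ≤ gg := Real.rpow_nonneg (pow_nonneg S.hkap.le _) _
  have hcT := cThr_pos
  -- measurability
  have hRm : Measurable ((S.Rg p 0 m).indicator (1 : E → ℝ≥0∞)) :=
    measurable_one.indicator (measurableSet_Rg_c hm)
  have mrt : ∀ {A B : Set E}, MeasurableSet A → MeasurableSet B → Measurable fun x =>
      rt (fib (S.W r m) (Aᶜ.indicator 1) x) (fib (S.W r m) ((A \ B).indicator 1) x) := by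
    intro A B hA hB
    unfold rt
    have m1 : Measurable (fib (S.W r m) (Aᶜ.indicator (1 : E → ℝ≥0∞))) :=
      measurable_fib (measurable_one.indicator hA.compl)
    have m2 : Measurable (fib (S.W r m) ((A \ B).indicator (1 : E → ℝ≥0∞))) :=
      measurable_fib (measurable_one.indicator (hA.diff hB))
    exact m2.div ((m1.add m2).pow_const _)
  have hpt : ∀ x, (S.Rg p 0 m).indicator 1 x * S.xd r m x ≤
      (S.Rg p 0 m).indicator 1 x * (S.As S.th r m x *
        rt (fib (S.W r m) (Kᶜ.indicator 1) x) (fib (S.W r m) ((K \ K').indicator 1) x)) +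
      (S.Rg p 0 m).indicator 1 x * (S.As S.th r m x *
        rt (fib (S.W r m) (K'ᶜ.indicator 1) x) (fib (S.W r m) ((K' \ K).indicator 1) x)) := by
    intro x
    rw [← mul_add, ← mul_add, ← sym_form hKc.measurableSet hK'c.measurableSet x]
    refine mul_le_mul' le_rfl ?_
    have h1 : S.Dc r m x = fib (S.W r m) ((K ∩ K')ᶜ.indicator 1) x :=
      S.Dc_active (Or.inr hrot) x
    have h2 : S.Dl r m x = fib (S.W r m) ((symmDiff K K').indicator 1) x :=
      S.Dl_active (Or.inr hrot) x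
    have h3 := weight_le (A := S.A r m x) (S.Dc_le_one r m x) (S.Dl_le_Dc r m x)
      (ne_top_of_le_ne_top ENNReal.one_ne_top (S.Dc_le_one r m x)) S.hth.le H.th
    unfold xd
    rw [S.A_rpow S.hth.le] at h3
    rw [← h1, ← h2]
    exact h3
  refine (lintegral_mono hpt).trans ?_
  have hfm : Measurable fun x => (S.Rg p 0 m).indicator (1 : E → ℝ≥0∞) x * (S.As S.th r m x *
      rt (fib (S.W r m) (Kᶜ.indicator 1) x) (fib (S.W r m) ((K \ K').indicator 1) x)) :=
    hRm.mul ((S.As_meas _ _ _).mul (mrt hKc.measurableSet hK'c.measurableSet))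
  rw [lintegral_add_left hfm]
  refine (add_le_add k1 k2).trans (le_of_eq ?_)
  rw [← add_mul, ← ENNReal.ofReal_add (by positivity) (by positivity)]
  congr 2
  ring

end Vale.Agent.P262.H431
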