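import Mathlib
import Vale.Agent.P262.H431.Thr9

/-!
# P262, block THR0, part 10: sum over the virtual lists of classes

`thr0_sum`: the throughput at level `i` of the rotation of a child `0 :: p` of class `0` parents, with
`lam = (cm + 1) * kap ^ th`.
-/

set_option linter.all false

open MeasureTheory ProbabilityTheory Set
open scoped ENNReal NNReal RealInnerProductSpace
open Vale.Agent.P262.H118 (ON rotE El2 paths mem_paths)
open Vale.Agent.P262.H395 (fib mix Inv measurable_fib fib_mono)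
open Vale.Agent.P262.H395.CW (SI)

namespace Vale.Agent.P262.H431

open Vale.Agent.P262.M2
open Vale.Agent.P262.M2.Sys

variable {E : Type*} [NormedAddCommGroup E] [InnerProductSpace ℝ E] [FiniteDimensional ℝ E]
  [MeasurableSpace E] [BorelSpace E] {S : Sys E}

/-! ### lists of classes -/

/-- lists of length `n` with entries `≤ cm` -/
def ls (cm : ℕ) : ℕ → Finset (List ℕ)
  | 0 => {[]}
  | n + 1 => (Finset.range (cm + 1) ×ˢ ls cm n).image fun z => z.1 :: z.2

lemma mem_ls {cm n : ℕ} {u : List ℕ} (h1 : u.length = n) (h2 : ∀ c ∈ u, c ≤ cm) :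
    u ∈ ls cm n := by
  induction n generalizing u with
  | zero =>
    rw [ls, Finset.mem_singleton]
    exact List.length_eq_zero_iff.1 h1
  | succ n ih =>
    cases u with
    | nil => simp at h1
    | cons c u =>
      rw [ls, Finset.mem_image]
      refine ⟨(c, u), ?_, rfl⟩
      rw [Finset.mem_product, Finset.mem_range]
      refine ⟨Nat.lt_succ_of_le (h2 c List.mem_cons_self), ih (by simpa using h1) fun d hd =>
        h2 d (List.mem_cons_of_mem _ hd)⟩

lemma length_ls {cm n : ℕ} {u : List ℕ} (h : u ∈ ls cm n) : u.length = n := by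
  induction n generalizing u with
  | zero =>
    rw [ls, Finset.mem_singleton] at h
    rw [h]; rfl
  | succ n ih =>
    rw [ls, Finset.mem_image] at h
    obtain ⟨⟨c, v⟩, hz, rfl⟩ := h
    rw [Finset.mem_product] at hz
    rw [List.length_cons, ih hz.2]

lemma card_ls (cm n : ℕ) : (ls cm n).card ≤ (cm + 1) ^ n := by
  induction n with
  | zero => simp [ls]
  | succ n ih =>
    rw [ls, pow_succ]
    refine Finset.card_image_le.trans ?_
    rw [Finset.card_product, Finset.card_range, mul_comm]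
    exact Nat.mul_le_mul_right _ ih

/-! ### labels on the path of a point -/

lemma nd_eq_of_suffix {m : ℕ} {x : E} {i : ℕ} {s : List ℕ} (h : s <:+ S.nd m x i) :
    S.nd m x s.length = s := by
  have h1 : s.length ≤ i := by
    have := h.length_le
    rwa [length_nd] at this
  have h2 := nd_suffix_nd (S := S) m x h1
  rcases List.suffix_or_suffix_of_suffix h h2 with h3 | h3
  · exact (h3.eq_of_length (by rw [length_nd])).symm
  · exact h3.eq_of_length (by rw [length_nd])

/-- the proper ancestors of `u ++ (c :: p)` below `c :: p` are not leaves -/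
def NLu (S : Sys E) (m : ℕ) (q u : List ℕ) : Prop :=
  ∀ s, q <:+ s → s <:+ u ++ q → s ≠ u ++ q → ¬ S.Leaf s m

lemma measurable_xd (r : List ℕ) (m : ℕ) : Measurable (S.xd r m) := by
  unfold xd
  exact (((S.A_meas r m).div ((S.A_meas r m).max (S.Dc_meas r m))).pow_const _).mul
    (S.Dl_meas r m)

/-- finrank growth along the path -/
lemma finrank_desc {m : ℕ} {q u : List ℕ} (h : SI (fun r => S.W r m) (u ++ q)) :
    Module.finrank ℝ (S.W q m) + u.length ≤ Module.finrank ℝ (S.W (u ++ q) m) := by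
  induction u with
  | nil => simp
  | cons c u ih =>
    have h1 : SI (fun r => S.W r m) (u ++ q) := h.tail
    have h2 : S.W (u ++ q) m < S.W (c :: (u ++ q)) m := h c (u ++ q) (List.suffix_refl _)
    have h3 := Submodule.finrank_lt_finrank_of_lt h2
    have h4 := ih h1
    rw [List.length_cons, List.cons_append]
    omega

open Classical in
/-- pointwise: the path goes through one of the lists -/
lemma point_le {m : ℕ} {p : List ℕ} {c i : ℕ} (hjj : S.mv.jj m = c :: p) (hi : p.length + 1 ≤ i)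
    (x : E) :
    iw (S.thru (p.length + 1) m ∩ S.OL (p.length + 1) m ∩ S.alj (p.length + 1) i m) x *
      S.xd (S.nd m x i) m x ≤
    ∑ u ∈ ls S.cm (i - (p.length + 1)), (S.Rg p c m).indicator 1 x *
      (if NLu S m (c :: p) u then S.xd (u ++ (c :: p)) m x else 0) := by
  by_cases hx : x ∈ S.thru (p.length + 1) m ∩ S.OL (p.length + 1) m ∩ S.alj (p.length + 1) i m
  swap
  · unfold iw
    rw [indicator_of_notMem hx, zero_mul]
    exact bot_le
  obtain ⟨⟨h1, h2⟩, h3⟩ := hx
  have h1' : S.nd m x (p.length + 1) = c :: p := by rw [← hjj]; exact h1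
  have hR : x ∈ S.Rg p c m := (mem_Rg_iff_c rfl).mpr ⟨h2, h1'⟩
  have hsuf : (c :: p) <:+ S.nd m x i := by
    rw [← h1']; exact nd_suffix_nd m x hi
  obtain ⟨u, hu⟩ := hsuf
  have hul : u.length = i - (p.length + 1) := by
    have := congrArg List.length hu
    rw [List.length_append, length_nd, List.length_cons] at this
    omega
  have hucm : ∀ d ∈ u, d ≤ S.cm := fun d hd =>
    le_cm_of_mem_nd m x i d (by rw [← hu]; exact List.mem_append_left _ hd)
  have hNL : NLu S m (c :: p) u := by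
    intro s hs1 hs2 hs3
    rw [hu] at hs2 hs3
    have h5 := nd_eq_of_suffix hs2
    have h6 := hs1.length_le
    rw [List.length_cons] at h6
    have h7 : s.length < i := by
      have h8 := hs2.length_le
      rw [length_nd] at h8
      rcases h8.lt_or_eq with h9 | h9
      · exact h9
      · exfalso
        rw [h9] at h5
        exact hs3 h5.symm
    have h8 := (h3 s.length h6 h7).2
    rwa [h5] at h8
  refine le_trans ?_ (Finset.single_le_sum (f := fun u => (S.Rg p c m).indicator (1 : E → ℝ≥0∞) x *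
      (if NLu S m (c :: p) u then S.xd (u ++ (c :: p)) m x else 0)) (fun _ _ => bot_le)
      (mem_ls hul hucm))
  rw [indicator_of_mem hR, if_pos hNL, hu, Pi.one_apply, one_mul]
  calc iw _ x * S.xd (S.nd m x i) m x ≤ 1 * S.xd (S.nd m x i) m x :=
        mul_le_mul' (indicator_le_one' _ x) le_rfl
    _ = _ := one_mul _

/-- the right side at class `0` labels -/
lemma V_le_Rw (H : ThrC S) {m : ℕ} (hm : S.mv.tm m < S.T) {p : List ℕ}
    (hjj : S.mv.jj m = 0 :: p) :
    ∫⁻ x, (S.Rg p 0 m).indicator 1 x *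
        ({x | ENNReal.ofReal (Real.exp (-1418)) ≤ S.q p m x}.indicator (S.As S.th p m) x)
        ∂stdGaussian E ≤ S.Rw p.length m := by
  unfold Rw
  refine lintegral_mono fun x => ?_
  by_cases hx : x ∈ S.Rg p 0 m
  swap
  · simp only []
    rw [indicator_of_notMem hx, zero_mul]
    exact bot_le
  obtain ⟨h1, h2⟩ := (mem_Rg_iff_c rfl).mp hx
  have h3 := h2
  rw [nd_succ, List.cons.injEq] at h3
  obtain ⟨h4, h5⟩ := h3
  rw [h5] at h4
  by_cases h6 : x ∈ {x | ENNReal.ofReal (Real.exp (-1418)) ≤ S.q p m x}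
  swap
  · simp only []
    rw [indicator_of_notMem h6, mul_zero]
    exact bot_le
  have h7 : 2 * S.q0 ≤ S.qb p m x := by
    refine (H.q0.trans h6).trans ?_
    unfold qb
    refine Finset.le_sup (f := fun k => S.q p k x) (Finset.mem_Icc.mpr ⟨bs_le p m x, le_be p x hm⟩)
  have h8 : S.psi p m x = 1 := by
    unfold psi
    rw [if_pos h4, if_pos h7]
  have h9 : S.s2 p m x = 1 := by
    unfold s2
    rw [h4, pow_zero]
  have h10 : x ∈ S.thru (p.length + 1) m ∩ S.OL (p.length + 1) m := ⟨by
    change S.nd m x (p.length + 1) = S.mv.jj m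
    rw [hjj]; exact h2, h1⟩
  unfold iw
  simp only []
  rw [indicator_of_mem hx, indicator_of_mem h6, indicator_of_mem h10, h5, h8, h9, mul_one, mul_one]

open Classical in
/-- **THR0 on the system**, sum over the lists: `lam = (cm + 1) * kap ^ th`. -/
theorem thr0_sum (H : ThrC S) {m : ℕ} (hroot : ∀ x, S.kl [] m x ≠ 0) (hm : S.mv.tm m < S.T)
    (hrot : S.mv.IsRot m) {p : List ℕ} (hjj : S.mv.jj m = 0 :: p) {i : ℕ}
    (hi : p.length + 1 ≤ i) {CT lam : ℝ} (hCT : 2 * cThr ≤ CT)
    (hlam : ((S.cm : ℝ) + 1) * S.kap ^ S.th ≤ lam) :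
    ∫⁻ x, iw (S.thru (p.length + 1) m ∩ S.OL (p.length + 1) m ∩ S.alj (p.length + 1) i m) x *
      S.xd (S.nd m x i) m x ∂stdGaussian E ≤
      ENNReal.ofReal (CT * S.mv.ph m * lam ^ (S.kr m + (i - (p.length + 1)))) *
        S.Rw p.length m := by
  set n := i - (p.length + 1) with hn
  set V := ∫⁻ x, (S.Rg p 0 m).indicator 1 x *
        ({x | ENNReal.ofReal (Real.exp (-1418)) ≤ S.q p m x}.indicator (S.As S.th p m) x)
        ∂stdGaussian E with hV
  have hcT := cThr_pos
  have hφ := S.mv.ph_nonneg m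
  have hk := S.hkap
  have hk1 := S.hkap1
  have hkt : 0 < S.kap ^ S.th := Real.rpow_pos_of_pos hk _
  have hRm : Measurable ((S.Rg p 0 m).indicator (1 : E → ℝ≥0∞)) :=
    measurable_one.indicator (measurableSet_Rg_c hm)
  have hterm : ∀ u ∈ ls S.cm n, ∫⁻ x, (S.Rg p 0 m).indicator 1 x *
      (if NLu S m (0 :: p) u then S.xd (u ++ (0 :: p)) m x else 0) ∂stdGaussian E ≤
      ENNReal.ofReal (2 * cThr * S.mv.ph m * (S.kap ^ S.th) ^ (S.kr m + n)) * V := by
    intro u hu
    by_cases hNL : NLu S m (0 :: p) u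
    swap
    · simp only [if_neg hNL, mul_zero, lintegral_zero]
      exact bot_le
    simp only [if_pos hNL]
    refine (thr0_list H hroot hm hrot hjj hNL).trans ?_
    refine mul_le_mul' (ENNReal.ofReal_le_ofReal ?_) le_rfl
    refine mul_le_mul_of_nonneg_left ?_ (by positivity)
    have hSI := SI_desc hm hrot hjj hNL
    have hul := length_ls hu
    have h1 := finrank_desc (S := S) (m := m) (q := 0 :: p) (u := u) hSI
    rw [hul] at h1
    have h2 : S.kr m = Module.finrank ℝ (S.W (0 :: p) m) - Module.finrank ℝ (S.W p m) := by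
      unfold kr
      rw [hjj]
      rfl
    have h3 : Module.finrank ℝ (S.W p m) ≤ Module.finrank ℝ (S.W (0 :: p) m) :=
      Submodule.finrank_mono (S.W_le 0 p m)
    have h4 : S.kr m + n ≤
        Module.finrank ℝ (S.W (u ++ (0 :: p)) m) - Module.finrank ℝ (S.W p m) := by omega
    have h5 : S.kap ^ (Module.finrank ℝ (S.W (u ++ (0 :: p)) m) - Module.finrank ℝ (S.W p m)) ≤
        S.kap ^ (S.kr m + n) := pow_le_pow_of_le_one hk.le hk1 h4
    have h6 : (S.kap ^ S.th) ^ (S.kr m + n) = (S.kap ^ (S.kr m + n)) ^ S.th := by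
      rw [← Real.rpow_natCast, ← Real.rpow_mul hk.le, mul_comm, Real.rpow_mul hk.le,
        Real.rpow_natCast]
    rw [h6]
    exact Real.rpow_le_rpow (pow_nonneg hk.le _) h5 S.hth.le
  refine (lintegral_mono (point_le hjj hi)).trans ?_
  have hmeas : ∀ u ∈ ls S.cm n, Measurable fun x => (S.Rg p 0 m).indicator (1 : E → ℝ≥0∞) x *
      (if NLu S m (0 :: p) u then S.xd (u ++ (0 :: p)) m x else 0) := by
    intro u _
    by_cases hNL : NLu S m (0 :: p) u
    · simp only [if_pos hNL]
      exact hRm.mul (measurable_xd _ _)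
    · simp only [if_neg hNL, mul_zero]
      exact measurable_const
  rw [lintegral_finset_sum _ hmeas]
  refine (Finset.sum_le_sum hterm).trans ?_
  rw [Finset.sum_const, nsmul_eq_mul, ← mul_assoc]
  refine mul_le_mul' ?_ (V_le_Rw H hm hjj)
  have h1 : ((ls S.cm n).card : ℝ≥0∞) ≤ ENNReal.ofReal (((S.cm : ℝ) + 1) ^ n) := by
    have h2 : ((ls S.cm n).card : ℝ) ≤ ((S.cm : ℝ) + 1) ^ n := by
      have := card_ls S.cm n
      exact_mod_cast this
    rw [← ENNReal.ofReal_natCast]
    exact ENNReal.ofReal_le_ofReal h2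
  refine (mul_le_mul' h1 le_rfl).trans ?_
  rw [← ENNReal.ofReal_mul (by positivity)]
  refine ENNReal.ofReal_le_ofReal ?_
  have hcm : (1 : ℝ) ≤ (S.cm : ℝ) + 1 := by
    have : (0 : ℝ) ≤ S.cm := Nat.cast_nonneg _
    linarith
  have h2 : ((S.cm : ℝ) + 1) ^ n ≤ ((S.cm : ℝ) + 1) ^ (S.kr m + n) :=
    pow_le_pow_right₀ hcm (by omega)
  have h3 : (((S.cm : ℝ) + 1) * S.kap ^ S.th) ^ (S.kr m + n) ≤ lam ^ (S.kr m + n) :=
    pow_le_pow_left₀ (by positivity) hlam _
  have h4 : 0 ≤ lam := le_trans (by positivity) hlam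
  have h5 : 0 ≤ CT * S.mv.ph m := mul_nonneg (by linarith) hφ
  calc ((S.cm : ℝ) + 1) ^ n * (2 * cThr * S.mv.ph m * (S.kap ^ S.th) ^ (S.kr m + n))
      ≤ ((S.cm : ℝ) + 1) ^ (S.kr m + n) *
        (2 * cThr * S.mv.ph m * (S.kap ^ S.th) ^ (S.kr m + n)) := by gcongr
    _ = 2 * cThr * S.mv.ph m * (((S.cm : ℝ) + 1) * S.kap ^ S.th) ^ (S.kr m + n) := by
        rw [mul_pow]; ring
    _ ≤ CT * S.mv.ph m * lam ^ (S.kr m + n) := by gcongr

/-- **the Prop THR0 of the interface**, with one factor `cm + 1` per dimension (road A) -/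
theorem THR0_lists (H : ThrC S) (hroot : ∀ m, m < S.mT → ∀ x, S.kl [] m x ≠ 0) {CT lam : ℝ}
    (hCT : 2 * cThr ≤ CT) (hlam : ((S.cm : ℝ) + 1) * S.kap ^ S.th ≤ lam) : S.THR0 CT lam := by
  intro m hm hrot p hjj i hi _
  exact thr0_sum H (hroot m hm) (tm_lt_c hm) hrot hjj hi hCT hlam

end Vale.Agent.P262.H431
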