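import Mathlib
import Vale.Agent.P262.H431.Thr10
import Vale.Agent.P262.M2.Unfold

/-!
# P262, block THR0, part 11: splitting the throughput at the first level of class `≥ 1`

The node `0 :: p` is rotated.  Below it the path of a label stays in the class `0` up to a level `k`
(node `rk p k`), where it has a class `≥ 1`, or down to the target.
-/

set_option linter.all false

open MeasureTheory ProbabilityTheory Set
open scoped ENNReal NNReal RealInnerProductSpace
open Vale.Agent.P262.H395 (fib mix Inv measurable_fib fib_mono)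
open Vale.Agent.P262.H395.CW (SI)
open Vale.Agent.P262.H44 (InvS)

namespace Vale.Agent.P262.H431

open Vale.Agent.P262.M2
open Vale.Agent.P262.M2.Sys

variable {E : Type*} [NormedAddCommGroup E] [InnerProductSpace ℝ E] [FiniteDimensional ℝ E]
  [MeasurableSpace E] [BorelSpace E] {S : Sys E}

/-- the class `0` chain below `0 :: p` -/
def rk (p : List ℕ) (k : ℕ) : List ℕ := List.replicate k 0 ++ (0 :: p)

lemma rk_zero (p : List ℕ) : rk p 0 = 0 :: p := rfl

lemma rk_succ (p : List ℕ) (k : ℕ) : rk p (k + 1) = 0 :: rk p k := rfl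

lemma length_rk (p : List ℕ) (k : ℕ) : (rk p k).length = p.length + 1 + k := by
  unfold rk
  rw [List.length_append, List.length_replicate, List.length_cons]
  omega

/-- right side of (THR0) at the region of the parent -/
noncomputable def V0 (S : Sys E) (p : List ℕ) (m : ℕ) : ℝ≥0∞ :=
  ∫⁻ x, (S.Rg p 0 m).indicator 1 x *
    ({x | ENNReal.ofReal (Real.exp (-1418)) ≤ S.q p m x}.indicator (S.As S.th p m) x)
    ∂stdGaussian E

/-- labels of class `≥ 1` -/
def Gd (S : Sys E) (r : List ℕ) (m : ℕ) : Set E := {x | 1 ≤ S.kl r m x}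

/-- no leaf among `rk p 0, …, rk p k` -/
def NLk (S : Sys E) (p : List ℕ) (m k : ℕ) : Prop := ∀ l ≤ k, ¬ S.Leaf (rk p l) m

lemma suffix_rk {p s : List ℕ} {k : ℕ} (h1 : (0 :: p) <:+ s) (h2 : s <:+ rk p k) :
    ∃ l ≤ k, s = rk p l := by
  induction k with
  | zero =>
    refine ⟨0, le_rfl, ?_⟩
    exact (h1.eq_of_length (le_antisymm h1.length_le h2.length_le)).symm
  | succ k ih =>
    rw [rk_succ] at h2
    rcases List.suffix_cons_iff.mp h2 with h | h
    · exact ⟨k + 1, le_rfl, by rw [h, rk_succ]⟩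
    · obtain ⟨l, hl, h3⟩ := ih h
      exact ⟨l, by omega, h3⟩

lemma NLu_of {p : List ℕ} {m k : ℕ} (h : ∀ l < k, ¬ S.Leaf (rk p l) m) :
    NLu S m (0 :: p) (List.replicate k 0) := by
  intro s h1 h2 h3
  obtain ⟨l, hl, rfl⟩ := suffix_rk (k := k) h1 h2
  refine h l (lt_of_le_of_ne hl fun h4 => h3 ?_)
  rw [h4]; rfl

lemma NLk.nlu {p : List ℕ} {m k : ℕ} (h : NLk S p m k) :
    NLu S m (0 :: p) (List.replicate k 0) := NLu_of fun l hl => h l hl.le

lemma rk_SI {m : ℕ} (hm : S.mv.tm m < S.T) (hrot : S.mv.IsRot m) {p : List ℕ}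
    (hjj : S.mv.jj m = 0 :: p) {k : ℕ} (h : NLk S p m k) :
    SI (fun r => S.W r m) (rk p k) := SI_desc hm hrot hjj h.nlu

lemma W_p_le_rk (S : Sys E) (p : List ℕ) (m k : ℕ) : S.W p m ≤ S.W (rk p k) m :=
  S.W_mono ((List.suffix_cons 0 p).trans (List.suffix_append _ _)) m

/-- the region of the parent, seen from `rk p k` -/
lemma Rg_inv_rk {m : ℕ} (hm : S.mv.tm m < S.T) (hrot : S.mv.IsRot m) {p : List ℕ}
    (hjj : S.mv.jj m = 0 :: p) {k : ℕ} (h : NLk S p m k) :
    InvS (S.W (rk p k) m) (S.Rg p 0 m) := by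
  have h1 : SI (fun r => S.W r m) (rk p 0) := rk_SI hm hrot hjj (k := 0) fun l hl => h l (by omega)
  have h2 : SI (fun r => S.W r m) p := SI.tail (by rw [rk_zero] at h1; exact h1)
  have h3 : InvS (S.W p m) (S.Rg p 0 m) := (lab_c hm).inv_c h2 0
  exact Vale.Agent.P262.H395.CW.InvS.mono' (W_p_le_rk S p m k) h3

lemma measurableSet_Gd (r : List ℕ) (m : ℕ) : MeasurableSet (Gd S r m) := by
  classical
  have h := measurable_of_kl (S := S) (p := r) (m := m)
    (F := fun c (_ : E) => if 1 ≤ c then (1 : ℝ≥0∞) else 0) (fun c => measurable_const)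
  have e : Gd S r m = (fun x => (fun c (_ : E) => if 1 ≤ c then (1 : ℝ≥0∞) else 0)
      (S.kl r m x) x) ⁻¹' {1} := by
    ext x
    simp only [Gd, mem_setOf_eq, mem_preimage, mem_singleton_iff]
    split_ifs with h1 <;> simp [h1]
  rw [e]
  exact h (measurableSet_singleton _)

lemma Gd_inv (r : List ℕ) {m : ℕ} (hm : S.mv.tm m < S.T) : InvS (S.W r m) (Gd S r m) := by
  intro x w hw
  unfold Gd
  rw [mem_setOf_eq, mem_setOf_eq, kl_inv r hm x w hw]

open Classical in
/-- **pointwise split** at the first level of class `≥ 1` -/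
lemma point_split {m : ℕ} {p : List ℕ} (hjj : S.mv.jj m = 0 :: p) (n : ℕ) (x : E) :
    iw (S.thru (p.length + 1) m ∩ S.OL (p.length + 1) m ∩
        S.alj (p.length + 1) (p.length + 1 + n) m) x *
      S.xd (S.nd m x (p.length + 1 + n)) m x ≤
    (S.Rg p 0 m).indicator 1 x *
      (if NLu S m (0 :: p) (List.replicate n 0) then S.xd (rk p n) m x else 0) +
    ∑ k ∈ Finset.range n, if NLk S p m k then (S.Rg p 0 m).indicator 1 x *
      ((Gd S (rk p k) m).indicator 1 x * (iw (S.nlf (rk p k) m (n - k)) x *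
        S.xd (S.nb (rk p k) m x (n - k)) m x)) else 0 := by
  by_cases hx : x ∈ S.thru (p.length + 1) m ∩ S.OL (p.length + 1) m ∩
      S.alj (p.length + 1) (p.length + 1 + n) m
  swap
  · unfold iw
    rw [indicator_of_notMem hx, zero_mul]
    exact bot_le
  have hle : iw (S.thru (p.length + 1) m ∩ S.OL (p.length + 1) m ∩
        S.alj (p.length + 1) (p.length + 1 + n) m) x *
      S.xd (S.nd m x (p.length + 1 + n)) m x ≤ S.xd (S.nd m x (p.length + 1 + n)) m x := by
    calc iw _ x * S.xd (S.nd m x (p.length + 1 + n)) m x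
        ≤ 1 * S.xd (S.nd m x (p.length + 1 + n)) m x :=
          mul_le_mul' (indicator_le_one' _ x) le_rfl
      _ = _ := one_mul _
  refine hle.trans ?_
  obtain ⟨⟨h1, h2⟩, h3⟩ := hx
  have h1' : S.nd m x (p.length + 1) = 0 :: p := by rw [← hjj]; exact h1
  have hR : x ∈ S.Rg p 0 m := (mem_Rg_iff_c rfl).mpr ⟨h2, h1'⟩
  have hR1 : (S.Rg p 0 m).indicator (1 : E → ℝ≥0∞) x = 1 := by
    rw [indicator_of_mem hR, Pi.one_apply]
  -- the first level where the path leaves the chain
  have hlf : ∀ l, l < n → S.nd m x (p.length + 1 + l) = rk p l → ¬ S.Leaf (rk p l) m := by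
    intro l hl h
    rw [← h]
    exact (h3 (p.length + 1 + l) (by omega) (by omega)).2
  by_cases hall : ∀ l ≤ n, S.nd m x (p.length + 1 + l) = rk p l
  · have hN : NLu S m (0 :: p) (List.replicate n 0) :=
      NLu_of fun l hl => hlf l hl (hall l hl.le)
    rw [if_pos hN, hR1, one_mul, hall n le_rfl]
    exact le_self_add
  · push Not at hall
    obtain ⟨l0, hl0, hne⟩ := hall
    have hex : ∃ l, S.nd m x (p.length + 1 + l) ≠ rk p l := ⟨l0, hne⟩
    set l := Nat.find hex with hldef
    have hl : S.nd m x (p.length + 1 + l) ≠ rk p l := Nat.find_spec hex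
    have hmin : ∀ l' < l, S.nd m x (p.length + 1 + l') = rk p l' := fun l' h' => by
      have := Nat.find_min hex h'
      push Not at this
      exact this
    have hln : l ≤ n := (Nat.find_min' hex hne).trans hl0
    obtain ⟨k, hk⟩ : ∃ k, l = k + 1 := by
      rcases Nat.eq_zero_or_pos l with h | h
      · exfalso
        apply hl
        rw [h, add_zero, rk_zero]
        exact h1'
      · exact ⟨l - 1, by omega⟩
    have hk1 : S.nd m x (p.length + 1 + k) = rk p k := hmin k (by omega)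
    have hk2 : 1 ≤ S.kl (rk p k) m x := by
      rcases Nat.eq_zero_or_pos (S.kl (rk p k) m x) with h | h
      · exfalso
        apply hl
        rw [hk, ← add_assoc, nd_succ, hk1, h, rk_succ]
      · exact h
    have hkn : k < n := by omega
    have hNL : NLk S p m k := fun l' h' => hlf l' (by omega) (hmin l' (by omega))
    have hG : x ∈ Gd S (rk p k) m := hk2
    have e2 : ∀ i, S.nd m x (p.length + 1 + (k + i)) = S.nb (rk p k) m x i := fun i => by
      rw [← add_assoc, nd_add, hk1]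
    have hnlf : x ∈ S.nlf (rk p k) m (n - k) := fun i hi => by
      rw [← e2]
      exact (h3 (p.length + 1 + (k + i)) (by omega) (by omega)).2
    refine le_trans ?_ le_add_self
    refine le_trans ?_ (Finset.single_le_sum (f := fun k => if NLk S p m k then
      (S.Rg p 0 m).indicator (1 : E → ℝ≥0∞) x *
      ((Gd S (rk p k) m).indicator 1 x * (iw (S.nlf (rk p k) m (n - k)) x *
        S.xd (S.nb (rk p k) m x (n - k)) m x)) else 0) (fun _ _ => bot_le)
      (Finset.mem_range.mpr hkn))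
    have e3 : S.nd m x (p.length + 1 + n) = S.nb (rk p k) m x (n - k) := by
      rw [← e2]
      congr 2
      omega
    rw [if_pos hNL, hR1, one_mul, indicator_of_mem hG, Pi.one_apply, one_mul, iw,
      indicator_of_mem hnlf, Pi.one_apply, one_mul, e3]

/-- **the good part at `rk p k`**: throughput `n` levels below the labels of class `≥ 1` -/
def GoodK (S : Sys E) (wt : ℕ → List ℕ → E → ℝ≥0∞) (C lam : ℝ) (m : ℕ) (p : List ℕ) (k n : ℕ) :
    Prop :=
  ∫⁻ x, (S.Rg p 0 m).indicator 1 x * ((Gd S (rk p k) m).indicator 1 x *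
      (S.As S.th (rk p k) m x * S.tauT wt (S.pay m) m n (rk p k) x)) ∂stdGaussian E ≤
    ENNReal.ofReal (C * S.mv.ph m * lam ^ (S.kr m + k + n)) * V0 S p m

lemma mtower {W : Submodule ℝ E} {A B : Set E} (hA : InvS W A) (hB : InvS W B)
    (hAm : MeasurableSet A) (hBm : MeasurableSet B) {F : E → ℝ≥0∞} (hF : Measurable F) :
    ∫⁻ x, A.indicator 1 x * (B.indicator 1 x * F x) ∂stdGaussian E =
      ∫⁻ x, A.indicator 1 x * (B.indicator 1 x * fib W F x) ∂stdGaussian E := by
  have hA1 : Measurable (A.indicator (1 : E → ℝ≥0∞)) := measurable_one.indicator hAm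
  have hB1 : Measurable (B.indicator (1 : E → ℝ≥0∞)) := measurable_one.indicator hBm
  have hAB : Measurable fun x => A.indicator (1 : E → ℝ≥0∞) x * B.indicator 1 x := hA1.mul hB1
  rw [← H395.lintegral_fib (W := W) (f := fun x => A.indicator 1 x * (B.indicator 1 x * F x))
    (hA1.mul (hB1.mul hF))]
  refine lintegral_congr fun x => ?_
  have h1 : Inv W fun x => A.indicator (1 : E → ℝ≥0∞) x * B.indicator 1 x := by
    intro x w hw
    have h2 : A.indicator (1 : E → ℝ≥0∞) (x + w) = A.indicator 1 x := iw_inv hA x w hw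
    have h3 : B.indicator (1 : E → ℝ≥0∞) (x + w) = B.indicator 1 x := iw_inv hB x w hw
    simp only [h2, h3]
  have h4 := H395.fib_mul h1 hF x
  simp only [← mul_assoc] at h4 ⊢
  exact h4

open Classical in
/-- **(THR0) from the good parts.** -/
theorem thr0_of_good (H : ThrC S) {m : ℕ} (hroot : ∀ x, S.kl [] m x ≠ 0) (hmT : m < S.mT)
    (hrot : S.mv.IsRot m) {p : List ℕ} (hjj : S.mv.jj m = 0 :: p)
    {wt : ℕ → List ℕ → E → ℝ≥0∞}
    (hwt : ∀ c r y, S.As S.th (c :: r) m y ≤ wt c r y * S.As S.th r m y)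
    (hw : ∀ c r, Measurable (wt c r)) {C CT lam0 lam : ℝ} (hC : 0 ≤ C) (hl0 : 0 ≤ lam0)
    (hCT : 2 * cThr + C ≤ CT) (hlam : S.kap ^ S.th ≤ lam) (hlam0 : 2 * lam0 ≤ lam) {i : ℕ}
    (hi : p.length + 1 ≤ i) (hi' : i ≤ S.nl)
    (hG : ∀ k n, 1 ≤ n → p.length + 1 + k + n ≤ S.nl → NLk S p m k →
      GoodK S wt C lam0 m p k n) :
    S.thq (p.length + 1) i m ≤
      ENNReal.ofReal (CT * S.mv.ph m * lam ^ (S.kr m + (i - (p.length + 1)))) *
        S.Rw p.length m := by
  obtain ⟨n, rfl⟩ : ∃ n, i = p.length + 1 + n := ⟨i - (p.length + 1), by omega⟩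
  have hm := tm_lt_c hmT
  have en : p.length + 1 + n - (p.length + 1) = n := by omega
  rw [en]
  have hcT := cThr_pos
  have hφ := S.mv.ph_nonneg m
  have hk := S.hkap
  have hk1 := S.hkap1
  have hkt : 0 < S.kap ^ S.th := Real.rpow_pos_of_pos hk _
  have hRm : Measurable ((S.Rg p 0 m).indicator (1 : E → ℝ≥0∞)) :=
    measurable_one.indicator (measurableSet_Rg_c hm)
  have hlam' : 0 ≤ lam := by linarith
  unfold thq
  refine (lintegral_mono (point_split hjj n)).trans ?_
  -- own term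
  have mo : Measurable fun x => (S.Rg p 0 m).indicator (1 : E → ℝ≥0∞) x *
      (if NLu S m (0 :: p) (List.replicate n 0) then S.xd (rk p n) m x else 0) := by
    by_cases hN : NLu S m (0 :: p) (List.replicate n 0)
    · simp only [if_pos hN]
      exact hRm.mul (measurable_xd _ _)
    · simp only [if_neg hN, mul_zero]
      exact measurable_const
  have mf : ∀ k, Measurable fun x => iw (S.nlf (rk p k) m (n - k)) x *
      S.xd (S.nb (rk p k) m x (n - k)) m x := fun k =>
    (iw_meas (measurableSet_nlf _ _ _)).mul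
      (measurable_nb (rk p k) m (n - k) (F := fun q y => S.xd q m y) fun q => measurable_xd _ _)
  have mg : ∀ k ∈ Finset.range n, Measurable fun x => (if NLk S p m k then
      (S.Rg p 0 m).indicator (1 : E → ℝ≥0∞) x *
      ((Gd S (rk p k) m).indicator 1 x * (iw (S.nlf (rk p k) m (n - k)) x *
        S.xd (S.nb (rk p k) m x (n - k)) m x)) else 0) := by
    intro k _
    by_cases hN : NLk S p m k
    · simp only [if_pos hN]
      exact hRm.mul ((measurable_one.indicator (measurableSet_Gd _ _)).mul (mf k))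
    · simp only [if_neg hN]
      exact measurable_const
  rw [lintegral_add_left mo, lintegral_finset_sum _ mg]
  have hown : ∫⁻ x, (S.Rg p 0 m).indicator 1 x *
      (if NLu S m (0 :: p) (List.replicate n 0) then S.xd (rk p n) m x else 0) ∂stdGaussian E ≤
      ENNReal.ofReal (2 * cThr * S.mv.ph m * lam ^ (S.kr m + n)) * V0 S p m := by
    by_cases hNL : NLu S m (0 :: p) (List.replicate n 0)
    swap
    · simp only [if_neg hNL, mul_zero, lintegral_zero]
      exact bot_le
    simp only [if_pos hNL]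
    refine (thr0_list H hroot hm hrot hjj hNL).trans ?_
    refine mul_le_mul' (ENNReal.ofReal_le_ofReal ?_) le_rfl
    refine mul_le_mul_of_nonneg_left ?_ (by positivity)
    have hSI := SI_desc hm hrot hjj hNL
    have h1 := finrank_desc (S := S) (m := m) (q := 0 :: p) (u := List.replicate n 0) hSI
    rw [List.length_replicate] at h1
    have h2 : S.kr m = Module.finrank ℝ (S.W (0 :: p) m) - Module.finrank ℝ (S.W p m) := by
      unfold kr
      rw [hjj]
      rfl
    have h3 : Module.finrank ℝ (S.W p m) ≤ Module.finrank ℝ (S.W (0 :: p) m) :=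
      Submodule.finrank_mono (S.W_le 0 p m)
    have h4 : S.kr m + n ≤
        Module.finrank ℝ (S.W (List.replicate n 0 ++ (0 :: p)) m) -
          Module.finrank ℝ (S.W p m) := by omega
    have h5 : S.kap ^ (Module.finrank ℝ (S.W (List.replicate n 0 ++ (0 :: p)) m) -
        Module.finrank ℝ (S.W p m)) ≤ S.kap ^ (S.kr m + n) :=
      pow_le_pow_of_le_one hk.le hk1 h4
    have h6 : (S.kap ^ S.th) ^ (S.kr m + n) = (S.kap ^ (S.kr m + n)) ^ S.th := by
      rw [← Real.rpow_natCast, ← Real.rpow_mul hk.le, mul_comm, Real.rpow_mul hk.le,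
        Real.rpow_natCast]
    calc (S.kap ^ (Module.finrank ℝ (S.W (List.replicate n 0 ++ (0 :: p)) m) -
          Module.finrank ℝ (S.W p m))) ^ S.th ≤ (S.kap ^ (S.kr m + n)) ^ S.th :=
          Real.rpow_le_rpow (pow_nonneg hk.le _) h5 S.hth.le
      _ = (S.kap ^ S.th) ^ (S.kr m + n) := h6.symm
      _ ≤ lam ^ (S.kr m + n) := pow_le_pow_left₀ hkt.le hlam _
  -- good part
  have hgood : ∀ k ∈ Finset.range n, ∫⁻ x, (if NLk S p m k then
      (S.Rg p 0 m).indicator (1 : E → ℝ≥0∞) x *
      ((Gd S (rk p k) m).indicator 1 x * (iw (S.nlf (rk p k) m (n - k)) x *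
        S.xd (S.nb (rk p k) m x (n - k)) m x)) else 0) ∂stdGaussian E ≤
      ENNReal.ofReal (C * S.mv.ph m * lam0 ^ (S.kr m + n)) * V0 S p m := by
    intro k hk'
    rw [Finset.mem_range] at hk'
    by_cases hN : NLk S p m k
    swap
    · simp only [if_neg hN, lintegral_zero]
      exact bot_le
    simp only [if_pos hN]
    rw [mtower (Rg_inv_rk hm hrot hjj hN) (Gd_inv _ hm) (measurableSet_Rg_c hm)
      (measurableSet_Gd _ _) (mf k)]
    have h7 := hG k (n - k) (by omega) (by omega) hN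
    have e7 : S.kr m + k + (n - k) = S.kr m + n := by omega
    unfold GoodK at h7
    rw [e7] at h7
    refine le_trans (lintegral_mono fun x => ?_) h7
    refine mul_le_mul' le_rfl (mul_le_mul' le_rfl ?_)
    refine le_trans (fib_mono (fun y => ?_) x)
      (unfold_node hm (fun c r y _ => hwt c r y) hw (pay_meas m) (pay_inv m) (n - k) (rk p k) x)
    exact mul_le_mul' le_rfl (xd_le m _ y)
  refine (add_le_add hown (Finset.sum_le_sum hgood)).trans ?_
  rw [Finset.sum_const, Finset.card_range, nsmul_eq_mul, ← mul_assoc, ← add_mul]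
  refine mul_le_mul' ?_ (V_le_Rw H hm hjj)
  have h1 : ((n : ℕ) : ℝ≥0∞) ≤ ENNReal.ofReal ((2 : ℝ) ^ (S.kr m + n)) := by
    rw [← ENNReal.ofReal_natCast]
    refine ENNReal.ofReal_le_ofReal ?_
    have h2 : n < 2 ^ n := Nat.lt_two_pow_self
    have h3 : (n : ℝ) ≤ (2 : ℝ) ^ n := by exact_mod_cast h2.le
    exact h3.trans (pow_le_pow_right₀ (by norm_num) (by omega))
  refine (add_le_add le_rfl (mul_le_mul' h1 le_rfl)).trans ?_
  rw [← ENNReal.ofReal_mul (by positivity), ← ENNReal.ofReal_add (by positivity) (by positivity)]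
  refine ENNReal.ofReal_le_ofReal ?_
  have h3 : (2 * lam0) ^ (S.kr m + n) ≤ lam ^ (S.kr m + n) :=
    pow_le_pow_left₀ (by positivity) hlam0 _
  calc 2 * cThr * S.mv.ph m * lam ^ (S.kr m + n) +
        (2 : ℝ) ^ (S.kr m + n) * (C * S.mv.ph m * lam0 ^ (S.kr m + n))
      = 2 * cThr * S.mv.ph m * lam ^ (S.kr m + n) +
        C * S.mv.ph m * (2 * lam0) ^ (S.kr m + n) := by rw [mul_pow]; ring
    _ ≤ 2 * cThr * S.mv.ph m * lam ^ (S.kr m + n) +
        C * S.mv.ph m * lam ^ (S.kr m + n) := by gcongr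
    _ = (2 * cThr + C) * S.mv.ph m * lam ^ (S.kr m + n) := by ring
    _ ≤ CT * S.mv.ph m * lam ^ (S.kr m + n) := by gcongr

/-- **the Prop THR0 of the interface** (road B) from the good parts -/
theorem THR0_of_good (H : ThrC S) (hroot : ∀ m, m < S.mT → ∀ x, S.kl [] m x ≠ 0)
    {wt : ℕ → ℕ → List ℕ → E → ℝ≥0∞}
    (hwt : ∀ m < S.mT, ∀ c r y, S.As S.th (c :: r) m y ≤ wt m c r y * S.As S.th r m y)
    (hw : ∀ m c r, Measurable (wt m c r)) {C CT lam0 lam : ℝ} (hC : 0 ≤ C) (hl0 : 0 ≤ lam0)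
    (hCT : 2 * cThr + C ≤ CT) (hlam : S.kap ^ S.th ≤ lam) (hlam0 : 2 * lam0 ≤ lam)
    (hG : ∀ m < S.mT, S.mv.IsRot m → ∀ p, S.mv.jj m = 0 :: p → ∀ k n, 1 ≤ n →
      p.length + 1 + k + n ≤ S.nl → NLk S p m k → GoodK S (wt m) C lam0 m p k n) :
    S.THR0 CT lam := by
  intro m hm hrot p hjj i hi hi'
  exact thr0_of_good H (hroot m hm) hm hrot hjj (hwt m hm) (hw m) hC hl0 hCT hlam hlam0 hi hi'
    (hG m hm hrot p hjj)

end Vale.Agent.P262.H431
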