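import Mathlib
import Vale.Agent.P262.H431.Thr11
import Vale.Agent.P262.H711.Inst
import Vale.Agent.P262.H962.ChainS
import Vale.Agent.P262.H118.RotB
import Vale.Agent.P262.H941.BeSys
import Vale.Agent.P262.H837.ThrI

/-!
# P262, block THR0, part 12: directions strictly below a node, pointwise

`r0` = any node at or below the rotating node `q`, targets `n` levels below `r0`.  The own directions
of the nodes strictly below `r0` and the fibre directions contribute at most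
`C 2 ^ k ph (1 + |⟨θ, x⟩|) (24 kq) ^ n` at every label `x` of class `≥ 1`.
-/

set_option linter.all false

open MeasureTheory ProbabilityTheory Set
open scoped ENNReal NNReal RealInnerProductSpace
open Vale.Agent.P262.H118 (ON rotE El2 paths mem_paths lyd nv sg la exists_la measurableSet_la
  norm_nv nv_mem la_add measurableSet_lyd mem_sg inner_mix_label fib_mono_fibre lyd_zero)
open Vale.Agent.P262.H395 (fib mix Inv measurable_fib fib_mono)
open Vale.Agent.P262.H395.CW (SI)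
open Vale.Agent.P262.H44 (InvS)

namespace Vale.Agent.P262.H431

open Vale.Agent.P262.M2
open Vale.Agent.P262.M2.Sys

variable {E : Type*} [NormedAddCommGroup E] [InnerProductSpace ℝ E] [FiniteDimensional ℝ E]
  [MeasurableSpace E] [BorelSpace E] {S : Sys E}

/-! ### payoffs -/

/-- payoff of the own direction of `s` with the step `h` -/
noncomputable def pO (S : Sys E) (m : ℕ) (b : List ℕ → E) (o : Bool) (ε : ℝ) (s : List ℕ) (h : ℝ)
    (r : List ℕ) (y : E) : ℝ≥0∞ :=
  S.mu s (lyd (S.bd s m o) (S.bd s m (!o)) univ (ε • nv (S.bo m b s)) h) r m y /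
    S.Dc r m y ^ S.th

/-- payoff of the own direction of the node of level `|q| + i + 1` (118's term) -/
noncomputable def pW (S : Sys E) (m : ℕ) (q : List ℕ) (θ : E) (b : List ℕ → E) (o : Bool) (ε : ℝ)
    (i : ℕ) (r : List ℕ) (y : E) : ℝ≥0∞ :=
  pO S m b o ε (sf1 q r i) (S.stb m i θ y) r y

/-- payoff of the fibre direction (118's term) -/
noncomputable def pF (S : Sys E) (m : ℕ) (θ : E) (b : List ℕ → E) (o : Bool) (ε : ℝ)
    (r : List ℕ) (y : E) : ℝ≥0∞ :=
  fib (S.W r m) ((lyd (S.bd r m o) (S.bd r m (!o)) univ (ε • S.bf m b r)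
    (S.stf m θ y)).indicator 1) y / S.Dc r m y ^ S.th

lemma tau_zero_pay {F : H711.Fam E (List ℕ)} (n : ℕ) : ∀ (r : List ℕ) (x : E),
    H711.tau F (fun _ _ => 0) n r x = 0 := by
  induction n with
  | zero => intro r x; rfl
  | succ n ih =>
    intro r x
    by_cases hL : F.L r
    · exact H962.tau_leaf _ _ hL x
    · rw [H962.tau_succ _ _ hL]
      simp only [ih, mul_zero]
      exact H395.fib_const _ _ _

lemma pO_le_gq {m : ℕ} (hrot : S.mv.IsRot m) {b : List ℕ → E} {o : Bool} {ε : ℝ} {s : List ℕ}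
    (hs : S.mv.jj m <:+ s) {h : ℝ} {r : List ℕ} (hr : s <:+ r) (y : E) :
    pO S m b o ε s h r y = S.gq m o s univ (ε • nv (S.bo m b s)) h r y := by
  have h1 : S.mu s (lyd (S.bd s m o) (S.bd s m (!o)) univ (ε • nv (S.bo m b s)) h) r m y =
      fib (S.W r m) ((lyd (S.bd r m o) (S.bd r m (!o)) (S.tr s r m ⁻¹' univ)
        (ε • nv (S.bo m b s)) h).indicator 1) y := by
    unfold mu
    rw [tr_lyd_bd hrot hs hr (Submodule.smul_mem _ _ (nv_mem bo_mem))]
  unfold pO
  rw [h1]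
  cases o
  · rfl
  · rfl

/-- the payoff vanishes without a direction or a step -/
lemma pO_zero {m : ℕ} {b : List ℕ → E} {o : Bool} {ε : ℝ} {s : List ℕ} {h : ℝ}
    (h0 : S.bo m b s = 0 ∨ h = 0) (r : List ℕ) (y : E) : pO S m b o ε s h r y = 0 := by
  have e1 : lyd (S.bd s m o) (S.bd s m (!o)) univ (ε • nv (S.bo m b s)) h = ∅ := by
    rcases h0 with h0 | h0
    · have e : nv (S.bo m b s) = 0 := by rw [h0]; unfold nv; simp
      rw [e, smul_zero, lyd_zero]
    · rw [h0]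
      ext y
      simp only [lyd, mem_setOf_eq, zero_smul, add_zero, mem_empty_iff_false, iff_false]
      rintro ⟨-, h1, -, h2⟩
      exact h2 h1
  unfold pO
  rw [e1]
  have e2 : S.mu s ∅ r m y = 0 := by
    unfold mu
    rw [preimage_empty, indicator_empty]
    exact H395.fib_const _ _ _
  rw [e2, ENNReal.zero_div]

lemma norm_sg_nv {ε : ℝ} (hε : ε ∈ sg) {w : E} (hw : w ≠ 0) : ‖ε • nv w‖ = 1 := by
  rw [norm_smul, norm_nv hw, mul_one]
  rcases mem_sg.1 hε with h | h <;> rw [h] <;> simp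

/-! ### the own direction of a child -/

/-- **the own direction of the child `c :: R`**, from the labels of `R` -/
lemma own_at {m : ℕ} (hm : S.mv.tm m < S.T) (hrot : S.mv.IsRot m) (hth : S.th = 1 / 2)
    (hk : S.kq ≤ 1) {b : List ℕ → E} {o : Bool} {ε : ℝ} (hε : ε ∈ sg) {R : List ℕ}
    (hR : S.mv.jj m <:+ R) (hL : ¬ S.Leaf R m) {h : ℝ} (hh : 0 ≤ h) (a : ℕ) {c : ℕ} {x : E}
    (hc : S.kl R m x = c) :
    fib (S.W R m) (fun y => S.cw (c :: R) m y *
        H711.tau (S.fam m) (pO S m b o ε (c :: R) h) a (c :: R) y) x ≤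
      ENNReal.ofReal (80 * h) * (12 * ENNReal.ofReal S.kq) ^ a * ENNReal.ofReal S.kq *
        S.Dk c R m x ^ (1 / 2 : ℝ) := by
  by_cases h0 : S.bo m b (c :: R) = 0 ∨ h = 0
  · have e1 : pO S m b o ε (c :: R) h = fun _ _ => 0 := by
      funext r y; exact pO_zero h0 r y
    rw [e1]
    simp only [tau_zero_pay, mul_zero]
    rw [H395.fib_const]
    exact zero_le
  push Not at h0
  have hh' : 0 < h := lt_of_le_of_ne hh (Ne.symm h0.2)
  set e : E := ε • nv (S.bo m b (c :: R)) with he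
  have he1 : ‖e‖ = 1 := norm_sg_nv hε h0.1
  have hsuf : S.mv.jj m <:+ c :: R := hR.trans (List.suffix_cons _ _)
  have key := dir_sys hm hrot hth hk o hc hL (e := e)
    (Submodule.smul_mem _ _ (nv_mem bo_mem))
    (Submodule.smul_mem _ _ (nv_mem (bo_perp (S := S) (m := m) (b := b) (s := c :: R)))) he1
    (L := univ) MeasurableSet.univ (fun _ _ _ => mem_univ _) (al := 1 / 2) (be := 0)
    (Or.inl ⟨rfl, rfl⟩) hh' a
  have h1 : ∀ y, H711.tau (S.fam m) (pO S m b o ε (c :: R) h) a (c :: R) y ≤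
      H711.tau (S.fam m) (S.gq m o (c :: R) univ e h) a (c :: R) y := fun y =>
    H962.tau_mono (Q := fun _ r => (c :: R) <:+ r)
      (fun _ r x hr _ => hr.trans (List.suffix_cons _ _))
      (fun r y hr => (pO_le_gq hrot hsuf hr y).le) a (c :: R) y (List.suffix_refl _)
  refine (fib_mono (fun y => mul_le_mul' le_rfl (h1 y)) x).trans (key.trans ?_)
  rw [ENNReal.rpow_zero, mul_one]
  have h2 : ENNReal.ofReal (S.kq ^ (Module.finrank ℝ (S.W (c :: R) m) -
      Module.finrank ℝ (S.W R m))) ≤ ENNReal.ofReal S.kq := by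
    refine ENNReal.ofReal_le_ofReal ?_
    have h3 := S.one_le_od c hm hL
    unfold od at h3
    calc S.kq ^ (Module.finrank ℝ (S.W (c :: R) m) - Module.finrank ℝ (S.W R m)) ≤ S.kq ^ 1 :=
          pow_le_pow_of_le_one S.kq_nonneg hk h3
      _ = _ := pow_one _
  refine (mul_le_mul' le_rfl h2).trans (le_of_eq ?_)
  have e2 : ENNReal.ofReal (80 * h) = ENNReal.ofReal (40 * h) * 2 := by
    rw [show (80 : ℝ) * h = (40 * h) * 2 by ring, ENNReal.ofReal_mul (by positivity)]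
    congr 1
    simp
  rw [e2]
  ring

/-- freezing the step and the direction of the targets below `s` -/
lemma freeze_pW {m : ℕ} {q : List ℕ} {θ : E} (hθ : θ ∈ S.W q m) {b : List ℕ → E} {o : Bool}
    {ε : ℝ} {i a : ℕ} {s : List ℕ} (hs : q <:+ s) (hl : s.length = q.length + i + 1) (z : E) :
    H711.tau (S.fam m) (pW S m q θ b o ε i) a s z =
      H711.tau (S.fam m) (pO S m b o ε s (S.stb m i θ z)) a s z := by
  have h1 := H941.freeze (F := S.fam m) (fun c r => rfl) (u := fun y : E => ⟪θ, y⟫) (q := q)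
    (fun r hr x z => inner_mix_label (S.W_mono hr m hθ) x z)
    (fun t r y => pO S m b o ε (sf1 q r i) ((2 : ℝ) ^ (i + 3) * (S.mv.ph m * (1 + |t|))) r y)
    a s z hs
  have h2 : H711.tau (S.fam m) (pW S m q θ b o ε i) a s z = H711.tau (S.fam m)
      (fun r y => pO S m b o ε (sf1 q r i) (S.stb m i θ z) r y) a s z := h1
  rw [h2]
  have hQ : ∀ (k : ℕ) (r : List ℕ) (x : E), (∃ v, r = v ++ s ∧ v.length + (k + 1) = a) →
      ¬ (S.fam m).L r → ∃ v, (S.fam m).ch ((S.fam m).kl r x) r = v ++ s ∧ v.length + k = a := by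
    rintro k r x ⟨v, rfl, hv⟩ _
    refine ⟨(S.fam m).kl (v ++ s) x :: v, rfl, ?_⟩
    rw [List.length_cons]
    omega
  have h0 : ∀ (r : List ℕ), (∃ v, r = v ++ s ∧ v.length + 0 = a) → sf1 q r i = s := by
    rintro r ⟨v, rfl, hv⟩
    unfold sf1
    refine List.drop_left' ?_
    rw [List.length_append]
    omega
  refine le_antisymm ?_ ?_
  · exact H962.tau_mono (Q := fun k r => ∃ v, r = v ++ s ∧ v.length + k = a) hQ
      (fun r x hr => by rw [h0 r hr]) a s z ⟨[], rfl, by simp⟩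
  · exact H962.tau_mono (Q := fun k r => ∃ v, r = v ++ s ∧ v.length + k = a) hQ
      (fun r x hr => by rw [h0 r hr]) a s z ⟨[], rfl, by simp⟩

/-- **own directions strictly below `r0`**, pointwise -/
theorem own_deep {m : ℕ} (hm : S.mv.tm m < S.T) (hrot : S.mv.IsRot m) (hth : S.th = 1 / 2)
    (hk : S.kq ≤ 1) {q : List ℕ} (hq : S.mv.jj m = q) {θ : E} (hθ : θ ∈ S.W q m)
    {b : List ℕ → E} {o : Bool} {ε : ℝ} (hε : ε ∈ sg) {r0 : List ℕ} (hr0 : q <:+ r0) {k j n : ℕ}
    (hl : r0.length = q.length + k) (hj : j < n) (x : E) :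
    H711.tau (S.fam m) (pW S m q θ b o ε (k + j)) n r0 x ≤
      ENNReal.ofReal (80 * ((2 : ℝ) ^ (k + j + 3) * S.mv.ph m)) *
        (12 * ENNReal.ofReal S.kq) ^ (n - j - 1) * ENNReal.ofReal S.kq *
        ENNReal.ofReal (256 * S.kap ^ (1 / 2 : ℝ)) ^ j *
        (ENNReal.ofReal (1 + |⟪θ, x⟫|) * S.Dk (S.kl r0 m x) r0 m x ^ (1 / 2 : ℝ)) := by
  have hph := S.mv.ph_nonneg m
  set a := n - j - 1 with ha
  have hn : n = j + (a + 1) := by omega
  set C : ℝ≥0∞ := ENNReal.ofReal (80 * ((2 : ℝ) ^ (k + j + 3) * S.mv.ph m)) *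
        (12 * ENNReal.ofReal S.kq) ^ a * ENNReal.ofReal S.kq with hC
  rw [hn, H962.tau_add]
  refine chain_sys hm hth hk (q := q) (u := fun y => ENNReal.ofReal (1 + |⟪θ, y⟫|))
    (fun r hr => inv_one_add_c hr hθ) (L := q.length + k + j) (C := C)
    (g := fun r x => H711.tau (S.fam m) (pW S m q θ b o ε (k + j)) (a + 1) r x) ?_ j r0 x hr0
    (by omega)
  intro R y hR hRl
  by_cases hL : S.Leaf R m
  · rw [H962.tau_leaf (F := S.fam m) _ _ hL]
    exact zero_le
  rw [H962.tau_succ (F := S.fam m) _ _ hL]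
  set c := S.kl R m y with hc
  have h1 : fib (S.W R m) (fun z => S.cw (c :: R) m z *
      H711.tau (S.fam m) (pW S m q θ b o ε (k + j)) a (c :: R) z) y ≤
      fib (S.W R m) (fun z => S.cw (c :: R) m z *
        H711.tau (S.fam m) (pO S m b o ε (c :: R) (S.stb m (k + j) θ y)) a (c :: R) z) y := by
    refine H711.fib_le_of fun w => ?_
    set z := mix (S.W R m) y w with hz
    have h2 := freeze_pW (S := S) hθ (b := b) (o := o) (ε := ε) (i := k + j) (a := a)
      (s := c :: R) (hR.trans (List.suffix_cons _ _)) (by rw [List.length_cons]; omega) z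
    have h3 : S.stb m (k + j) θ z = S.stb m (k + j) θ y := by
      unfold stb
      rw [hz, inner_mix_label (S.W_mono hR m hθ)]
    rw [h2, h3]
  refine h1.trans ((own_at hm hrot hth hk hε (by rw [hq]; exact hR) hL
    (S.stb_nonneg (k + j) θ y) a hc.symm).trans (le_of_eq ?_))
  have e1 : ENNReal.ofReal (80 * S.stb m (k + j) θ y) =
      ENNReal.ofReal (80 * ((2 : ℝ) ^ (k + j + 3) * S.mv.ph m)) *
        ENNReal.ofReal (1 + |⟪θ, y⟫|) := by
    rw [← ENNReal.ofReal_mul (by positivity)]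
    congr 1
    unfold stb
    ring
  rw [e1, hC]
  ring

/-! ### the fibre direction -/

/-- leaving along a fibre direction: `Psi` form -/
lemma fibre_leave {W : Submodule ℝ E} {f : E} (hf : f ∈ Wᗮ) (hn : ‖f‖ ≤ 1) {K : Set E}
    (hKc : IsCompact K) (hK : Convex ℝ K) {R : ℝ} (hR : 0 ≤ R) (hKR : ∀ x ∈ K, ‖x‖ ≤ R) {a : ℝ}
    (ha : 0 ≤ a) (haR : a * (R + 2) ≤ 1) (x : E) :
    fib W ({y | y ∈ K ∧ y + a • f ∉ K}.indicator 1) x ≤
      ENNReal.ofReal (5 * a) * H837.Psi 1 (fib W (Kᶜ.indicator 1) x) := by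
  by_cases h0 : f = 0
  · have e : {y | y ∈ K ∧ y + a • f ∉ K} = ∅ := by
      ext y
      rw [h0]
      simp only [mem_setOf_eq, smul_zero, add_zero, mem_empty_iff_false, iff_false]
      rintro ⟨h1, h2⟩
      exact h2 h1
    rw [e, indicator_empty]
    refine le_of_eq_of_le (H395.fib_const _ _ _) zero_le
  have hf0 : 0 < ‖f‖ := norm_pos_iff.2 h0
  set g : E := (‖f‖)⁻¹ • f with hg
  have hg1 : ‖g‖ = 1 := by
    rw [hg, norm_smul, norm_inv, norm_norm, inv_mul_cancel₀ hf0.ne']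
  have hgW : g ∈ Wᗮ := Submodule.smul_mem _ _ hf
  have e1 : ∀ y, y + a • f = y + (a * ‖f‖) • g := by
    intro y
    rw [hg, smul_smul, mul_assoc, mul_inv_cancel₀ hf0.ne', mul_one]
  have h1 := H837.fibre_dir hgW hg1 hKc hK hR hKR (a := a * ‖f‖) (by positivity)
    ((mul_le_mul_of_nonneg_right (mul_le_of_le_one_right ha hn) (by linarith)).trans haR) x
  have e2 : {y | y ∈ K ∧ y + a • f ∉ K} = {y | y ∈ K ∧ y + (a * ‖f‖) • g ∉ K} := by
    ext y
    simp only [mem_setOf_eq, e1 y]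
  rw [e2]
  refine h1.trans (mul_le_mul' (ENNReal.ofReal_le_ofReal ?_) le_rfl)
  have := mul_le_of_le_one_right ha hn
  linarith

/-- **the payoff of the fibre direction**, every label -/
lemma pF_le {m : ℕ} (hrot : S.mv.IsRot m) (hth : S.th = 1 / 2) {q : List ℕ} {θ : E}
    {b : List ℕ → E} (H : S.RotB m q θ b) {o : Bool} {ε : ℝ} (hε : ε ∈ sg) {r : List ℕ}
    (hr : q <:+ r) (x : E) :
    pF S m θ b o ε r x ≤ ENNReal.ofReal (220 * S.mv.ph m) * ENNReal.ofReal (1 + |⟪θ, x⟫|) := by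
  have hph := S.mv.ph_nonneg m
  have hR := S.hR
  have hR0 : 0 ≤ S.R := by linarith
  have hθr : θ ∈ S.W r m := S.W_mono hr m H.mem
  set K := S.bd r m o with hK
  set a := S.stf m θ x with ha
  set f := ε • S.bf m b r with hf
  have hθ1 : ‖θ‖ = 1 := (H.on r hr).hp
  have ha0 : 0 ≤ a := by rw [ha]; unfold stf; positivity
  have hfn : ‖f‖ ≤ 1 := by
    rw [hf, norm_smul]
    have h1 : ‖ε‖ = 1 := by rcases mem_sg.1 hε with h | h <;> rw [h] <;> simp
    rw [h1, one_mul]
    exact norm_bf_le.trans (H.norm_b hr).le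
  have hfW : f ∈ (S.W r m)ᗮ := Submodule.smul_mem _ _ bf_perp
  have hKR : ∀ y ∈ K, ‖y‖ ≤ S.R := fun y hy => by simpa using bd_subset_ball r m o hy
  -- outside of the ball the set is empty
  by_cases hx : |⟪θ, x⟫| ≤ S.R
  swap
  · have h1 : fib (S.W r m) ((lyd K (S.bd r m (!o)) univ f a).indicator 1) x ≤ 0 := by
      refine le_trans (fib_mono_fibre (g := fun _ => 0) fun z => ?_) (H395.fib_const _ _ _).le
      rw [indicator_of_notMem]
      intro hz
      apply hx
      have h2 := hKR _ hz.2.1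
      have h3 : ⟪θ, mix (S.W r m) x z⟫ = ⟪θ, x⟫ := inner_mix_label hθr x z
      rw [← h3]
      exact (abs_real_inner_le_norm _ _).trans (by rw [hθ1, one_mul]; exact h2)
    unfold pF
    rw [show fib (S.W r m) ((lyd (S.bd r m o) (S.bd r m (!o)) univ (ε • S.bf m b r)
      (S.stf m θ x)).indicator 1) x = 0 from le_antisymm h1 zero_le, ENNReal.zero_div]
    exact zero_le
  have haR : a * (S.R + 2) ≤ 1 := by
    have h1 := S.hph m
    have h2 : (0 : ℝ) ≤ (Module.finrank ℝ E : ℝ) := Nat.cast_nonneg _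
    have h3 : a ≤ 4 * S.mv.ph m * (1 + S.R) := by
      rw [ha]; unfold stf
      have : 1 + |⟪θ, x⟫| ≤ 1 + S.R := by linarith
      exact mul_le_mul_of_nonneg_left this (by positivity)
    have h4 : 4 * S.mv.ph m * (1 + S.R) * (S.R + 2) ≤
        5 * ((Module.finrank ℝ E : ℝ) + 2) * S.mv.ph m * (S.R + 4) ^ 2 := by
      have h5 : (1 + S.R) * (S.R + 2) ≤ (S.R + 4) ^ 2 := by nlinarith
      have h6 : 4 * S.mv.ph m ≤ 5 * ((Module.finrank ℝ E : ℝ) + 2) * S.mv.ph m := by
        nlinarith [mul_nonneg h2 hph]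
      calc 4 * S.mv.ph m * (1 + S.R) * (S.R + 2)
          = 4 * S.mv.ph m * ((1 + S.R) * (S.R + 2)) := by ring
        _ ≤ _ := mul_le_mul h6 h5 (by positivity) (by positivity)
    calc a * (S.R + 2) ≤ 4 * S.mv.ph m * (1 + S.R) * (S.R + 2) := by gcongr
      _ ≤ _ := h4
      _ ≤ 1 := h1
  have h1 := fibre_leave hfW hfn (isCompact_bd r m o) (convex_bd r m o) hR0 hKR ha0 haR x
  have h2 : fib (S.W r m) ((lyd K (S.bd r m (!o)) univ f a).indicator 1) x ≤
      ENNReal.ofReal (5 * a) * H837.Psi 1 (fib (S.W r m) (Kᶜ.indicator 1) x) := by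
    refine (fib_mono (fun y => ?_) x).trans h1
    have hsub : lyd K (S.bd r m (!o)) univ f a ⊆ {y | y ∈ K ∧ y + a • f ∉ K} :=
      fun y hy => ⟨hy.2.1, hy.2.2.2⟩
    exact indicator_le_indicator_of_subset hsub (fun _ => zero_le) y
  have hD1 : fib (S.W r m) (Kᶜ.indicator 1) x ≤ 1 :=
    H395.fib_le_one (fun y => indicator_le_one' _ y) x
  have hDc : fib (S.W r m) (Kᶜ.indicator 1) x ≤ S.Dc r m x := by
    rw [S.Dc_active (Or.inr hrot)]
    refine fib_mono (fun y => ?_) x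
    refine indicator_le_indicator_of_subset ?_ (fun _ => zero_le) y
    rw [compl_subset_compl, hK]
    cases o
    · exact inter_subset_right
    · exact inter_subset_left
  set D := fib (S.W r m) (Kᶜ.indicator 1) x with hD
  have hDt : D ≠ ⊤ := ne_top_of_le_ne_top ENNReal.one_ne_top hD1
  unfold pF
  rw [div_eq_mul_inv]
  calc fib (S.W r m) ((lyd (S.bd r m o) (S.bd r m (!o)) univ (ε • S.bf m b r)
        (S.stf m θ x)).indicator 1) x * (S.Dc r m x ^ S.th)⁻¹
      ≤ (ENNReal.ofReal (5 * a) * H837.Psi 1 D) * (D ^ S.th)⁻¹ := by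
        refine mul_le_mul' h2 ?_
        exact ENNReal.inv_le_inv.2 (ENNReal.rpow_le_rpow hDc S.hth.le)
    _ = ENNReal.ofReal (5 * a) * (H837.Psi 1 D * (D ^ (1 / 2 : ℝ))⁻¹) := by
        rw [mul_assoc, hth]
    _ ≤ ENNReal.ofReal (5 * a) * H837.Psi (1 / 2) D :=
        mul_le_mul' le_rfl (H837.Psi_one_mul (by norm_num) (by norm_num) (by norm_num) hDt)
    _ ≤ ENNReal.ofReal (5 * a) * ENNReal.ofReal 11 := by
        refine mul_le_mul' le_rfl ?_
        have h3 := H837.Psi_le (s := 1 / 2) (by norm_num) (by norm_num) hD1 (le_refl (1 : ℝ≥0∞))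
        have h4 : H837.Psi (1 / 2) D ≤ H837.Psi (1 / 2) (2 * D) := by
          unfold H837.Psi
          refine ENNReal.tsum_le_tsum fun i => ENNReal.rpow_le_rpow ?_ (by norm_num)
          refine min_le_min ?_ le_rfl
          calc D = 1 * D := (one_mul _).symm
            _ ≤ 2 * D := mul_le_mul' (by norm_num) le_rfl
        refine h4.trans (h3.trans (le_of_eq ?_))
        simp only [ENNReal.toReal_one, Real.log_one, sub_zero, Real.sqrt_one, ENNReal.ofReal_one,
          ENNReal.one_rpow, mul_one]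
        norm_num
    _ = ENNReal.ofReal (220 * S.mv.ph m) * ENNReal.ofReal (1 + |⟪θ, x⟫|) := by
        rw [← ENNReal.ofReal_mul (by positivity), ← ENNReal.ofReal_mul (by positivity)]
        congr 1
        rw [ha]; unfold stf
        ring

lemma one_le_hn (c : ℕ) (r : List ℕ) (m : ℕ) (y : E) : 1 ≤ S.hn c r m y := by
  unfold hn
  rw [← ENNReal.ofReal_one]
  refine ENNReal.ofReal_le_ofReal ?_
  have h1 : 1 ≤ Real.exp (9 + 8 / 15 * ‖S.ow r c m y‖ ^ 2) := Real.one_le_exp (by positivity)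
  linarith

/-- **the fibre directions**, pointwise -/
theorem fib_deep {m : ℕ} (hm : S.mv.tm m < S.T) (hrot : S.mv.IsRot m) (hth : S.th = 1 / 2)
    (hk : S.kq ≤ 1) {q : List ℕ} {θ : E} {b : List ℕ → E} (H : S.RotB m q θ b) {o : Bool} {ε : ℝ}
    (hε : ε ∈ sg) {r0 : List ℕ} (hr0 : q <:+ r0) (n : ℕ) (x : E) :
    H711.tau (S.fam m) (pF S m θ b o ε) n r0 x ≤
      ENNReal.ofReal (220 * S.mv.ph m) * ENNReal.ofReal S.kq ^ n *
        ENNReal.ofReal (1 + |⟪θ, x⟫|) := by
  have key := H962.chain (F := S.fam m) (Q := fun _ r => q <:+ r)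
    (fun k r x h _ => h.trans (List.suffix_cons _ _))
    (D := fun r => S.DD r m) (Dk := fun c r => S.Dk c r m) (Hn := fun c r => S.hn c r m)
    (u := fun y => ENNReal.ofReal (1 + |⟪θ, y⟫|)) (s := 0) le_rfl (κ := ENNReal.ofReal S.kq)
    (C := ENNReal.ofReal (220 * S.mv.ph m)) (fun k r _ _ => kl_inv r hm)
    (fun k r c _ _ => S.Dk_inv c r hm)
    (fun k r x _ => S.Dk_le_DD _ r hm x) (fun k r y _ _ => S.harnack hm _ r y)
    (fun c r => S.cw_meas (c :: r) m) (fun c r => S.hn_meas c r m)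
    (fun k r h => inv_one_add_c h H.mem)
    (fun k r x _ hL => by
      refine le_trans (fib_mono (fun y => ?_) x) (mom_c_one hth hk hm hL (S.kl r m x) x)
      refine mul_le_mul' le_rfl ?_
      rw [ENNReal.rpow_zero]
      exact ENNReal.one_le_rpow (one_le_hn _ _ _ _) (by norm_num))
    (g := pF S m θ b o ε) (fun r x h => by
      rw [ENNReal.rpow_zero, mul_one]
      exact pF_le hrot hth H hε h x)
  have h1 := key n r0 x hr0
  rwa [ENNReal.rpow_zero, mul_one] at h1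

/-! ### the total of the deep directions -/

lemma Dk_le_one {m : ℕ} (hm : S.mv.tm m < S.T) {r : List ℕ} {x : E} (hx : x ∈ Gd S r m) :
    S.Dk (S.kl r m x) r m x ^ (1 / 2 : ℝ) ≤ 1 := by
  refine ENNReal.rpow_le_one ?_ (by norm_num)
  have h1 : 1 ≤ S.kl r m x := hx
  have h2 := (lt_of_lt_kl (S := S) (c := 0) (show 0 < S.kl r m x by omega)).2
  rw [M2.Sys.thr_zero] at h2
  refine max_le (Dw_le_one r _ m x) (h2.le.trans ?_)
  rw [← ENNReal.ofReal_one]
  exact ENNReal.ofReal_le_ofReal (by norm_num)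

/-- **own directions of the nodes strictly below `r0`**, at labels of class `≥ 1` (941's payoff) -/
theorem own_deep_gd {m : ℕ} (hm : S.mv.tm m < S.T) (hrot : S.mv.IsRot m) (hth : S.th = 1 / 2)
    (hk : S.kq ≤ 1) {q : List ℕ} (hq : S.mv.jj m = q) {θ : E} {b : List ℕ → E}
    (H : S.RotB m q θ b) {o : Bool} {ε : ℝ} (hε : ε ∈ sg) {r0 : List ℕ} (hr0 : q <:+ r0)
    {k i n : ℕ} (hl : r0.length = q.length + k) (hi : k ≤ i) (hi' : i < k + n) {x : E}
    (hx : x ∈ Gd S r0 m) :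
    H711.tau (S.fam m) (S.gO m b θ q o ε i) n r0 x ≤
      ENNReal.ofReal (640 * 2 ^ i * S.mv.ph m) * (12 * ENNReal.ofReal S.kq) ^ n *
        ENNReal.ofReal (1 + |⟪θ, x⟫|) := by
  obtain ⟨j, rfl⟩ : ∃ j, i = k + j := ⟨i - k, by omega⟩
  have hph := S.mv.ph_nonneg m
  have h1 := own_deep hm hrot hth hk hq H.mem (b := b) (o := o) hε hr0 (n := n) hl
    (show j < n by omega) x
  have h2 : H711.tau (S.fam m) (S.gO m b θ q o ε (k + j)) n r0 x =
      H711.tau (S.fam m) (pW S m q θ b o ε (k + j)) n r0 x := rfl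
  rw [h2]
  refine h1.trans ?_
  have e1 : (256 * S.kap ^ (1 / 2 : ℝ)) = S.kq := rfl
  rw [e1]
  have e2 : 80 * ((2 : ℝ) ^ (k + j + 3) * S.mv.ph m) = 640 * 2 ^ (k + j) * S.mv.ph m := by
    rw [pow_add (2 : ℝ) (k + j) 3]; ring
  rw [e2]
  have h3 : (12 * ENNReal.ofReal S.kq) ^ (n - j - 1) * ENNReal.ofReal S.kq *
      ENNReal.ofReal S.kq ^ j ≤ (12 * ENNReal.ofReal S.kq) ^ n := by
    have e3 : n = (n - j - 1) + (j + 1) := by omega
    calc (12 * ENNReal.ofReal S.kq) ^ (n - j - 1) * ENNReal.ofReal S.kq *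
        ENNReal.ofReal S.kq ^ j
        = (12 * ENNReal.ofReal S.kq) ^ (n - j - 1) * ENNReal.ofReal S.kq ^ (j + 1) := by
          rw [pow_succ]; ring
      _ ≤ (12 * ENNReal.ofReal S.kq) ^ (n - j - 1) * (12 * ENNReal.ofReal S.kq) ^ (j + 1) := by
          refine mul_le_mul' le_rfl (pow_le_pow_left' ?_ _)
          calc ENNReal.ofReal S.kq = 1 * ENNReal.ofReal S.kq := (one_mul _).symm
            _ ≤ 12 * ENNReal.ofReal S.kq := mul_le_mul' (by norm_num) le_rfl
      _ = (12 * ENNReal.ofReal S.kq) ^ n := by rw [← pow_add, ← e3]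
  calc ENNReal.ofReal (640 * 2 ^ (k + j) * S.mv.ph m) *
        (12 * ENNReal.ofReal S.kq) ^ (n - j - 1) * ENNReal.ofReal S.kq *
        ENNReal.ofReal S.kq ^ j *
        (ENNReal.ofReal (1 + |⟪θ, x⟫|) * S.Dk (S.kl r0 m x) r0 m x ^ (1 / 2 : ℝ))
      = ENNReal.ofReal (640 * 2 ^ (k + j) * S.mv.ph m) *
        ((12 * ENNReal.ofReal S.kq) ^ (n - j - 1) * ENNReal.ofReal S.kq *
        ENNReal.ofReal S.kq ^ j) *
        (ENNReal.ofReal (1 + |⟪θ, x⟫|) * S.Dk (S.kl r0 m x) r0 m x ^ (1 / 2 : ℝ)) := by ring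
    _ ≤ ENNReal.ofReal (640 * 2 ^ (k + j) * S.mv.ph m) * (12 * ENNReal.ofReal S.kq) ^ n *
        (ENNReal.ofReal (1 + |⟪θ, x⟫|) * 1) := by
        gcongr
        exact Dk_le_one hm hx
    _ = _ := by rw [mul_one]

end Vale.Agent.P262.H431
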