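import Mathlib
import Vale.Agent.P262.H431.Thr12
import Vale.Agent.P262.H439.PaySys2
import Vale.Agent.P262.H59.LayLab
import Vale.Agent.P262.H837.AsmA

/-!
# P262, block THR0, part 13: the good part

`GoodK` from the payoff estimates of all directions.
-/

set_option linter.all false

open MeasureTheory ProbabilityTheory Set
open scoped ENNReal NNReal RealInnerProductSpace
open Vale.Agent.P262.H118 (ON rotE rotL lyd nv sg la norm_nv nv_mem la_add measurableSet_la lyd_zero
  inner_mix_label mem_sg)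
open Vale.Agent.P262.H395 (fib mix Inv measurable_fib fib_mono inv_fib)
open Vale.Agent.P262.H395.CW (pl nk nk_nil nk_cons OMp OMc Lab SI inv_nk)
open Vale.Agent.P262.H962 (capS measurable_capS)
open Vale.Agent.P262.H44 (InvS)
open Vale.Agent.P262.H439 (qq Pay nkS Ks Gs isCompact_Ks convex_Ks Ks_subset alive_Gs cPay
  pay_alive pay_theta pay_own pay_int isClosed_nkS)

namespace Vale.Agent.P262.H431

open Vale.Agent.P262.M2
open Vale.Agent.P262.M2.Sys

variable {E : Type*} [NormedAddCommGroup E] [InnerProductSpace ℝ E] [FiniteDimensional ℝ E]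
  [MeasurableSpace E] [BorelSpace E] {S : Sys E}

/-- restriction of a payoff to the good unkilled labels -/
noncomputable def IG (S : Sys E) (p : List ℕ) (m k : ℕ) (f : E → ℝ≥0∞) (x : E) : ℝ≥0∞ :=
  (nkS S p m).indicator (fun x => (Gd S (rk p k) m).indicator f x) x

lemma IG_of_mem {p : List ℕ} {m k : ℕ} (f : E → ℝ≥0∞) {x : E}
    (hx : x ∈ Gs S (rk p k) p m) : IG S p m k f x = f x := by
  unfold IG
  rw [indicator_of_mem hx.2, indicator_of_mem hx.1]

lemma IG_of_notMem {p : List ℕ} {m k : ℕ} (f : E → ℝ≥0∞) {x : E}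
    (hx : x ∉ Gs S (rk p k) p m) : IG S p m k f x = 0 := by
  unfold IG
  by_cases h1 : x ∈ nkS S p m
  · rw [indicator_of_mem h1, indicator_of_notMem (fun h => hx ⟨h, h1⟩)]
  · rw [indicator_of_notMem h1]

lemma IG_eq {p : List ℕ} {m k : ℕ} (f : E → ℝ≥0∞) :
    IG S p m k f = (Gs S (rk p k) p m).indicator f := by
  funext x
  by_cases hx : x ∈ Gs S (rk p k) p m
  · rw [IG_of_mem f hx, indicator_of_mem hx]
  · rw [IG_of_notMem f hx, indicator_of_notMem hx]

lemma IG_meas {p : List ℕ} {m k : ℕ} {f : E → ℝ≥0∞} (hf : Measurable f) :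
    Measurable (IG S p m k f) := by
  rw [IG_eq]
  exact hf.indicator (H439.measurableSet_Gs S _ p m)

lemma ofReal_four (x : ℝ) : ENNReal.ofReal (4 * x) = 4 * ENNReal.ofReal x := by
  rw [ENNReal.ofReal_mul (by norm_num)]
  simp only [ENNReal.ofReal_ofNat]

section

variable {m : ℕ} {p : List ℕ} {k : ℕ} {θ : E} {b : List ℕ → E}

/-- payoffs on the good labels -/
lemma pay_pt (hm : S.mv.tm m < S.T) (hrot : S.mv.IsRot m) (H : ThrC S)
    (hjj : S.mv.jj m = 0 :: p) (hN : NLk S p m k) (hR : S.RotB m (0 :: p) θ b)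
    {f : E → ℝ≥0∞} {C1 : ℝ≥0∞}
    (hf : ∀ x ∈ Gd S (rk p k) m, f x ≤ C1 * ENNReal.ofReal (1 + |⟪θ, x⟫|)) :
    Pay (S.W p m) (S.W (rk p k) m) S.qq (S.th / 8) (Ks S (rk p k) p m) (IG S p m k f)
      (C1 * ENNReal.ofReal cPay) := by
  have hSI := rk_SI hm hrot hjj hN
  have hqr : (0 :: p) <:+ rk p k := List.suffix_append _ _
  have hpr : p <:+ rk p k := (List.suffix_cons 0 p).trans hqr
  rw [IG_eq]
  exact pay_alive (isCompact_Ks S _ p m) (convex_Ks S _ p m) (Ks_subset S _ p m)
    (S.W_mono hpr m) H.qq (by have := S.hth; positivity) (by have := H.th; linarith)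
    (b := θ) (hR.on (0 :: p) (List.suffix_refl _)).hp.le hR.perp (S.W_mono hqr m hR.mem)
    (alive_Gs hm hpr (hSI.suffix hpr)) (fun x hx => hf x hx.1)

/-- total constant of the payoff -/
noncomputable def cTot (S : Sys E) (m k n : ℕ) : ℝ≥0∞ :=
  ENNReal.ofReal (22768 * cPay * S.mv.ph m * 2 ^ (k + n)) * (12 * ENNReal.ofReal S.kq) ^ n

lemma cPay_nonneg : 0 ≤ cPay := by
  unfold cPay
  have := cL1_pos
  positivity

/-- **the payoff of the throughput at the good labels of `rk p k`** -/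
theorem pay_total (hm : S.mv.tm m < S.T) (hrot : S.mv.IsRot m) (hth : S.th = 1 / 2)
    (hk : S.kq ≤ 1) (H : ThrC S) (hjj : S.mv.jj m = 0 :: p) (hN : NLk S p m k)
    (hR : S.RotB m (0 :: p) θ b) (hph : 0 < S.mv.ph m) (n : ℕ) :
    Pay (S.W p m) (S.W (rk p k) m) S.qq (S.th / 8) (Ks S (rk p k) p m)
      (IG S p m k (H711.tau (S.fam m) (S.pay m) n (rk p k))) (cTot S m k n) := by
  have hqr : (0 :: p) <:+ rk p k := List.suffix_append _ _
  have hlen : (rk p k).length + n = (0 :: p).length + (k + n) := by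
    rw [length_rk, List.length_cons]; omega
  have hlen' : (rk p k).length = (0 :: p).length + k := by
    rw [length_rk, List.length_cons]
  have hF := S.fam_str hm (0 :: p)
  set r := rk p k with hr
  set Kn : ℝ≥0∞ := (12 * ENNReal.ofReal S.kq) ^ n with hKn
  set F := S.fam m with hFdef
  -- the pieces
  set fT : Bool → ℝ → E → ℝ≥0∞ := fun o ε x =>
    ∑' a : ℕ, H711.tau F (S.gTa m (0 :: p) θ (b (0 :: p)) o ε a) n r x with hfT
  set fO : Bool → ℝ → ℕ → E → ℝ≥0∞ := fun o ε i x =>
    H711.tau F (S.gOw m (0 :: p) θ b o ε i) n r x with hfO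
  set fF : Bool → ℝ → E → ℝ≥0∞ := fun o ε x =>
    H711.tau F (S.gFi m θ b o ε) n r x with hfF
  have mT : ∀ o ε, Measurable (fT o ε) := fun o ε => Measurable.ennreal_tsum fun a =>
    H711.measurable_tau hF (fun r => gTa_meas _ o ε a r) n r
  have mO : ∀ o ε i, Measurable (fO o ε i) := fun o ε i =>
    H711.measurable_tau hF (fun r => gOw_meas o ε i r) n r
  have mF : ∀ o ε, Measurable (fF o ε) := fun o ε =>
    H711.measurable_tau hF (fun r => gFi_meas o ε r) n r
  -- payoffs
  have pT : ∀ o, ∀ ε ∈ sg, Pay (S.W p m) (S.W r m) S.qq (S.th / 8) (Ks S r p m)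
      (IG S p m k (fT o ε)) (ENNReal.ofReal (4800 * cPay * S.mv.ph m) * Kn) := by
    intro o ε hε
    have h1 := pay_theta hm hrot hth hk H hjj hN hR hph
      (fun x => H59.lay_lab (hR.norm_b hqr).le (S.W r m) x) o hε n
    refine h1.mono (fun x => le_of_eq rfl) (le_of_eq ?_)
    have e1 : ENNReal.ofReal (4800 * cPay * S.mv.ph m) =
        4 * ENNReal.ofReal (1200 * S.mv.ph m) * ENNReal.ofReal cPay := by
      have e2 : (4800 : ℝ) * cPay * S.mv.ph m = 4 * (1200 * S.mv.ph m * cPay) := by ring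
      have e3 : ENNReal.ofReal (1200 * S.mv.ph m * cPay) =
          ENNReal.ofReal (1200 * S.mv.ph m) * ENNReal.ofReal cPay :=
        ENNReal.ofReal_mul (by positivity)
      rw [e2, ofReal_four, e3, mul_assoc]
    rw [e1]; ring
  have pO : ∀ o, ∀ ε ∈ sg, ∀ i ∈ Finset.range (k + n),
      Pay (S.W p m) (S.W r m) S.qq (S.th / 8) (Ks S r p m) (IG S p m k (fO o ε i))
        (ENNReal.ofReal (640 * cPay * S.mv.ph m * 2 ^ i) * Kn) := by
    intro o ε hε i hi
    rw [Finset.mem_range] at hi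
    rcases lt_or_ge i k with h | h
    · have h1 := pay_own hm hrot hth hk H hjj hN hR hph o hε n h
      refine h1.mono (fun x => le_of_eq rfl) ?_
      have e1 : 4 * Kn * ENNReal.ofReal (2 ^ (i + 3) * S.mv.ph m) * ENNReal.ofReal cPay =
          ENNReal.ofReal (32 * cPay * S.mv.ph m * 2 ^ i) * Kn := by
        have e2 : (32 : ℝ) * cPay * S.mv.ph m * 2 ^ i =
            4 * (2 ^ (i + 3) * S.mv.ph m * cPay) := by
          rw [pow_add]; ring
        have e3 : ENNReal.ofReal (2 ^ (i + 3) * S.mv.ph m * cPay) =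
            ENNReal.ofReal (2 ^ (i + 3) * S.mv.ph m) * ENNReal.ofReal cPay :=
          ENNReal.ofReal_mul (by positivity)
        rw [e2, ofReal_four, e3]
        ring
      rw [e1]
      refine mul_le_mul' (ENNReal.ofReal_le_ofReal ?_) le_rfl
      have := cPay_nonneg
      gcongr
      norm_num
    · have h1 := pay_pt (f := fO o ε i) hm hrot H hjj hN hR
        (C1 := ENNReal.ofReal (640 * 2 ^ i * S.mv.ph m) * Kn) (fun x hx =>
          own_deep_gd hm hrot hth hk hjj hR hε hqr hlen' h hi hx)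
      refine h1.mono (fun x => le_rfl) (le_of_eq ?_)
      have e1 : ENNReal.ofReal (640 * cPay * S.mv.ph m * 2 ^ i) =
          ENNReal.ofReal (640 * 2 ^ i * S.mv.ph m) * ENNReal.ofReal cPay := by
        rw [← ENNReal.ofReal_mul (by positivity)]
        congr 1; ring
      rw [e1]; ring
  have pF : ∀ o, ∀ ε ∈ sg, Pay (S.W p m) (S.W r m) S.qq (S.th / 8) (Ks S r p m)
      (IG S p m k (fF o ε)) (ENNReal.ofReal (220 * cPay * S.mv.ph m) * Kn) := by
    intro o ε hε
    have h1 := pay_pt (f := fF o ε) hm hrot H hjj hN hR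
      (C1 := ENNReal.ofReal (220 * S.mv.ph m) * ENNReal.ofReal S.kq ^ n) (fun x _ =>
        fib_deep hm hrot hth hk hR hε hqr n x)
    refine h1.mono (fun x => le_rfl) ?_
    have e1 : ENNReal.ofReal (220 * cPay * S.mv.ph m) =
        ENNReal.ofReal (220 * S.mv.ph m) * ENNReal.ofReal cPay := by
      rw [← ENNReal.ofReal_mul (by positivity)]
      congr 1; ring
    rw [e1]
    have e2 : ENNReal.ofReal S.kq ^ n ≤ Kn := by
      refine pow_le_pow_left' ?_ _
      calc ENNReal.ofReal S.kq = 1 * ENNReal.ofReal S.kq := (one_mul _).symm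
        _ ≤ _ := mul_le_mul' (by norm_num) le_rfl
    calc ENNReal.ofReal (220 * S.mv.ph m) * ENNReal.ofReal S.kq ^ n * ENNReal.ofReal cPay
        ≤ ENNReal.ofReal (220 * S.mv.ph m) * Kn * ENNReal.ofReal cPay := by gcongr
      _ = _ := by ring
  -- sums
  have pS : ∀ o, ∀ ε ∈ sg, Pay (S.W p m) (S.W r m) S.qq (S.th / 8) (Ks S r p m)
      (fun x => IG S p m k (fT o ε) x + ∑ i ∈ Finset.range (k + n), IG S p m k (fO o ε i) x +
        IG S p m k (fF o ε) x)
      (ENNReal.ofReal (5692 * cPay * S.mv.ph m * 2 ^ (k + n)) * Kn) := by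
    intro o ε hε
    have h1 := Pay.add ((IG_meas (mT o ε)).add (Finset.measurable_sum _ fun i _ =>
      IG_meas (mO o ε i))) (Pay.add (IG_meas (mT o ε)) (pT o ε hε)
        (Pay.sum (Finset.range (k + n)) (fun i _ => IG_meas (mO o ε i)) (pO o ε hε))) (pF o ε hε)
    refine h1.mono (fun x => le_rfl) ?_
    rw [← Finset.sum_mul, ← add_mul, ← add_mul]
    refine mul_le_mul' ?_ le_rfl
    have hc := cPay_nonneg
    have hp := hph.le
    rw [← ENNReal.ofReal_sum_of_nonneg (fun i _ => by positivity),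
      ← ENNReal.ofReal_add (by positivity) (Finset.sum_nonneg fun i _ => by positivity),
      ← ENNReal.ofReal_add (add_nonneg (by positivity) (Finset.sum_nonneg fun i _ => by positivity))
        (by positivity)]
    refine ENNReal.ofReal_le_ofReal ?_
    rw [← Finset.mul_sum]
    have hg : ∑ i ∈ Finset.range (k + n), (2 : ℝ) ^ i ≤ 2 ^ (k + n) := by
      rw [geom_sum_eq (by norm_num)]
      have : (0 : ℝ) ≤ 2 ^ (k + n) := by positivity
      linarith
    have h2 : (1 : ℝ) ≤ 2 ^ (k + n) := one_le_pow₀ (by norm_num)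
    have h3 : 0 ≤ cPay * S.mv.ph m := by positivity
    calc 4800 * cPay * S.mv.ph m + 640 * cPay * S.mv.ph m * ∑ i ∈ Finset.range (k + n), (2 : ℝ) ^ i
          + 220 * cPay * S.mv.ph m
        ≤ 4800 * cPay * S.mv.ph m + 640 * cPay * S.mv.ph m * 2 ^ (k + n)
          + 220 * cPay * S.mv.ph m := by gcongr
      _ ≤ 5692 * cPay * S.mv.ph m * 2 ^ (k + n) := by nlinarith
  have pSS := Pay.sum (Finset.univ : Finset Bool) (f := fun (o : Bool) x => ∑ ε ∈ sg,
      (IG S p m k (fT o ε) x + ∑ i ∈ Finset.range (k + n), IG S p m k (fO o ε i) x +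
        IG S p m k (fF o ε) x)) (C := fun _ => ∑ ε ∈ sg,
        ENNReal.ofReal (5692 * cPay * S.mv.ph m * 2 ^ (k + n)) * Kn)
    (V := S.W p m) (W := S.W r m) (q := S.qq) (a := S.th / 8) (K := Ks S r p m)
    (fun o _ => Finset.measurable_sum _ fun ε _ => ((IG_meas (mT o ε)).add
      (Finset.measurable_sum _ fun i _ => IG_meas (mO o ε i))).add (IG_meas (mF o ε)))
    (fun o _ => Pay.sum sg (fun ε _ => ((IG_meas (mT o ε)).add
      (Finset.measurable_sum _ fun i _ => IG_meas (mO o ε i))).add (IG_meas (mF o ε)))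
      (fun ε hε => pS o ε hε))
  refine pSS.mono (fun x => ?_) ?_
  · by_cases hx : x ∈ Gs S r p m
    · simp only [IG_of_mem _ hx]
      exact tau_pay_le' hR hm hrot hjj hqr hlen x
    · rw [IG_of_notMem _ hx]
      exact zero_le
  · unfold cTot
    simp only [Finset.sum_const, Finset.card_univ, Fintype.card_bool, nsmul_eq_mul]
    have hcard : (sg.card : ℝ≥0∞) ≤ 2 := by
      have : sg.card ≤ 2 := by
        unfold Vale.Agent.P262.H118.sg
        exact Finset.card_le_two
      exact_mod_cast this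
    have hc := cPay_nonneg
    calc ((2 : ℕ) : ℝ≥0∞) * ((sg.card : ℝ≥0∞) *
          (ENNReal.ofReal (5692 * cPay * S.mv.ph m * 2 ^ (k + n)) * Kn))
        ≤ ((2 : ℕ) : ℝ≥0∞) * (2 *
          (ENNReal.ofReal (5692 * cPay * S.mv.ph m * 2 ^ (k + n)) * Kn)) := by gcongr
      _ = ENNReal.ofReal (22768 * cPay * S.mv.ph m * 2 ^ (k + n)) * Kn := by
          have e2 : (22768 : ℝ) * cPay * S.mv.ph m * 2 ^ (k + n) =
            4 * (5692 * cPay * S.mv.ph m * 2 ^ (k + n)) := by ring
          rw [e2, ofReal_four, ← mul_assoc, ← mul_assoc]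
          norm_num

end

end Vale.Agent.P262.H431
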