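import Mathlib
import Vale.Agent.P262.H431.Thr13
import Vale.Agent.P262.H837.AsmC

/-!
# P262, block THR0, part 14: THR0 with an absolute constant per level

`goodK`: the good part, `thr0_abs`: the Prop THR0 with `lam = 12288 kap ^ (1/2)`.
-/

set_option linter.all false

open MeasureTheory ProbabilityTheory Set
open scoped ENNReal NNReal RealInnerProductSpace
open Vale.Agent.P262.H118 (ON rotE rotL lyd nv sg la norm_nv nv_mem la_add measurableSet_la lyd_zero
  inner_mix_label mem_sg)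
open Vale.Agent.P262.H395 (fib mix Inv measurable_fib fib_mono inv_fib)
open Vale.Agent.P262.H395.CW (pl nk nk_nil nk_cons OMp OMc Lab SI inv_nk)
open Vale.Agent.P262.H962 (capS measurable_capS)
open Vale.Agent.P262.H44 (InvS)
open Vale.Agent.P262.H439 (qq Pay nkS Ks Gs isCompact_Ks convex_Ks Ks_subset alive_Gs cPay
  pay_alive pay_theta pay_own pay_int isClosed_nkS)

namespace Vale.Agent.P262.H431

open Vale.Agent.P262.M2
open Vale.Agent.P262.M2.Sys

variable {E : Type*} [NormedAddCommGroup E] [InnerProductSpace ℝ E] [FiniteDimensional ℝ E]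
  [MeasurableSpace E] [BorelSpace E] {S : Sys E}

section

variable {m : ℕ} {p : List ℕ} {k : ℕ} {θ : E} {b : List ℕ → E}

/-- integration of a payoff over the class `0` labels of the parent -/
theorem int_of_pay (hm : S.mv.tm m < S.T) (hrot : S.mv.IsRot m) (H : ThrC S)
    (hroot : ∀ x, S.kl [] m x ≠ 0) (hjj : S.mv.jj m = 0 :: p) (hN : NLk S p m k)
    {f : E → ℝ≥0∞} (hf : Measurable f) {C : ℝ≥0∞}
    (hP : Pay (S.W p m) (S.W (rk p k) m) S.qq (S.th / 8) (Ks S (rk p k) p m)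
      (IG S p m k f) C) :
    ∫⁻ x, (S.Rg p 0 m).indicator 1 x * ((Gd S (rk p k) m).indicator 1 x *
      (S.As S.th (rk p k) m x * f x)) ∂stdGaussian E ≤
    2 * C * ENNReal.ofReal ((S.kap ^ (Module.finrank ℝ (S.W (rk p k) m) -
      Module.finrank ℝ (S.W p m))) ^ S.th) * V0 S p m := by
  have hSI : SI (fun r => S.W r m) (rk p k) := rk_SI hm hrot hjj hN
  have hqr : (0 :: p) <:+ rk p k := List.suffix_append _ _
  have hpq : p <:+ 0 :: p := List.suffix_cons 0 p
  have hpr : p <:+ rk p k := hpq.trans hqr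
  have hR0 : 0 ≤ S.R := by linarith [S.hR]
  set r := rk p k with hr
  set K := S.X r m with hKdef
  have hKR : K ⊆ Metric.closedBall 0 S.R :=
    S.mv.Bd_subset_ball (fun t => M1.body_subset S.v S.R t) _ _
  have hKc : IsClosed K := S.mv.isClosed_Bd (fun t => M1.isClosed_body S.v S.R t) _ _
  have hKv : Convex ℝ K := S.mv.convex_Bd (fun t => M1.convex_body S.v S.R t) _ _
  have hfib : ∀ s, s <:+ p → ∀ x, fib (S.W s m) (Kᶜ.indicator 1) x = S.De s m x := fun s hs x =>
    S.mv.fib_Bd_compl (fun t => M1.measurableSet_body S.v S.R t) m (hs.trans hpr) x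
  have hqK : ∀ x, qq (S.W p m) K x = S.q p m x := fun x =>
    S.mv.fib_Bd (fun t => M1.measurableSet_body S.v S.R t) m hpr x
  have hself : ∀ s, S.In (S.K.B s 0) m m := fun s => In.self_c (zero_B_c (S := S) s 0) hm
  have hgood : ∀ s, s <:+ p → ∀ x, S.kl s m x ≠ 0 →
      S.De s m x ≤ ENNReal.ofReal (1 / 8) := fun s _ x h0 =>
    (good_of_pos_c h0 (hself s)).trans (ENNReal.ofReal_le_ofReal (by norm_num))
  have hGm := measurableSet_Gd (S := S) r m
  have h := pay_int (W := fun r => S.W r m) (cls := fun r => S.kl r m)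
    (om := fun r => S.om r m) (p := p) (A0 := S.A0) (kap := S.kap) (q := S.qq) (th := S.th)
    (b0 := ENNReal.ofReal S.b0) (K := K) (u := List.replicate k 0) (W_nil_c m) hSI
    (lab_c hm) H.qq S.hth.le H.th S.hA0 S.hkap H.kap (ENNReal.ofReal_le_ofReal S.hAb)
    ENNReal.ofReal_ne_top hKc hKv hR0 hKR (f := (Gd S r m).indicator f) (hf.indicator hGm)
    (C := C) hP hroot
    (fun s _ x hx => by
      have h := A_le_b0_c (S := S) (p := s) (m := m) (x := x) hx.1
      rw [mem_setOf_eq, pl_eq_chn_c]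
      exact h)
    (fun s _ x h0 hx => by
      rw [nk_eq_c] at hx
      exact om_of_zero_c h0 hx)
    (fun s hs x h0 hx => by
      rw [hfib s hs x]
      exact hgood s hs x h0)
  rw [pl_eq_chn_c, pl_eq_chn_c] at h
  have e1 : {x | ENNReal.ofReal (Real.exp (-1418)) ≤ qq (S.W p m) K x} =
      {x | ENNReal.ofReal (Real.exp (-1418)) ≤ S.q p m x} := by
    ext x
    rw [mem_setOf_eq, mem_setOf_eq, hqK x]
  rw [e1] at h
  refine le_trans (le_of_eq (lintegral_congr fun x => ?_)) h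
  have e2 : (Gd S r m).indicator 1 x * (S.As S.th r m x * f x) =
      S.As S.th r m x * (Gd S r m).indicator f x := by
    by_cases hx : x ∈ Gd S r m
    · rw [indicator_of_mem hx, indicator_of_mem hx, Pi.one_apply, one_mul]
    · rw [indicator_of_notMem hx, indicator_of_notMem hx, zero_mul, mul_zero]
  rw [e2]
  rfl

/-- no motion, no payoff -/
lemma pay_zero_ph (hrot : S.mv.IsRot m) {q : List ℕ} (hR : S.RotB m q θ b)
    (hph : S.mv.ph m = 0) {r : List ℕ} (hr : q <:+ r) (y : E) : S.pay m r y = 0 := by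
  have h1 : S.X r (m + 1) = S.X r m := by
    rw [hR.X_succ r hr, hph]
    ext z
    rw [mem_preimage, H118.ON.rot_zero]
  have h2 : S.Dl r m y = 0 := by
    rw [S.Dl_active (Or.inr hrot), h1, symmDiff_self]
    have e1 : ((⊥ : Set E).indicator (1 : E → ℝ≥0∞)) = fun _ => 0 := by
      funext z
      exact indicator_of_notMem (show z ∉ (⊥ : Set E) from notMem_empty z) _
    rw [e1]
    exact H395.fib_const _ _ _
  unfold pay
  rw [h2, ENNReal.zero_div]

/-- constant of the good part -/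
noncomputable def cGood : ℝ := 45536 * cPay

lemma cGood_nonneg : 0 ≤ cGood := by
  unfold cGood
  have := cPay_nonneg
  positivity

/-- **the good part** -/
theorem goodK (hmT : m < S.mT) (hrot : S.mv.IsRot m) (hth : S.th = 1 / 2) (hk : S.kq ≤ 1)
    (H : ThrC S) (hroot : ∀ x, S.kl [] m x ≠ 0) (hjj : S.mv.jj m = 0 :: p)
    (hN : NLk S p m k) (n : ℕ) {lam : ℝ} (hlam : 24 * S.kq ≤ lam) :
    GoodK S (fun c r => S.cw (c :: r) m) cGood lam m p k n := by
  have hm := tm_lt_c hmT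
  obtain ⟨θ, b, hR⟩ := rot_coh hrot
  rw [hjj] at hR
  have hqr : (0 :: p) <:+ rk p k := List.suffix_append _ _
  have htau : ∀ x, S.tauT (fun c r => S.cw (c :: r) m) (S.pay m) m n (rk p k) x =
      H711.tau (S.fam m) (S.pay m) n (rk p k) x := fun x => rfl
  unfold GoodK
  rcases (S.mv.ph_nonneg m).eq_or_lt with hph | hph
  · -- no motion
    have h1 : ∀ x, H711.tau (S.fam m) (S.pay m) n (rk p k) x = 0 := by
      intro x
      have h2 := H837.tau_mono_of (F := S.fam m) (g := S.pay m) (g' := fun _ _ => 0)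
        (Q := fun _ r => (0 :: p) <:+ r) (fun _ r x' hr' _ => hr'.trans (List.suffix_cons _ _))
        (fun r hr x => (pay_zero_ph hrot hR hph.symm hr x).le) n (rk p k) hqr x
      rw [H941.tau_of_zero (fun _ _ => rfl)] at h2
      exact le_antisymm h2 zero_le
    simp only [htau, h1, mul_zero, lintegral_zero]
    exact zero_le
  have hcP := cPay_nonneg
  have hkap := S.hkap
  have hkap1 := S.hkap1
  have hf : Measurable (H711.tau (S.fam m) (S.pay m) n (rk p k)) :=
    H711.measurable_tau (S.fam_str hm (rk p k)) (pay_meas m) n _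
  have h1 := int_of_pay hm hrot H hroot hjj hN hf
    (pay_total hm hrot hth hk H hjj hN hR hph n)
  simp only [htau]
  refine h1.trans (mul_le_mul' ?_ le_rfl)
  -- numbers
  have hSI := rk_SI hm hrot hjj hN
  have hg1 := finrank_desc (S := S) (m := m) (q := 0 :: p) (u := List.replicate k 0) hSI
  rw [List.length_replicate] at hg1
  have hg2 : S.kr m = Module.finrank ℝ (S.W (0 :: p) m) - Module.finrank ℝ (S.W p m) := by
    unfold kr
    rw [hjj]
    rfl
  have hg3 : Module.finrank ℝ (S.W p m) ≤ Module.finrank ℝ (S.W (0 :: p) m) :=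
    Submodule.finrank_mono (S.W_le 0 p m)
  have hg4 : S.kr m + k ≤ Module.finrank ℝ (S.W (rk p k) m) - Module.finrank ℝ (S.W p m) := by
    change S.kr m + k ≤ Module.finrank ℝ (S.W (List.replicate k 0 ++ (0 :: p)) m) - _
    omega
  set g := Module.finrank ℝ (S.W (rk p k) m) - Module.finrank ℝ (S.W p m) with hg
  have hkq0 := S.kq_nonneg
  have hs0 : 0 ≤ S.kap ^ (1 / 2 : ℝ) := Real.rpow_nonneg hkap.le _
  have h5 : (S.kap ^ g) ^ S.th ≤ (S.kap ^ (1 / 2 : ℝ)) ^ (S.kr m + k) := by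
    have h6 : (S.kap ^ (1 / 2 : ℝ)) ^ (S.kr m + k) = (S.kap ^ (S.kr m + k)) ^ (1 / 2 : ℝ) := by
      rw [← Real.rpow_natCast, ← Real.rpow_mul hkap.le, mul_comm, Real.rpow_mul hkap.le,
        Real.rpow_natCast]
    rw [h6, hth]
    exact Real.rpow_le_rpow (pow_nonneg hkap.le _)
      (pow_le_pow_of_le_one hkap.le hkap1 hg4) (by norm_num)
  have e3 : (12 * ENNReal.ofReal S.kq) ^ n = ENNReal.ofReal ((12 * S.kq) ^ n) := by
    rw [ENNReal.ofReal_pow (by positivity), ENNReal.ofReal_mul (by norm_num)]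
    simp only [ENNReal.ofReal_ofNat]
  unfold cTot
  rw [e3]
  have e4 : 2 * (ENNReal.ofReal (22768 * cPay * S.mv.ph m * 2 ^ (k + n)) *
      ENNReal.ofReal ((12 * S.kq) ^ n)) * ENNReal.ofReal ((S.kap ^ g) ^ S.th) =
      ENNReal.ofReal (2 * (22768 * cPay * S.mv.ph m * 2 ^ (k + n) * (12 * S.kq) ^ n) *
        (S.kap ^ g) ^ S.th) := by
    have hp : 0 ≤ (S.kap ^ g) ^ S.th := Real.rpow_nonneg (pow_nonneg hkap.le _) _
    have e5 : ENNReal.ofReal (2 * (22768 * cPay * S.mv.ph m * 2 ^ (k + n) * (12 * S.kq) ^ n) *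
        (S.kap ^ g) ^ S.th) = ENNReal.ofReal (2 * (22768 * cPay * S.mv.ph m * 2 ^ (k + n) *
          (12 * S.kq) ^ n)) * ENNReal.ofReal ((S.kap ^ g) ^ S.th) :=
      ENNReal.ofReal_mul (by positivity)
    have e6 : ENNReal.ofReal (2 * (22768 * cPay * S.mv.ph m * 2 ^ (k + n) *
          (12 * S.kq) ^ n)) = 2 * ENNReal.ofReal (22768 * cPay * S.mv.ph m * 2 ^ (k + n) *
          (12 * S.kq) ^ n) := by
      rw [ENNReal.ofReal_mul (by norm_num)]
      simp only [ENNReal.ofReal_ofNat]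
    have e7 : ENNReal.ofReal (22768 * cPay * S.mv.ph m * 2 ^ (k + n) * (12 * S.kq) ^ n) =
        ENNReal.ofReal (22768 * cPay * S.mv.ph m * 2 ^ (k + n)) *
          ENNReal.ofReal ((12 * S.kq) ^ n) := ENNReal.ofReal_mul (by positivity)
    rw [e5, e6, e7]
  rw [e4]
  refine ENNReal.ofReal_le_ofReal ?_
  have h7 : 2 * S.kap ^ (1 / 2 : ℝ) ≤ lam := by
    refine le_trans ?_ hlam
    unfold kq
    nlinarith
  have h8 : (24 * S.kq) ^ n ≤ lam ^ n := pow_le_pow_left₀ (by positivity) hlam _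
  have h9 : (2 * S.kap ^ (1 / 2 : ℝ)) ^ (S.kr m + k) ≤ lam ^ (S.kr m + k) :=
    pow_le_pow_left₀ (by positivity) h7 _
  have hl0 : 0 ≤ lam := le_trans (by positivity) hlam
  have h10 : (2 : ℝ) ^ k ≤ 2 ^ (S.kr m + k) := pow_le_pow_right₀ (by norm_num) (by omega)
  calc 2 * (22768 * cPay * S.mv.ph m * 2 ^ (k + n) * (12 * S.kq) ^ n) * (S.kap ^ g) ^ S.th
      ≤ 2 * (22768 * cPay * S.mv.ph m * 2 ^ (k + n) * (12 * S.kq) ^ n) *
        (S.kap ^ (1 / 2 : ℝ)) ^ (S.kr m + k) := by gcongr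
    _ = (45536 * cPay * S.mv.ph m) * ((24 * S.kq) ^ n *
        (2 ^ k * (S.kap ^ (1 / 2 : ℝ)) ^ (S.kr m + k))) := by
        have e8 : (24 * S.kq) ^ n = 2 ^ n * (12 * S.kq) ^ n := by
          rw [← mul_pow]; congr 1; ring
        rw [e8, pow_add (2 : ℝ) k n]
        ring
    _ ≤ (45536 * cPay * S.mv.ph m) * ((24 * S.kq) ^ n *
        (2 ^ (S.kr m + k) * (S.kap ^ (1 / 2 : ℝ)) ^ (S.kr m + k))) := by gcongr
    _ = (45536 * cPay * S.mv.ph m) * ((24 * S.kq) ^ n *
        (2 * S.kap ^ (1 / 2 : ℝ)) ^ (S.kr m + k)) := by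
        rw [mul_pow (2 : ℝ) (S.kap ^ (1 / 2 : ℝ)) (S.kr m + k)]
    _ ≤ (45536 * cPay * S.mv.ph m) * (lam ^ n * lam ^ (S.kr m + k)) := by gcongr
    _ = cGood * S.mv.ph m * lam ^ (S.kr m + k + n) := by
        unfold cGood
        rw [pow_add lam (S.kr m + k) n]
        ring

end

/-- constant of THR0 -/
noncomputable def cT0 : ℝ := 2 * cThr + cGood

lemma cT0_nonneg : 0 ≤ cT0 := by
  have h1 := cThr_pos
  have h2 := cGood_nonneg
  unfold cT0
  linarith

/-- **(THR0), absolute constant per level**: `lam = 48 kq = 12288 kap ^ (1/2)` -/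
theorem thr0_abs (H : ThrC S) (hth : S.th = 1 / 2) (hk : S.kq ≤ 1)
    (hroot : ∀ m, m < S.mT → ∀ x, S.kl [] m x ≠ 0) {CT lam : ℝ} (hCT : cT0 ≤ CT)
    (hlam : 48 * S.kq ≤ lam) : S.THR0 CT lam := by
  have hkq0 := S.kq_nonneg
  have hs0 : 0 ≤ S.kap ^ (1 / 2 : ℝ) := Real.rpow_nonneg S.hkap.le _
  refine THR0_of_good (wt := fun m c r => S.cw (c :: r) m) H hroot
    (fun m _ c r y => S.As_child_le_cw c r m y) (fun m c r => S.cw_meas (c :: r) m)
    cGood_nonneg (lam0 := 24 * S.kq) (by positivity) (by unfold cT0 at hCT; exact hCT) ?_ ?_ ?_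
  · rw [hth]
    refine le_trans ?_ hlam
    unfold kq
    nlinarith
  · linarith
  · intro m hm hrot p hjj k n _ _ hN
    exact goodK hm hrot hth hk H (hroot m hm) hjj hN n le_rfl

end Vale.Agent.P262.H431
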